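import Vale.Agent.P080.C1.GoodScale.Setting

/-!
# Existence of parameters
-/

namespace Vale.Agent.P080.C1.GoodScale

open scoped Topology
open Filter

/-- all inequalities hold for large powers of two -/
theorem exists_budget {A C G τ θ : ℝ} (hA : 0 ≤ A) (hC : 1 ≤ C) (hG : 0 ≤ G) (hτ : 0 < τ)
    (hθ : 0 < θ) (hθ1 : θ < 1) : ∃ m : ℕ, Budget A C G τ θ (2 ^ m) := by
  have h2 : Tendsto (fun m : ℕ => 2 ^ m) atTop atTop :=
    tendsto_pow_atTop_atTop_of_one_lt (by norm_num)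
  suffices h : ∀ᶠ n : ℕ in atTop, Budget A C G τ θ n from (h2.eventually h).exists
  have hlim : Tendsto (fun n : ℕ => (n : ℝ) ^ 22 * θ ^ n) atTop (𝓝 0) :=
    tendsto_pow_const_mul_const_pow_of_abs_lt_one 22 (by rw [abs_of_pos hθ]; exact hθ1)
  have hev1 := hlim.eventually (Iic_mem_nhds (show (0:ℝ) < 1 / (8 * (1 + 2 * (4 * (33 * C + 400) + 1)))
    by positivity))
  set N0 : ℝ := 2000 + 256 * 5 * A + 8 * (G + 4) / τ + 8 * (6 * G + 4) / τ +
    1024 * (1 + A + (θ ^ 3)⁻¹ * (G + 435)) + 256 * 4 * 144 * (G + 145) + (30 * (1 + C)) ^ 2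
    with hN0
  have hev2 : ∀ᶠ n : ℕ in atTop, N0 ≤ (n : ℝ) := tendsto_natCast_atTop_atTop.eventually_ge_atTop N0
  filter_upwards [hev1, hev2] with n hn1 hn
  have p1 : 0 ≤ 256 * 5 * A := by positivity
  have p2 : 0 ≤ 8 * (G + 4) / τ := by positivity
  have p3 : 0 ≤ 8 * (6 * G + 4) / τ := by positivity
  have p4 : 0 ≤ 1024 * (1 + A + (θ ^ 3)⁻¹ * (G + 435)) := by positivity
  have p5 : 0 ≤ 256 * 4 * 144 * (G + 145) := by positivity
  have p6 : 0 ≤ (30 * (1 + C)) ^ 2 := sq_nonneg _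
  set x : ℝ := (n : ℝ) with hx
  have hx1 : 2000 ≤ x := by linarith
  have hx0 : 0 < x := by linarith
  have hone : 1 ≤ x := by linarith
  have hn2000 : 2000 ≤ n := by rw [hx] at hx1; exact_mod_cast hx1
  have hpow : ∀ {i j : ℕ}, i ≤ j → x ^ i ≤ x ^ j := fun h => pow_le_pow_right₀ hone h
  have hB : tilt n = x ^ 5 := rfl
  have hM : lev n = x ^ 10 / 256 := rfl
  have hJ : (nsc n : ℝ) ≤ 3 * x ^ 13 := by
    have := hpow (show 1 ≤ 13 by norm_num)
    rw [pow_one] at this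
    have e : (nsc n : ℝ) = x + x ^ 13 + 6 * x := by rw [nsc, hx]; push_cast; ring
    rw [e]
    have : 7 * x ≤ 2 * x ^ 13 := by
      have h13 : x * x ≤ x ^ 13 := by rw [← sq]; exact hpow (by norm_num)
      nlinarith
    linarith
  have hs5 : x ^ 2 ≤ Real.sqrt (x ^ 5) := Real.le_sqrt_of_sq_le (by rw [← pow_mul]; exact hpow (by norm_num))
  have hs5' : Real.sqrt (x ^ 5) ≤ x ^ 3 := by
    rw [Real.sqrt_le_left (by positivity), ← pow_mul]; exact hpow (by norm_num)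
  have h10 : x ≤ x ^ 10 := le_self_pow₀ hone (by norm_num)
  refine ⟨hn2000, ?_, ?_, ?_, ?_, ?_, ?_, ?_, ?_, ?_⟩
  · rw [hB, hM, Real.sqrt_le_left (by positivity), div_pow, ← pow_mul]
    norm_num
    linarith
  · rw [hM]; linarith
  · rw [hM, le_div_iff₀ (by norm_num)]; linarith
  · rw [hB]
    calc 8 * (G * x ^ 5 + 4 * x ^ 5) = 8 * (G + 4) / τ * τ * x ^ 5 := by field_simp
      _ ≤ x ^ 2 * τ * x ^ 5 := by
          refine mul_le_mul_of_nonneg_right (mul_le_mul_of_nonneg_right ?_ hτ.le) (by positivity)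
          have : x ≤ x ^ 2 := le_self_pow₀ hone (by norm_num)
          linarith
      _ ≤ Real.sqrt (x ^ 5) * τ * x ^ 5 :=
          mul_le_mul_of_nonneg_right (mul_le_mul_of_nonneg_right hs5 hτ.le) (by positivity)
      _ = τ * (x ^ 5 * Real.sqrt (x ^ 5)) := by ring
  · rw [hB, hM]
    have e1 : A / (288 * (x ^ 5) ^ 2 * (3 / x ^ 5) ^ 3) ≤ A * x ^ 9 := by
      rw [show 288 * (x ^ 5) ^ 2 * (3 / x ^ 5) ^ 3 = 7776 / x ^ 5 by field_simp; ring, div_div_eq_mul_div,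
        div_le_iff₀ (by norm_num)]
      nlinarith [mul_le_mul_of_nonneg_left (hpow (show 5 ≤ 9 by norm_num)) hA,
        mul_nonneg hA (pow_nonneg hx0.le 9)]
    have e2 : (G * x ^ 5 * x ^ 9 + (nsc n : ℝ) * (144 * (x ^ 5) ^ 2 / x ^ 9 + 1)) / x ^ 5 ≤
        (G + 435) * x ^ 9 := by
      rw [show 144 * (x ^ 5) ^ 2 / x ^ 9 = 144 * x by field_simp, div_le_iff₀ (by positivity)]
      calc G * x ^ 5 * x ^ 9 + (nsc n : ℝ) * (144 * x + 1)
          ≤ G * x ^ 5 * x ^ 9 + 3 * x ^ 13 * (145 * x) := by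
            refine add_le_add le_rfl (mul_le_mul hJ (by linarith) (by linarith) (by positivity))
        _ = _ := by ring
    have e3 := mul_le_mul_of_nonneg_left e2 (inv_nonneg.2 (pow_nonneg hθ.le 3))
    have e4 : (1 + A + (θ ^ 3)⁻¹ * (G + 435)) * x ^ 9 ≤ x / 1024 * x ^ 9 :=
      mul_le_mul_of_nonneg_right (by linarith) (by positivity)
    have e5 : (1:ℝ) ≤ x ^ 9 := one_le_pow₀ hone
    linarith
  · rw [hB, hM, show 144 * (x ^ 5) ^ 2 / x ^ 2 = 144 * x ^ 8 by field_simp]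
    have e2 : (G * x ^ 5 * x ^ 2 + 144 * x ^ 8 + 1) / x ^ 5 ≤ (G + 145) * x ^ 3 := by
      rw [div_le_iff₀ (by positivity)]
      have h7 := mul_le_mul_of_nonneg_left (hpow (show 7 ≤ 8 by norm_num)) hG
      have h8 : (1:ℝ) ≤ x ^ 8 := one_le_pow₀ hone
      linarith
    calc 144 * (x ^ 5) ^ 2 * ((G * x ^ 5 * x ^ 2 + 144 * x ^ 8 + 1) / x ^ 5)
        ≤ 144 * (x ^ 5) ^ 2 * ((G + 145) * x ^ 3) := mul_le_mul_of_nonneg_left e2 (by positivity)
      _ = 144 * (G + 145) * x ^ 13 := by ring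
      _ ≤ x ^ 2 / (256 * 4) * x ^ 13 := by
          refine mul_le_mul_of_nonneg_right ?_ (by positivity)
          have : x ≤ x ^ 2 := le_self_pow₀ hone (by norm_num)
          linarith
      _ = _ := by ring
  · rw [hB, hM]
    have e1 : Real.sqrt (11 * (x ^ 10 / 256)) ≤ x ^ 5 / 4 := by
      rw [Real.sqrt_le_left (by positivity), div_pow, ← pow_mul]
      norm_num
      linarith [pow_nonneg hx0.le 10]
    have e2 : 5 * (1 + C) * Real.sqrt (x ^ 5) ≤ x ^ 5 / 12 := by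
      calc 5 * (1 + C) * Real.sqrt (x ^ 5) ≤ 5 * (1 + C) * x ^ 3 :=
            mul_le_mul_of_nonneg_left hs5' (by linarith)
        _ ≤ x ^ 2 / 12 * x ^ 3 := by
            refine mul_le_mul_of_nonneg_right ?_ (by positivity)
            have h30 : (30 * (1 + C)) ^ 2 ≤ x := by linarith
            nlinarith
        _ = _ := by ring
    linarith [pow_nonneg hx0.le 5]
  · rw [hB, show 6 * x / x ^ 13 * (G * x ^ 5 * x ^ 6) = 6 * G / x by field_simp,
      show 4 * x ^ 5 / x ^ 6 = 4 / x by field_simp, ← add_div, ← mul_div_assoc, div_le_iff₀ hx0]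
    have h := mul_le_mul_of_nonneg_left (show 8 * (6 * G + 4) / τ ≤ x by linarith) hτ.le
    rwa [mul_div_cancel₀ _ hτ.ne'] at h
  · have hv : vslope C n ≤ (4 * (33 * C + 400) + 1) * x ^ 22 := by
      have hc : 0 ≤ 33 * C + 400 := by linarith
      have h1 : (nsc n : ℝ) + 1 ≤ 4 * x ^ 13 := by
        linarith [show (1:ℝ) ≤ x ^ 13 from one_le_pow₀ hone]
      have h5 := hpow (show 5 ≤ 22 by norm_num)
      calc vslope C n ≤ 4 * x ^ 13 * (33 * C + 400) * x ^ 8 + x ^ 22 :=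
            add_le_add (mul_le_mul_of_nonneg_right (mul_le_mul_of_nonneg_right h1 hc) (by positivity)) h5
        _ = 4 * (33 * C + 400) * x ^ 21 + x ^ 22 := by ring
        _ ≤ _ := by
            have := mul_le_mul_of_nonneg_left (hpow (show 21 ≤ 22 by norm_num))
              (show 0 ≤ 4 * (33 * C + 400) by positivity)
            linarith
    have hk : 1 + 2 * vslope C n ≤ (1 + 2 * (4 * (33 * C + 400) + 1)) * x ^ 22 := by
      linarith [show (1:ℝ) ≤ x ^ 22 from one_le_pow₀ hone]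
    calc 8 * θ ^ n * (1 + 2 * vslope C n)
        ≤ 8 * θ ^ n * ((1 + 2 * (4 * (33 * C + 400) + 1)) * x ^ 22) :=
          mul_le_mul_of_nonneg_left hk (by positivity)
      _ = 8 * (1 + 2 * (4 * (33 * C + 400) + 1)) * (x ^ 22 * θ ^ n) := by ring
      _ ≤ 8 * (1 + 2 * (4 * (33 * C + 400) + 1)) * (1 / (8 * (1 + 2 * (4 * (33 * C + 400) + 1)))) :=
          mul_le_mul_of_nonneg_left hn1 (by positivity)
      _ = 1 := by field_simp

end Vale.Agent.P080.C1.GoodScale
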