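import Vale.Agent.P080.C1.GoodScale.Iterate

/-!
# Selection of a good point
-/

namespace Vale.Agent.P080.C1.GoodScale

open scoped ContDiff Topology RealInnerProductSpace Gradient NNReal
open Set Filter MeasureTheory Metric

lemma gau_le_quarter {lam : ℝ} {N : ℕ} (hN : 0 < N) {P : Fin N → E3}
    (hP : ∀ i, gau lam (P i) = 1 / 8 + (i : ℝ) / (8 * N)) (i : Fin N) : gau lam (P i) ≤ 1/4 := by
  rw [hP]
  have : (i : ℝ) ≤ N := by exact_mod_cast i.2.le
  have : (i : ℝ) / (8 * N) ≤ 1 / 8 := by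
    rw [div_le_iff₀ (by positivity)]; linarith
  linarith

/-- for one mollification some point has small bands at all four levels -/
lemma exists_point {lam θ E : ℝ} {n N : ℕ} (hlam : 0 < lam) (hθ : 0 < θ) (hθ2 : θ ≤ 1/2)
    (hn : 2000 ≤ n) (hN : 0 < N) (hNs : 1 ≤ (N : ℝ) * scl' θ n (nsc n)) {P : Fin N → E3}
    (hP : ∀ i, gau lam (P i) = 1 / 8 + (i : ℝ) / (8 * N))
    (hsub : ∀ i j, sbox lam (tilt n) (P i) (scl' θ n j) ⊆ kbox lam) {g : E3 → ℝ}
    (hg : ContDiff ℝ 2 g) (hE : ∫ x in kbox lam, qlen lam g x ^ 2 ≤ E * lam) :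
    ∃ i, ∀ K ∈ ({1, (n : ℝ) ^ 2, (n : ℝ) ^ 6, (n : ℝ) ^ 9} : Finset ℝ),
      ∑ j ∈ Finset.range (nsc n), band lam (tilt n) K (P i) (scl' θ n j) g ≤
        1152 * E * tilt n * K := by
  classical
  obtain ⟨hB, -⟩ := tilt_facts hn
  set B := tilt n
  set Ks : Finset ℝ := {1, (n : ℝ) ^ 2, (n : ℝ) ^ 6, (n : ℝ) ^ 9}
  have hn0 : (0:ℝ) < n := by exact_mod_cast (show 0 < n by omega)
  have hKpos : ∀ K ∈ Ks, 0 < K := by
    intro K hK
    simp only [Ks, Finset.mem_insert, Finset.mem_singleton] at hK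
    rcases hK with rfl | rfl | rfl | rfl <;> positivity
  have hqq : ∀ i j : Fin N, |gau lam (P i) - gau lam (P j)| =
      |((i : ℕ) : ℝ) - ((j : ℕ) : ℝ)| * (1 / (8 * N)) := by
    intro i j
    rw [hP, hP, show 1 / 8 + (i : ℝ) / (8 * N) - (1 / 8 + (j : ℝ) / (8 * N)) =
      ((i : ℝ) - j) * (1 / (8 * N)) by ring, abs_mul,
      abs_of_nonneg (show (0:ℝ) ≤ 1 / (8 * N) by positivity)]
  have hfine : ∀ j < nsc n, 1 / (8 * (N:ℝ)) ≤ 6 * B * scl' θ n j := by
    intro j hj
    have h1 := scl'_anti hθ (hθ2.trans (by norm_num)) hn hj.le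
    have h2 := mul_le_mul_of_nonneg_left h1 (Nat.cast_nonneg N)
    have hρ := scl'_pos hθ hn j
    rw [div_le_iff₀ (by positivity)]
    nlinarith [mul_le_mul_of_nonneg_right hB (mul_nonneg (Nat.cast_nonneg (α := ℝ) N) hρ.le)]
  have hsum : ∀ K ∈ Ks, ∑ i, ∑ j ∈ Finset.range (nsc n), band lam B K (P i) (scl' θ n j) g ≤
      288 * E * B * K * N := by
    intro K hK
    have h := sum_hi_le (J := nsc n) hN (scl'_pos hθ hn)
      (fun j => by rw [scl'_succ]; nlinarith [scl'_pos hθ hn j]) (by positivity) hqq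
      (Z := gau lam) (by positivity : 0 ≤ 6 * B) hfine (U := kbox lam) (isCompact_latbox _ _)
      (S := fun i j => sbox lam B (P i) (scl' θ n j))
      (fun i j _ => ⟨(isCompact_sbox _ _ _ _).measurableSet, hsub i j,
        fun x hx => gau_sbox hlam hB (scl'_pos hθ hn j).le hx⟩)
      (continuous_qlen lam hg) (qlen_nonneg lam g) (hKpos K hK)
    simp only [band, ← Finset.sum_div]
    rw [div_le_iff₀ hlam]
    refine h.trans ?_
    have hc : 0 ≤ 6 * (6 * B) * K / (1 / (8 * (N:ℝ))) := by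
      have := hKpos K hK; positivity
    refine (mul_le_mul_of_nonneg_left hE hc).trans (le_of_eq ?_)
    field_simp; ring
  obtain ⟨i, -, hi⟩ := Finset.exists_le_of_sum_le (s := (Finset.univ : Finset (Fin N)))
    (by
      have : Nonempty (Fin N) := ⟨⟨0, hN⟩⟩
      exact Finset.univ_nonempty)
    (show ∑ i, ∑ K ∈ Ks, (∑ j ∈ Finset.range (nsc n), band lam B K (P i) (scl' θ n j) g) / K ≤
        ∑ _i : Fin N, 1152 * E * B by
      rw [Finset.sum_comm]
      calc ∑ K ∈ Ks, ∑ i, (∑ j ∈ Finset.range (nsc n), band lam B K (P i) (scl' θ n j) g) / K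
          ≤ ∑ _K ∈ Ks, 288 * E * B * N := by
            refine Finset.sum_le_sum fun K hK => ?_
            rw [← Finset.sum_div, div_le_iff₀ (hKpos K hK)]
            exact (hsum K hK).trans (le_of_eq (by ring))
        _ ≤ 4 * (288 * E * B * N) := by
            rw [Finset.sum_const, nsmul_eq_mul]
            have h4 : (Ks.card : ℝ) ≤ ((4 : ℕ) : ℝ) := Nat.cast_le.2 Finset.card_le_four
            rw [Nat.cast_ofNat] at h4
            refine mul_le_mul_of_nonneg_right h4 ?_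
            have h1 := hsum 1 (by simp [Ks])
            rw [mul_one] at h1
            exact le_trans (Finset.sum_nonneg fun i _ => Finset.sum_nonneg fun j _ =>
              band_nonneg hlam.le _ _ _ _ _) h1
        _ = ∑ _i : Fin N, 1152 * E * B := by simp; ring)
  refine ⟨i, fun K hK => ?_⟩
  have h1 := (Finset.single_le_sum (f := fun K => (∑ j ∈ Finset.range (nsc n),
    band lam B K (P i) (scl' θ n j) g) / K) (fun K hK => div_nonneg
      (Finset.sum_nonneg fun j _ => band_nonneg hlam.le _ _ _ _ _) (hKpos K hK).le) hK).trans hi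
  rwa [div_le_iff₀ (hKpos K hK)] at h1

end Vale.Agent.P080.C1.GoodScale
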