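import Vale.Agent.P080.C1.GoodScale.Step

/-!
# The next configuration
-/

namespace Vale.Agent.P080.C1.GoodScale

open scoped ContDiff Topology RealInnerProductSpace Gradient NNReal
open Set Filter MeasureTheory Metric

variable {O : E3 ≃ₗᵢ[ℝ] E3} {a P : E3} {b ρ : ℝ}

lemma norm_le_axis (z : E3) : ‖z‖ ≤ |z 2| + lat z := by
  refine le_of_pow_le_pow_left₀ two_ne_zero (add_nonneg (abs_nonneg _) (lat_nonneg _)) ?_
  rw [norm_sq_eq_lat, add_sq, lat, Real.sq_sqrt (latSq_nonneg z), sq_abs]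
  nlinarith [mul_nonneg (abs_nonneg (z 2)) (Real.sqrt_nonneg (latSq z))]

/-- a lateral vector keeps a small vertical component in a tilted frame -/
lemma rot_vertical {ν lam : ℝ} (h : Adm ν lam O a) (hν : ν ≤ 1/100) (hlam1 : lam ≤ 1) (z : E3) :
    |O z 2| ≤ 2 * |z 2| + 3 * (lat z * lat a) := by
  obtain ⟨hL, hL'⟩ := h.norm_bounds hν hlam1
  have hs : Real.sqrt lam ≤ 1 := Real.sqrt_le_one.2 hlam1
  have hν0 : 0 ≤ ν := (lat_nonneg a).trans h.lata
  have ha2 := abs_le.1 (h.a2.trans ((mul_le_of_le_one_right hν0 hs).trans hν))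
  have ha : a = ‖a‖ • O e3 := by
    rw [h.axis, smul_smul, mul_inv_cancel₀ (show ‖a‖ ≠ 0 by linarith), one_smul]
  have e : ⟪a, O z⟫ = ‖a‖ * z 2 := by
    conv_lhs => rw [ha, real_inner_smul_left, O.inner_map_map]
    simp [e3, EuclideanSpace.inner_single_left]
  have e2 : a 2 * O z 2 = ‖a‖ * z 2 - (a 0 * O z 0 + a 1 * O z 1) := by
    rw [← e, ← sum_mul_eq_inner, Fin.sum_univ_three]; ring
  have hl : |a 0 * O z 0 + a 1 * O z 1| ≤ lat a * lat (O z) := by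
    rw [lat, lat, ← Real.sqrt_mul (latSq_nonneg a)]
    refine Real.le_sqrt_of_sq_le ?_
    rw [sq_abs]; unfold latSq
    nlinarith [sq_nonneg (a 0 * O z 1 - a 1 * O z 0)]
  have hlo : lat (O z) ≤ |z 2| + lat z := by
    refine (lat_le_norm _).trans ?_
    rw [O.norm_map]; exact norm_le_axis z
  have h3 : a 2 * |O z 2| ≤ ‖a‖ * |z 2| + lat a * (|z 2| + lat z) := by
    rw [← abs_of_pos (show 0 < a 2 by linarith), ← abs_mul, e2]
    refine (abs_sub _ _).trans (add_le_add ?_ (hl.trans (mul_le_mul_of_nonneg_left hlo (lat_nonneg a))))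
    rw [abs_mul, abs_norm]
  nlinarith [abs_nonneg (z 2), abs_nonneg (O z 2), lat_nonneg z, lat_nonneg a,
    mul_nonneg (lat_nonneg z) (lat_nonneg a), h.lata]

lemma affine_change {a' : E3} {g : E3 → ℝ} {x y w : E3} {ρ3 : ℝ}
    (hn : O e3 = ‖a‖⁻¹ • a) (ha : a ≠ 0) (hρ : 0 < ρ3) (ha' : a' = a + ‖a‖ • O w)
    (hy : x = chart O P ρ3 y) (u0 : ℝ) :
    g x - (⟪a', x⟫ + (⟪a, P⟫ + b + ‖a‖ * ρ3 * u0 - ⟪a', P⟫)) =
      ‖a‖ * ρ3 * (cu O a P b ρ3 g y - (u0 + w 0 * y 0 + w 1 * y 1 + (1 + w 2) * y 2)) := by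
  have h1 : ⟪a, x⟫ - ⟪a, P⟫ = ‖a‖ * ρ3 * y 2 := by
    rw [← inner_sub_right, hy, chart, add_sub_cancel_left, inner_chart hn ha]
  have h2 : ⟪a', x⟫ - ⟪a', P⟫ = ⟪a, x⟫ - ⟪a, P⟫ +
      ‖a‖ * ρ3 * (w 0 * y 0 + w 1 * y 1 + w 2 * y 2) := by
    rw [← inner_sub_right, ← inner_sub_right, hy, chart, add_sub_cancel_left, ha', inner_add_left]
    simp only [real_inner_smul_left, real_inner_smul_right, O.inner_map_map]
    rw [show ⟪w, y⟫ = w 0 * y 0 + w 1 * y 1 + w 2 * y 2 by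
      rw [← sum_mul_eq_inner, Fin.sum_univ_three]]
    ring
  have h3 : cu O a P b ρ3 g y * (‖a‖ * ρ3) = g x - (⟪a, P⟫ + b) := by
    rw [cu, nrm, ← hy, div_mul_cancel₀ _ (by positivity)]
  linear_combination -h3 - h1 - h2

lemma advance_error {L ρ Λ C E d8 θ h lam : ℝ} (hL : L ≤ 51/50) (hρ : 0 < ρ) (hC : 0 ≤ C)
    (hΛ : Λ = 16 * h * lam) (hhl : 0 ≤ h * lam) (hE : 0 ≤ E) (hEθ : E ≤ 1000000 * θ ^ 2)
    (hd8 : 0 ≤ d8) {D : ℝ} (hD : |D| ≤ Λ * C * (E + d8)) (hL0 : 0 ≤ L) :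
    |L * (ρ / 8) * D| ≤ 3 * C * (1000000 * θ ^ 2 + d8) * (h * lam * ρ) := by
  have hΛ0 : 0 ≤ Λ := by rw [hΛ]; linarith
  rw [abs_mul, abs_of_nonneg (by positivity)]
  calc L * (ρ / 8) * |D| ≤ 51/50 * (ρ / 8) * (Λ * C * (1000000 * θ ^ 2 + d8)) :=
        mul_le_mul (mul_le_mul_of_nonneg_right hL (by positivity))
          (hD.trans (mul_le_mul_of_nonneg_left (by linarith) (by positivity)))
          (abs_nonneg _) (by positivity)
    _ = 51/25 * (C * (1000000 * θ ^ 2 + d8) * (h * lam * ρ)) := by rw [hΛ]; ring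
    _ ≤ 3 * (C * (1000000 * θ ^ 2 + d8) * (h * lam * ρ)) :=
        mul_le_mul_of_nonneg_right (by norm_num) (by
          have : 0 ≤ h * lam * ρ := by positivity
          positivity)
    _ = _ := by ring

lemma target_bounds {O' : E3 ≃ₗᵢ[ℝ] E3} {a' w z : E3} {θ S : ℝ} (hθ : 0 < θ) (hS : 0 ≤ S)
    (hS1 : S ≤ 1/1000) (hO' : O' e3 = ‖a'‖⁻¹ • a') (hOa : O.symm a' = ‖a‖ • (e3 + w))
    (hwl : lat w ≤ 32 * S) (hna' : 98/100 * ‖a‖ ≤ ‖a'‖) (hL : 99/100 ≤ ‖a‖)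
    (hz2 : |z 2| ≤ 1) (hzl' : lat z ≤ 10 * S) :
    |((8 * θ) • O.symm (O' z)) 2| ≤ 16 * θ ∧
      lat ((8 * θ) • O.symm (O' z)) ≤ 424 * θ * S := by
  have he3 : e3 2 = 1 ∧ e3 0 = 0 ∧ e3 1 = 0 := by simp [e3]
  have hy2 : |((8 * θ) • O.symm (O' z)) 2| ≤ 16 * θ := by
    rw [← Real.norm_eq_abs]
    refine (PiLp.norm_apply_le _ _).trans ?_
    rw [norm_smul, LinearIsometryEquiv.norm_map, O'.norm_map,
      Real.norm_of_nonneg (by positivity)]
    calc 8 * θ * ‖z‖ ≤ 8 * θ * 2 :=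
          mul_le_mul_of_nonneg_left ((norm_le_axis z).trans (by linarith)) (by positivity)
      _ = 16 * θ := by ring
  have hyl : lat ((8 * θ) • O.symm (O' z)) ≤ 424 * θ * S := by
    rw [lat_smul, abs_of_pos (by positivity)]
    have hdec : O.symm (O' z) = z 2 • O.symm (O' e3) + O.symm (O' (z - z 2 • e3)) := by
      simp [map_sub, map_smul]
    have h1 : lat (O.symm (O' e3)) ≤ 33 * S := by
      rw [hO', map_smul, hOa, smul_smul, lat_smul,
        show lat (e3 + w) = lat w by simp [lat, latSq, he3]]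
      have hb : |‖a'‖⁻¹ * ‖a‖| ≤ 100/98 := by
        rw [abs_of_nonneg (by positivity), inv_mul_le_iff₀ (by linarith)]
        linarith
      calc _ ≤ 100/98 * (32 * S) := mul_le_mul hb hwl (lat_nonneg w) (by norm_num)
        _ ≤ 33 * S := by linarith
    have h2 : lat (O.symm (O' (z - z 2 • e3))) ≤ lat z := by
      refine (lat_le_norm _).trans (le_of_eq ?_)
      rw [LinearIsometryEquiv.norm_map, O'.norm_map, norm_sub_axis]
    have h3 : lat (O.symm (O' z)) ≤ 53 * S := by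
      rw [hdec]
      refine (lat_add_le _ _).trans ?_
      rw [lat_smul]
      have := mul_le_mul hz2 h1 (lat_nonneg _) zero_le_one
      linarith
    calc 8 * θ * lat (O.symm (O' z)) ≤ 8 * θ * (53 * S) :=
          mul_le_mul_of_nonneg_left h3 (by positivity)
      _ = _ := by ring
  exact ⟨hy2, hyl⟩

/-- from an improvement to a flatter configuration at a smaller scale -/
theorem advance {ν lam h C d θ : ℝ} {v : E3 → ℝ} (hν : ν ≤ 1/100) (hlam : 0 < lam) (hlam1 : lam ≤ 1)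
    (hh : 1 ≤ h) (hρ : 0 < ρ) (hθ : 0 < θ) (hθ' : θ ≤ 1/4000) (hC : 1 ≤ C) (hd : 0 ≤ d)
    (hsmall : 16 * h * lam * C ^ 2 ≤ 1/1000000) (hadm : Adm ν lam O a)
    (himp : Improved C (16 * h * lam) d (cu O a P b (ρ / 8) v)) :
    ∃ (a' : E3) (b' : ℝ), |a' 2 - a 2| ≤ 33 * C * (h * lam) + 400 * (Real.sqrt (h * lam) * lat a) ∧
      lat (a' - a) ≤ 140 * Real.sqrt (h * lam) ∧
      ∀ O' : E3 ≃ₗᵢ[ℝ] E3, O' e3 = ‖a'‖⁻¹ • a' → ∀ z : E3, |z 2| ≤ 1 →
        lat z ≤ 40 * Real.sqrt (h * lam) →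
        |v (chart O' P (θ * ρ) z) - (⟪a', chart O' P (θ * ρ) z⟫ + b')| ≤
          3 * C * (1000000 * θ ^ 2 + d ^ (1/8 : ℝ)) * (h * lam * ρ) := by
  obtain ⟨c0, c1, s, hc0, hc1, hs, himp⟩ := himp
  obtain ⟨hL, hL'⟩ := hadm.norm_bounds hν hlam1
  set Λ := 16 * h * lam with hΛdef
  have hhl : 0 < h * lam := mul_pos (by linarith) hlam
  have hΛ : 0 < Λ := by rw [hΛdef]; linarith
  set S := Real.sqrt Λ with hSdef
  have hS : 0 < S := Real.sqrt_pos.2 hΛ
  have hS4 : S = 4 * Real.sqrt (h * lam) := by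
    rw [hSdef, hΛdef, mul_assoc, Real.sqrt_mul (by norm_num),
      show (16:ℝ) = 4 ^ 2 by norm_num, Real.sqrt_sq (by norm_num)]
  have hS2 : S ^ 2 = Λ := Real.sq_sqrt hΛ.le
  have hSC : S * C ≤ 1/1000 := by
    refine le_of_pow_le_pow_left₀ two_ne_zero (by norm_num) ?_
    rw [mul_pow, hS2]; norm_num; linarith
  have hS1 : S ≤ 1/1000 := (le_mul_of_one_le_right hS.le hC).trans hSC
  set w : E3 := WithLp.toLp 2 ![S * c0, S * c1, Λ * s] with hw
  have w0 : w 0 = S * c0 := rfl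
  have w1 : w 1 = S * c1 := rfl
  have w2 : w 2 = Λ * s := rfl
  have hw2 : |w 2| ≤ Λ * C := by
    rw [w2, abs_mul, abs_of_pos hΛ]; exact mul_le_mul_of_nonneg_left hs hΛ.le
  have hΛS : Λ * C ≤ S * (1/1000) := by
    rw [← hS2, sq, mul_assoc]; exact mul_le_mul_of_nonneg_left hSC hS.le
  have hwl : lat w ≤ 32 * S := by
    refine (lat_le_add w).trans ?_
    rw [w0, w1, abs_mul, abs_mul, abs_of_pos hS]
    nlinarith
  set a' := a + ‖a‖ • O w with ha'
  have ha0 : a ≠ 0 := by rintro rfl; simp at hL; linarith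
  have hOa : O.symm a' = ‖a‖ • (e3 + w) := by
    apply O.injective
    rw [O.apply_symm_apply, map_smul, map_add, hadm.axis, smul_add, smul_smul,
      mul_inv_cancel₀ (norm_ne_zero_iff.2 ha0), one_smul]
  have he3 : e3 2 = 1 ∧ e3 0 = 0 ∧ e3 1 = 0 := by simp [e3]
  have hna' : 98/100 * ‖a‖ ≤ ‖a'‖ := by
    rw [← O.symm.norm_map a', hOa, norm_smul, norm_norm, mul_comm (98/100 : ℝ)]
    refine mul_le_mul_of_nonneg_left ?_ (norm_nonneg a)
    have h1 : |(e3 + w) 2| ≤ ‖e3 + w‖ := by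
      rw [← Real.norm_eq_abs]; exact PiLp.norm_apply_le _ _
    rw [PiLp.add_apply, he3.1] at h1
    have := abs_le.1 (hw2.trans hΛS)
    linarith [le_abs_self (1 + w 2)]
  set u := cu O a P b (ρ / 8) v
  refine ⟨a', ⟪a, P⟫ + b + ‖a‖ * (ρ / 8) * u 0 - ⟪a', P⟫, ?_, ?_, fun O' hO' z hz2 hzl => ?_⟩
  · rw [ha', PiLp.add_apply, add_sub_cancel_left, PiLp.smul_apply, smul_eq_mul, abs_mul, abs_norm]
    refine (mul_le_mul hL' (rot_vertical hadm hν hlam1 w) (abs_nonneg _) (by norm_num)).trans ?_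
    rw [hS4] at hwl
    have := mul_le_mul_of_nonneg_right hwl (lat_nonneg a)
    have := mul_nonneg (show 0 ≤ C by linarith) hhl.le
    have := mul_nonneg (Real.sqrt_nonneg (h * lam)) (lat_nonneg a)
    rw [hΛdef] at hw2
    linarith
  · rw [ha', add_sub_cancel_left]
    refine (lat_le_norm _).trans ?_
    rw [norm_smul, norm_norm, O.norm_map]
    refine (mul_le_mul hL' (norm_le_axis w) (norm_nonneg _) (by norm_num)).trans ?_
    rw [hS4] at hwl hΛS
    linarith [Real.sqrt_nonneg (h * lam)]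
  · set x := chart O' P (θ * ρ) z
    set y := chartInv O P (ρ / 8) x with hy
    have hρ8 : (ρ / 8) ≠ 0 := by positivity
    have hy' : y = (8 * θ) • O.symm (O' z) := by
      rw [hy, chartInv, show x - P = (θ * ρ) • O' z by simp [x, chart], map_smul, smul_smul]
      congr 1; field_simp
    obtain ⟨hy2, hyl⟩ : |y 2| ≤ 16 * θ ∧ lat y ≤ 424 * θ * S := by
      rw [hy']
      exact target_bounds hθ hS.le hS1 hO' hOa hwl hna' hL hz2 (by rw [hS4]; linarith)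
    have hy0 := (abs_le_lat y).1.trans hyl
    have hy1 := (abs_le_lat y).2.trans hyl
    have hθS : 424 * θ * S ≤ S / 8 := by linarith only [mul_le_mul_of_nonneg_right hθ' hS.le, hS]
    have hE : ((|y 0| + |y 1|) / S + |y 2|) ^ 2 ≤ 1000000 * θ ^ 2 := by
      have h1 : (|y 0| + |y 1|) / S ≤ 848 * θ := by
        rw [div_le_iff₀ hS]; linarith only [hy0, hy1]
      calc _ ≤ (864 * θ) ^ 2 := pow_le_pow_left₀ (by positivity) (by linarith only [h1, hy2]) 2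
        _ ≤ _ := by rw [mul_pow]; linarith only [sq_nonneg θ]
    have hb := himp y (by linarith only [hy2, hθ']) (hy0.trans hθS) (hy1.trans hθS)
    rw [affine_change hadm.axis ha0 (by positivity : 0 < ρ / 8) ha'
      (chart_chartInv hρ8 x).symm (u 0), w0, w1, w2]
    exact advance_error hL' hρ (by linarith only [hC]) hΛdef hhl.le (sq_nonneg _) hE
      (Real.rpow_nonneg hd _) hb (norm_nonneg a)

end Vale.Agent.P080.C1.GoodScale
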