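import Vale.Agent.P080.C1.GoodScale.Transform
import Vale.Agent.P080.C1.Approx.Moll

/-!
# Gradient bounds pass between a function and its mollifications
-/

namespace Vale.Agent.P080.C1.GoodScale

open scoped ContDiff Topology RealInnerProductSpace Gradient NNReal
open Set Filter MeasureTheory Metric Vale.Agent.P080.C1.Approx

/-- quadratic plus linear test function on gradients -/
noncomputable def qtest (k : ℝ) (w : E3) (p : E3) : ℝ := k * ‖p‖ ^ 2 + ⟪w, p⟫

lemma continuous_qtest (k : ℝ) (w : E3) : Continuous (qtest k w) := by unfold qtest; fun_prop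

lemma qtest_plane {k : ℝ} (hk : 0 ≤ k) (w p q : E3) :
    qtest k w p + ⟪(2 * k) • p + w, q - p⟫ ≤ qtest k w q := by
  have h : 0 ≤ k * ‖q - p‖ ^ 2 := by positivity
  rw [norm_sub_sq_real] at h
  simp only [qtest, inner_add_left, real_inner_smul_left, inner_sub_right,
    real_inner_self_eq_norm_sq]
  rw [real_inner_comm q p] at *
  linarith

variable {v : E3 → ℝ} {K : ℝ≥0}

/-- a bound valid a.e. near `x` passes to the mollification -/
lemma qtest_moll_le (hv : LipschitzWith K v) {m : ℝ} (hm : 0 < m) {x : E3} {k : ℝ} (hk : 0 ≤ k)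
    {w : E3} {C : ℝ} (h : ∀ᵐ y, y ∈ closedBall x m → qtest k w (∇ v y) ≤ C) :
    qtest k w (∇ (moll m v) x) ≤ C := by
  refine (jensen_moll hm hv (continuous_qtest k w) (qtest_plane hk w) x).trans ?_
  rw [moll_eq_mol hm]
  obtain ⟨B, hB⟩ := (isCompact_closedBall (0 : E3) K).exists_bound_of_continuousOn
    (continuous_qtest k w).continuousOn
  have hI : Integrable fun h => wgt 3 m h • qtest k w (∇ v (x - h)) :=
    integrable_wgt_smul m (g := fun y => qtest k w (∇ v y))
      ((continuous_qtest k w).comp_aestronglyMeasurable (measurable_gradient v).aestronglyMeasurable)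
      (fun y => hB _ (by simpa using norm_gradient_le hv y)) x
  have hw : Integrable (wgt 3 m) := (bump 3 m).integrable_normed
  calc ∫ h, wgt 3 m h • qtest k w (∇ v (x - h)) ≤ ∫ h, wgt 3 m h • C := by
        refine integral_mono_ae hI (hw.smul_const C) ?_
        filter_upwards [(Measure.measurePreserving_sub_left volume x).quasiMeasurePreserving.ae h]
          with y hy
        by_cases hn : m ≤ ‖y‖
        · simp [wgt_eq_zero hm hn]
        · refine smul_le_smul_of_nonneg_left (hy ?_) (wgt_nonneg m y)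
          rw [mem_closedBall, dist_eq_norm, sub_sub_cancel_left, norm_neg]; exact (not_le.1 hn).le
    _ = C := by rw [integral_smul_const, wgt_integral, one_smul]

/-- bounds on all small mollifications hold a.e. for the gradient itself -/
lemma qtest_ae (hv : LipschitzWith K v) {k C : ℝ} {w : E3} {S : Set E3}
    (h : ∀ᶠ m in 𝓝[>] (0 : ℝ), ∀ x ∈ S, qtest k w (∇ (moll m v) x) ≤ C) :
    ∀ᵐ x, x ∈ S → qtest k w (∇ v x) ≤ C := by
  filter_upwards [ae_tendsto_mol (g := fun y => ∇ v y)
    (locallyIntegrable_of_bounded (measurable_gradient v).aestronglyMeasurable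
      (norm_gradient_le hv))] with x hx hxS
  refine le_of_tendsto (((continuous_qtest k w).tendsto _).comp hx) ?_
  filter_upwards [h, self_mem_nhdsWithin] with m hm hm0
  have hm0 : 0 < m := hm0
  have := hm x hxS
  rw [moll_eq_mol hm0, gradient_mol m hv x] at this
  exact this

/-- a.e. statements pull back through charts -/
lemma ae_chart (O : E3 ≃ₗᵢ[ℝ] E3) (P : E3) {ρ : ℝ} (hρ : ρ ≠ 0) {p : E3 → Prop}
    (h : ∀ᵐ x, p x) : ∀ᵐ z, p (chart O P ρ z) := by
  have h1 : ∀ᵐ y : E3, p (P + ρ • y) := by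
    have h0 : ∀ᵐ y : E3, p (P + y) :=
      (measurePreserving_add_left volume P).quasiMeasurePreserving.ae h
    exact (Measure.quasiMeasurePreserving_smul (volume : Measure E3) hρ).ae h0
  exact O.measurePreserving.quasiMeasurePreserving.ae h1

lemma ae_chart' (O : E3 ≃ₗᵢ[ℝ] E3) (P : E3) {ρ : ℝ} (hρ : ρ ≠ 0) {p : E3 → Prop}
    (h : ∀ᵐ z, p (chart O P ρ z)) : ∀ᵐ x, p x := by
  have hinv : ∀ x, chart O.symm (-(ρ⁻¹ • O.symm P)) ρ⁻¹ x = chartInv O P ρ x := fun x => by
    simp [chart, chartInv, map_sub, smul_sub]; abel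
  filter_upwards [ae_chart O.symm (-(ρ⁻¹ • O.symm P)) (inv_ne_zero hρ) h] with x hx
  rwa [hinv, chart_chartInv hρ] at hx

end Vale.Agent.P080.C1.GoodScale
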