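import Vale.Agent.P080.C1.GoodScale.Geometry
import Mathlib.Algebra.Order.BigOperators.Group.Finset
import Mathlib.MeasureTheory.Integral.Bochner.Set

/-!
# Averaging over points with spread-out gauges, summed over dyadic-like scales
-/

namespace Vale.Agent.P080.C1.GoodScale

open scoped ContDiff Topology RealInnerProductSpace
open Set Filter MeasureTheory Metric

/-- the part of `g` above the level `1/(K ρ)` -/
noncomputable def hi (K ρ : ℝ) (g : E3 → ℝ) : E3 → ℝ := {x | 1 / (K * ρ) < g x}.indicator g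

lemma measurableSet_hi {g : E3 → ℝ} (hg : Continuous g) (s : ℝ) :
    MeasurableSet {x : E3 | s < g x} := (isOpen_lt continuous_const hg).measurableSet

lemma integrableOn_hi {g : E3 → ℝ} (hg : Continuous g) (K ρ : ℝ) {S : Set E3} (hS : IsCompact S) :
    IntegrableOn (hi K ρ g) S :=
  (hg.continuousOn.integrableOn_compact hS).indicator (measurableSet_hi hg _)

lemma hi_nonneg {g : E3 → ℝ} (h0 : ∀ x, 0 ≤ g x) (K ρ : ℝ) (x : E3) : 0 ≤ hi K ρ g x :=
  indicator_nonneg (fun x _ => h0 x) x

lemma le_hi_add {g : E3 → ℝ} {K ρ : ℝ} (h : 0 < K * ρ) (x : E3) :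
    g x ≤ hi K ρ g x + 1 / (K * ρ) := by
  by_cases hx : 1 / (K * ρ) < g x
  · rw [hi, indicator_of_mem (show x ∈ {x | 1 / (K * ρ) < g x} from hx)]
    linarith [one_div_pos.2 h]
  · rw [hi, indicator_of_notMem (show x ∉ {x | 1 / (K * ρ) < g x} from hx), zero_add]
    exact not_lt.1 hx

/-- low and high part of an integral -/
lemma integral_le_hi_add {g : E3 → ℝ} (hg : Continuous g) (h0 : ∀ x, 0 ≤ g x) {K ρ : ℝ}
    (h : 0 < K * ρ) {S T : Set E3} (hS : IsCompact S) (hT : IsCompact T) (hST : S ⊆ T) :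
    ∫ x in S, g x ≤ (∫ x in T, hi K ρ g x) + volume.real S / (K * ρ) := by
  calc ∫ x in S, g x ≤ ∫ x in S, (hi K ρ g x + 1 / (K * ρ)) :=
        setIntegral_mono_on (hg.continuousOn.integrableOn_compact hS)
          ((integrableOn_hi hg K ρ hS).add
            (continuous_const.continuousOn.integrableOn_compact hS)) hS.measurableSet
          fun x _ => le_hi_add h x
    _ = (∫ x in S, hi K ρ g x) + volume.real S / (K * ρ) := by
        rw [integral_add (integrableOn_hi hg K ρ hS)
          (continuous_const.continuousOn.integrableOn_compact hS), setIntegral_const, smul_eq_mul,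
          mul_one_div]
    _ ≤ _ := add_le_add_left (setIntegral_mono_set (integrableOn_hi hg K ρ hT)
        (Eventually.of_forall fun x => hi_nonneg h0 K ρ x) (Eventually.of_forall hST)) _

/-- geometric scales -/
lemma sum_scales_le {ρ : ℕ → ℝ} (hρ : ∀ j, 0 < ρ j) (hρs : ∀ j, ρ (j + 1) ≤ ρ j / 2) {s : ℝ}
    (hs : 0 < s) : ∀ J, ∑ j ∈ Finset.range J, (if s < ρ j then (ρ j)⁻¹ else 0) ≤ 2 / s := by
  suffices H : ∀ J, ∑ j ∈ Finset.range J, (if s < ρ j then (ρ j)⁻¹ else 0) ≤
      if s < ρ 0 then 2 / s else 0 by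
    intro J
    refine (H J).trans ?_
    split_ifs with h
    · exact le_rfl
    · positivity
  intro J
  have hinv : ∀ j, 2 * (ρ j)⁻¹ ≤ (ρ (j + 1))⁻¹ := fun j => by
    rw [← inv_inv (2 * (ρ j)⁻¹)]
    refine inv_anti₀ (hρ _) ?_
    rw [mul_inv, inv_inv]; linarith [hρs j]
  have hanti : ∀ j, ρ (j + 1) ≤ ρ j := fun j => by linarith [hρs j, hρ j]
  have key : ∀ J, ∑ j ∈ Finset.range J, (if s < ρ j then (ρ j)⁻¹ else 0) ≤
      (if s < ρ 0 then (min ((ρ J)⁻¹) (2 / s)) else 0) := by
    intro J
    induction J with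
    | zero =>
      simp only [Finset.range_zero, Finset.sum_empty]
      split_ifs
      · exact le_min (inv_nonneg.2 (hρ 0).le) (by positivity)
      · exact le_rfl
    | succ J ih =>
      rw [Finset.sum_range_succ]
      by_cases h0 : s < ρ 0
      · simp only [h0, if_true] at ih ⊢
        by_cases hJ : s < ρ J
        · rw [if_pos hJ]
          have h1 := hinv J
          have h3 : (ρ J)⁻¹ ≤ 1 / s := by rw [one_div]; exact inv_anti₀ hs hJ.le
          have h4 := ih.trans (min_le_left _ _)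
          exact le_min (by linarith) (by linarith [show (2:ℝ) / s = 2 * (1 / s) by ring])
        · rw [if_neg hJ, add_zero]
          refine ih.trans (min_le_min_right _ ?_)
          exact inv_anti₀ (hρ _) (hanti J)
      · simp only [h0, if_false] at ih ⊢
        have hJ : ¬ s < ρ J := fun h => h0 (h.trans_le (antitone_nat_of_succ_le hanti (Nat.zero_le J)))
        rw [if_neg hJ, add_zero]; exact ih
  exact (key J).trans (by split_ifs <;> simp)

/-- few equidistributed values lie in an interval -/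
lemma card_near_le {N : ℕ} (hN : 0 < N) {q : Fin N → ℝ} {d : ℝ} (hd : 0 < d)
    (hq : ∀ i j : Fin N, |q i - q j| = |((i : ℕ) : ℝ) - ((j : ℕ) : ℝ)| * d) (c r : ℝ) (hr : 0 ≤ r)
    (F : Finset (Fin N)) (hF : ∀ i ∈ F, |q i - c| ≤ r) : (F.card : ℝ) ≤ 2 * r / d + 1 := by
  rcases F.eq_empty_or_nonempty with rfl | hne
  · simp; positivity
  set a := F.min' hne
  set b := F.max' hne
  have hab : (a : ℕ) ≤ (b : ℕ) := F.min'_le _ (F.max'_mem hne)
  have h1 : F.card ≤ ((b : ℕ) + 1 - (a : ℕ)) := by
    rw [← Nat.card_Icc]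
    refine Finset.card_le_card_of_injOn (fun i => (i : ℕ)) (fun i hi => ?_) Fin.val_injective.injOn
    simp only [Finset.coe_Icc, mem_Icc]
    exact ⟨F.min'_le i hi, F.le_max' i hi⟩
  have h2 : |((b : ℕ) : ℝ) - ((a : ℕ) : ℝ)| * d ≤ 2 * r := by
    rw [← hq]
    have ha := abs_le.1 (hF a (F.min'_mem hne))
    have hb := abs_le.1 (hF b (F.max'_mem hne))
    rw [abs_le]; constructor <;> linarith
  rw [abs_of_nonneg (by simpa using hab), ← le_div_iff₀ hd] at h2
  have h3 : (F.card : ℝ) ≤ (((b : ℕ) + 1 - (a : ℕ) : ℕ) : ℝ) := by exact_mod_cast h1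
  rw [Nat.cast_sub (by omega)] at h3
  push_cast at h3
  linarith

/-- Averaged over the points, the high parts at all scales are bounded by the energy. -/
theorem sum_hi_le {N : ℕ} (hN : 0 < N) {J : ℕ} {ρ : ℕ → ℝ} (hρ : ∀ j, 0 < ρ j)
    (hρs : ∀ j, ρ (j + 1) ≤ ρ j / 2) {q : Fin N → ℝ} {d : ℝ} (hd : 0 < d)
    (hq : ∀ i j : Fin N, |q i - q j| = |((i : ℕ) : ℝ) - ((j : ℕ) : ℝ)| * d)
    {Z : E3 → ℝ} {W : ℝ} (hW : 0 ≤ W) (hfine : ∀ j < J, d ≤ W * ρ j)
    {S : Fin N → ℕ → Set E3} {U : Set E3} (hU : IsCompact U)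
    (hS : ∀ i, ∀ j < J, MeasurableSet (S i j) ∧ S i j ⊆ U ∧ ∀ x ∈ S i j, |q i - Z x| ≤ W * ρ j)
    {g : E3 → ℝ} (hg : Continuous g) (h0 : ∀ x, 0 ≤ g x) {K : ℝ} (hK : 0 < K) :
    ∑ i, ∑ j ∈ Finset.range J, (ρ j ^ 2)⁻¹ * ∫ x in S i j, hi K (ρ j) g x ≤
      6 * W * K / d * ∫ x in U, g x ^ 2 := by
  classical
  have hint : ∀ i j, j < J →
      IntegrableOn ((S i j).indicator fun x => (ρ j ^ 2)⁻¹ * hi K (ρ j) g x) U := fun i j hj =>
    ((integrableOn_hi hg K (ρ j) hU).const_mul _).indicator (hS i j hj).1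
  have e1 : ∀ i j, j < J → (ρ j ^ 2)⁻¹ * ∫ x in S i j, hi K (ρ j) g x =
      ∫ x in U, (S i j).indicator (fun x => (ρ j ^ 2)⁻¹ * hi K (ρ j) g x) x := fun i j hj => by
    rw [setIntegral_indicator (hS i j hj).1, inter_eq_self_of_subset_right (hS i j hj).2.1,
      integral_const_mul]
  rw [Finset.sum_congr rfl fun i _ => Finset.sum_congr rfl fun j hj => e1 i j (Finset.mem_range.1 hj),
    Finset.sum_congr rfl fun i _ => (integral_finsetSum _ fun j hj =>
      hint i j (Finset.mem_range.1 hj)).symm,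
    ← integral_finsetSum _ fun i _ => integrable_finsetSum _ fun j hj =>
      hint i j (Finset.mem_range.1 hj), ← integral_const_mul]
  refine setIntegral_mono_on (integrable_finsetSum _ fun i _ => integrable_finsetSum _ fun j hj =>
      hint i j (Finset.mem_range.1 hj))
    (((hg.pow 2).continuousOn.integrableOn_compact hU).const_mul _) hU.measurableSet fun x _ => ?_
  rw [Finset.sum_comm]
  by_cases hgx : g x = 0
  · simp [hi, indicator, hgx]
  have hgp : 0 < g x := lt_of_le_of_ne (h0 x) (Ne.symm hgx)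
  calc ∑ j ∈ Finset.range J, ∑ i, (S i j).indicator (fun x => (ρ j ^ 2)⁻¹ * hi K (ρ j) g x) x
      ≤ ∑ j ∈ Finset.range J,
          (if 1 / (K * g x) < ρ j then (ρ j)⁻¹ else 0) * (3 * W / d * g x) := by
        refine Finset.sum_le_sum fun j hj => ?_
        have hj := Finset.mem_range.1 hj
        simp only [indicator_apply]
        rw [← Finset.sum_filter, Finset.sum_const, nsmul_eq_mul]
        have hc := card_near_le hN hd hq (Z x) (W * ρ j) (mul_nonneg hW (hρ j).le)
          (Finset.univ.filter fun i => x ∈ S i j) fun i hi =>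
            (hS i j hj).2.2 x (Finset.mem_filter.1 hi).2
        have hc' : ((Finset.univ.filter fun i => x ∈ S i j).card : ℝ) ≤ 3 * (W * ρ j) / d := by
          refine hc.trans ?_
          rw [div_add_one hd.ne', div_le_div_iff_of_pos_right hd]
          linarith [hfine j hj]
        by_cases hgt : 1 / (K * g x) < ρ j
        · rw [if_pos hgt, hi, indicator_of_mem]
          · refine (mul_le_mul_of_nonneg_right hc' (mul_nonneg (by positivity) hgp.le)).trans
              (le_of_eq ?_)
            have := hρ j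
            field_simp
          · show 1 / (K * ρ j) < g x
            have := hρ j
            rw [div_lt_iff₀ (by positivity)] at hgt ⊢
            linarith
        · rw [if_neg hgt, hi, indicator_of_notMem, mul_zero, mul_zero, zero_mul]
          show ¬ 1 / (K * ρ j) < g x
          have := hρ j
          rw [div_lt_iff₀ (by positivity)] at hgt ⊢
          intro h; exact hgt (by linarith)
    _ ≤ 2 / (1 / (K * g x)) * (3 * W / d * g x) := by
        rw [← Finset.sum_mul]
        exact mul_le_mul_of_nonneg_right (sum_scales_le hρ hρs (by positivity) J) (by positivity)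
    _ = 6 * W * K / d * g x ^ 2 := by field_simp; ring

/-- some window of `k` scales carries a small share of the total -/
lemma exists_window {f : ℕ → ℝ} (hf : ∀ j, 0 ≤ f j) (n k M : ℕ) (hM : 0 < M) :
    ∃ j0, n ≤ j0 ∧ j0 < n + M ∧ ∀ t < k,
      f (j0 + t) ≤ (k : ℝ) / M * ∑ j ∈ Finset.range (n + M + k), f j := by
  set T := ∑ j ∈ Finset.range (n + M + k), f j
  have hshift : ∀ t < k, ∑ m ∈ Finset.range M, f (n + m + t) ≤ T := fun t ht => by
    calc ∑ m ∈ Finset.range M, f (n + m + t)
        = ∑ j ∈ (Finset.range M).image (fun m => n + m + t), f j :=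
          (Finset.sum_image fun a _ b _ h => by omega).symm
      _ ≤ T := Finset.sum_le_sum_of_subset_of_nonneg (fun j hj => by
          simp only [Finset.mem_image, Finset.mem_range] at hj ⊢
          obtain ⟨m, hm, rfl⟩ := hj
          omega) fun j _ _ => hf j
  have htot : ∑ m ∈ Finset.range M, ∑ t ∈ Finset.range k, f (n + m + t) ≤ (k : ℝ) * T := by
    rw [Finset.sum_comm]
    exact (Finset.sum_le_sum fun t ht => hshift t (Finset.mem_range.1 ht)).trans
      (le_of_eq (by simp))
  obtain ⟨m, hm, hle⟩ := Finset.exists_le_of_sum_le (Finset.nonempty_range_iff.2 hM.ne')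
    (show ∑ m ∈ Finset.range M, ∑ t ∈ Finset.range k, f (n + m + t) ≤
      ∑ _m ∈ Finset.range M, (k : ℝ) / M * T by
      refine htot.trans (le_of_eq ?_)
      have : (M : ℝ) ≠ 0 := by exact_mod_cast hM.ne'
      simp; field_simp)
  refine ⟨n + m, Nat.le_add_right _ _, by simpa using hm, fun t ht => le_trans ?_ hle⟩
  exact Finset.single_le_sum (f := fun t => f (n + m + t)) (fun t _ => hf _) (Finset.mem_range.2 ht)

end Vale.Agent.P080.C1.GoodScale
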