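import Vale.Agent.P080.C1.GoodScale.Global

/-!
# Oscillation on the boxes of the scales
-/

namespace Vale.Agent.P080.C1.GoodScale

open scoped ContDiff Topology RealInnerProductSpace Gradient NNReal
open Set Filter MeasureTheory Metric

/-- box of the scale `ρ` at `P` -/
def sbox (lam B : ℝ) (P : E3) (ρ : ℝ) : Set E3 :=
  rbox P (3 * B * Real.sqrt lam * ρ) (2 * ρ)

/-- high part of the oscillation at the scale `ρ`, divided by `λ` -/
noncomputable def band (lam B K : ℝ) (P : E3) (ρ : ℝ) (g : E3 → ℝ) : ℝ :=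
  (ρ ^ 2)⁻¹ * (∫ x in sbox lam B P ρ, hi K ρ (qlen lam g) x) / lam

lemma band_nonneg {lam : ℝ} (hlam : 0 ≤ lam) (B K : ℝ) (P : E3) (ρ : ℝ) (g : E3 → ℝ) :
    0 ≤ band lam B K P ρ g := by
  have : 0 ≤ ∫ x in sbox lam B P ρ, hi K ρ (qlen lam g) x :=
    setIntegral_nonneg (isCompact_rbox _ _ _).measurableSet fun x _ =>
      hi_nonneg (qlen_nonneg lam g) K ρ x
  unfold band; positivity

lemma isCompact_sbox (lam B : ℝ) (P : E3) (ρ : ℝ) : IsCompact (sbox lam B P ρ) :=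
  isCompact_rbox _ _ _

lemma sbox_subset_kbox {lam B ρ : ℝ} (hlam : 0 < lam) {P : E3} (hP : gau lam P ≤ 1/4)
    (hBρ : 6 * B * ρ ≤ 23) (hρ : ρ ≤ 1/8) : sbox lam B P ρ ⊆ kbox lam := by
  intro x hx
  obtain ⟨h2, h0, h1⟩ := hx
  have e : x = P + (x - P) := by abel
  have hlP := (lat_le_gau hlam P).trans (mul_le_mul_of_nonneg_right hP (Real.sqrt_nonneg _))
  constructor
  · have := (abs_le_gau lam P).trans hP
    rw [e, PiLp.add_apply]
    exact (abs_add_le _ _).trans (by linarith)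
  · rw [e]
    refine (lat_add_le _ _).trans ?_
    have hl : lat (x - P) ≤ 6 * B * ρ * Real.sqrt lam := (lat_le_add _).trans (by linarith)
    have h3 := mul_le_mul_of_nonneg_right hBρ (Real.sqrt_nonneg lam)
    linarith [Real.sqrt_nonneg lam]

lemma gau_sbox {lam B ρ : ℝ} (hlam : 0 < lam) (hB : 1 ≤ B) (hρ : 0 ≤ ρ) {P x : E3}
    (hx : x ∈ sbox lam B P ρ) : |gau lam P - gau lam x| ≤ 6 * B * ρ := by
  obtain ⟨h2, h0, h1⟩ := hx
  have hg : gau lam (x - P) ≤ 6 * B * ρ := by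
    refine max_le (h2.trans (by nlinarith)) ?_
    rw [div_le_iff₀ (Real.sqrt_pos.2 hlam)]
    exact (lat_le_add _).trans (by linarith)
  have e1 := gau_add_le (lam := lam) P (x - P)
  have e2 := gau_add_le (lam := lam) x (P - x)
  rw [add_sub_cancel] at e1 e2
  have hneg : gau lam (P - x) = gau lam (x - P) := by
    rw [show P - x = (-1:ℝ) • (x - P) by simp, gau_smul, abs_neg, abs_one, one_mul]
  rw [hneg] at e2
  rw [abs_le]; constructor <;> linarith

lemma chart_mem_sbox {lam B h ρ : ℝ} {O : E3 ≃ₗᵢ[ℝ] E3} {a P z : E3}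
    (hn : O e3 = ‖a‖⁻¹ • a) (ha : 1/2 ≤ ‖a‖) (hρ : 0 ≤ ρ) (hlam : 0 ≤ lam) (hh : 0 ≤ h)
    (hlata : lat a ≤ B * Real.sqrt lam) (hhB : 40 * Real.sqrt h ≤ B)
    (hsmall : 40 * Real.sqrt (h * lam) ≤ 1) (h2 : |z 2| ≤ 1)
    (hl : lat z ≤ 40 * Real.sqrt (h * lam)) : chart O P ρ z ∈ sbox lam B P ρ := by
  refine rbox_mono ?_ ?_ (chart_mem_rbox hn ha hρ h2 hl)
  · have : 40 * Real.sqrt (h * lam) ≤ B * Real.sqrt lam := by
      rw [Real.sqrt_mul hh, ← mul_assoc]
      exact mul_le_mul_of_nonneg_right hhB (Real.sqrt_nonneg _)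
    calc ρ * (40 * Real.sqrt (h * lam) + 1 * (2 * lat a))
        ≤ ρ * (3 * (B * Real.sqrt lam)) := mul_le_mul_of_nonneg_left (by linarith) hρ
      _ = _ := by ring
  · rw [mul_comm 2 ρ]
    exact mul_le_mul_of_nonneg_left (by linarith) hρ

/-- mean oscillation on a scale box -/
lemma sbox_oscillation {A M lam ε B K ρ e : ℝ} {P : E3} {g : E3 → ℝ} (hg : ContDiff ℝ 2 g)
    (hM : 0 < M) (hA : 0 ≤ A) (hAM : Real.sqrt (5 * A + 10 * M) ≤ B / 2) (hlam : 0 < lam)
    (hε : 0 ≤ ε) (hB : 1 ≤ B) (hK : 0 < K) (hρ : 0 < ρ) (hsub : sbox lam B P ρ ⊆ kbox lam)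
    (hgb : ∀ x ∈ kbox lam, GradBd A lam (grad g x) ∧ |pd 2 g x - 1| ≤ 1/4)
    (hr : ∫ x in kbox lam, |res ε g x| ≤ e * lam ^ 2)
    (ht : ε * ∫ x in kbox lam, |trH g x| ≤ e * lam ^ 2) (he : e ≤ ρ ^ 2) :
    ∫ x in sbox lam B P ρ, |psi M lam g x - avg (sbox lam B P ρ) (psi M lam g)| ≤
      144 * B ^ 2 * lam * ρ ^ 3 * ((band lam B K P ρ g + 144 * B ^ 2 / K + 1) / B) := by
  set S := sbox lam B P ρ
  set w := 3 * B * Real.sqrt lam * ρ with hw
  have hs : 0 < Real.sqrt lam := Real.sqrt_pos.2 hlam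
  have hw0 : 0 < w := by rw [hw]; positivity
  have hS : IsCompact S := isCompact_sbox _ _ _ _
  have hkc : IsCompact (kbox lam) := isCompact_latbox _ _
  have mono : ∀ {f : E3 → ℝ}, Continuous f → (∀ x, 0 ≤ f x) →
      ∫ x in S, f x ≤ ∫ x in kbox lam, f x := fun hf h0 =>
    setIntegral_mono_set (hf.continuousOn.integrableOn_compact hkc)
      (Eventually.of_forall h0) (Eventually.of_forall hsub)
  refine (psi_oscillation (P := P) (w := w) (h := 2 * ρ) hg hM hlam hA hε hw0 (by positivity)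
    fun x hx => hgb x (hsub hx)).trans ?_
  rw [show rbox P w (2 * ρ) = S from rfl]
  have hq : ∫ x in S, ‖qvec g x‖ = Real.sqrt lam * ∫ x in S, qlen lam g x := by
    rw [← integral_const_mul]; congr 1; funext x; rw [qlen]; field_simp
  have hb : ∫ x in S, qlen lam g x ≤
      lam * ρ ^ 2 * (band lam B K P ρ g + 144 * B ^ 2 / K) := by
    refine (integral_le_hi_add (continuous_qlen lam hg) (qlen_nonneg lam g) (mul_pos hK hρ) hS hS
      Subset.rfl).trans (le_of_eq ?_)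
    rw [band, show S = rbox P w (2 * ρ) from rfl, volume_rbox hw0.le (by positivity), hw]
    have h2 : Real.sqrt lam ^ 2 = lam := Real.sq_sqrt hlam.le
    rw [show sbox lam B P ρ = rbox P (3 * B * Real.sqrt lam * ρ) (2 * ρ) from rfl]
    field_simp
    rw [h2]; ring
  have hr' := (mono (continuous_res hg ε).abs fun x => abs_nonneg _).trans hr
  have ht' := (mul_le_mul_of_nonneg_left (mono (continuous_trH hg).abs fun x => abs_nonneg _)
    hε).trans ht
  rw [hq, div_le_iff₀ hlam]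
  have hband := band_nonneg hlam.le B K P ρ g
  set X := band lam B K P ρ g + 144 * B ^ 2 / K with hX
  have hX0 : 0 ≤ X := by positivity
  have k1 : (w + 2 * ρ * (Real.sqrt (5 * A + 10 * M) * Real.sqrt lam)) *
      (Real.sqrt lam * ∫ x in S, qlen lam g x) ≤ 4 * B * ρ ^ 3 * lam ^ 2 * X := by
    calc _ ≤ 4 * B * ρ * Real.sqrt lam * (Real.sqrt lam * (lam * ρ ^ 2 * X)) := by
          refine mul_le_mul ?_ (mul_le_mul_of_nonneg_left hb hs.le)
            (mul_nonneg hs.le (setIntegral_nonneg hS.measurableSet fun x _ => qlen_nonneg lam g x))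
            (by positivity)
          have := mul_le_mul_of_nonneg_right hAM (mul_nonneg hρ.le hs.le)
          rw [hw]; linarith
      _ = _ := by
          rw [show 4 * B * ρ * Real.sqrt lam * (Real.sqrt lam * (lam * ρ ^ 2 * X)) =
            4 * B * ρ ^ 3 * lam * X * (Real.sqrt lam * Real.sqrt lam) by ring,
            Real.mul_self_sqrt hlam.le]
          ring
  have k2 : 2 * ρ * ((∫ x in S, |res ε g x|) + ε * ∫ x in S, |trH g x|) ≤
      4 * B * ρ ^ 3 * lam ^ 2 := by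
    calc _ ≤ 2 * ρ * (2 * (ρ ^ 2 * lam ^ 2)) := by
          refine mul_le_mul_of_nonneg_left ?_ (by positivity)
          have := mul_le_mul_of_nonneg_right he (sq_nonneg lam)
          linarith
      _ ≤ _ := by
          have : 0 ≤ ρ ^ 3 * lam ^ 2 := by positivity
          nlinarith
  have e : 144 * B ^ 2 * lam * ρ ^ 3 * ((X + 1) / B) * lam =
      144 * (B * ρ ^ 3 * lam ^ 2) * (X + 1) := by field_simp
  rw [e]
  have : 0 ≤ B * ρ ^ 3 * lam ^ 2 := by positivity
  nlinarith [mul_nonneg this hX0]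

/-- small oscillation in a sub-configuration from the bands -/
lemma small_of_band {lam ε B K ρ h τ e : ℝ} {O : E3 ≃ₗᵢ[ℝ] E3} {a P : E3} {b : ℝ} {g : E3 → ℝ}
    (hg : ContDiff ℝ 2 g) (hlam : 0 < lam) (hε : 0 ≤ ε) (hK : 0 < K) (hρ : 0 < ρ) (hh : 1 ≤ h)
    (hL : 99/100 ≤ ‖a‖) (hmap : MapsTo (chart O P (ρ / 8)) (qbox (16 * h * lam)) (sbox lam B P ρ))
    (hsub : sbox lam B P ρ ⊆ kbox lam)
    (hband : 8 * (band lam B K P ρ g + 4 * h / K) ≤ τ * (h * Real.sqrt h))
    (hτ : 0 ≤ τ) (ht : ε * ∫ x in kbox lam, |trH g x| ≤ e * lam ^ 2) (he : e ≤ τ * ρ ^ 2) :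
    Small τ (16 * h * lam) (ε / ‖a‖ ^ 2) (cu O a P b (ρ / 8) g) := by
  set Λ := 16 * h * lam with hΛ
  set ρ3 := ρ / 8 with hρ3
  set L := ‖a‖
  have hρ30 : 0 < ρ3 := by positivity
  have hL0 : 0 < L := by linarith
  have hΛ0 : 0 < Λ := by rw [hΛ]; positivity
  have hQ := isCompact_qbox Λ
  have himg : IsCompact (chart O P ρ3 '' qbox Λ) := hQ.image (continuous_chart O P ρ3)
  have hsb := isCompact_sbox lam B P ρ
  constructor
  · have e1 : ∀ z, ‖qvec (cu O a P b ρ3 g) z‖ =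
        ρ3 ^ 3 / (L * ρ3) ^ 2 * Real.sqrt lam * qlen lam g (chart O P ρ3 z) := fun z => by
      rw [cu, norm_qvec_nrm hρ30 hg, qlen, mul_assoc, mul_div_cancel₀ _ (Real.sqrt_pos.2 hlam).ne']
    simp only [e1, integral_const_mul]
    have h1 := setIntegral_chart_le O P hρ30 (continuous_qlen lam hg) (qlen_nonneg lam g) himg
      (mapsTo_image _ _)
    have h2 := integral_le_hi_add (continuous_qlen lam hg) (qlen_nonneg lam g) (mul_pos hK hρ)
      himg hsb hmap.image_subset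
    rw [volume_chart_image O P hρ30 hQ, volume_qbox hΛ0.le] at h2
    have hb := band_nonneg hlam.le B K P ρ g
    have h3 : ∫ x in chart O P ρ3 '' qbox Λ, qlen lam g x ≤
        lam * ρ ^ 2 * (band lam B K P ρ g + 4 * h / K) := by
      refine h2.trans (le_of_eq ?_)
      rw [band, hΛ, hρ3]
      field_simp
      ring
    have hL2 : (L ^ 2)⁻¹ ≤ 2 := by
      rw [inv_le_comm₀ (by positivity) (by norm_num)]; nlinarith
    calc ρ3 ^ 3 / (L * ρ3) ^ 2 * Real.sqrt lam * ∫ z in qbox Λ, qlen lam g (chart O P ρ3 z)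
        ≤ ρ3 ^ 3 / (L * ρ3) ^ 2 * Real.sqrt lam *
            ((ρ3 ^ 3)⁻¹ * (lam * ρ ^ 2 * (band lam B K P ρ g + 4 * h / K))) :=
          mul_le_mul_of_nonneg_left (h1.trans (mul_le_mul_of_nonneg_left h3 (by positivity)))
            (by positivity)
      _ = (L ^ 2)⁻¹ * (8 * Real.sqrt lam * lam * (8 * (band lam B K P ρ g + 4 * h / K))) := by
          rw [hρ3]; field_simp
      _ ≤ 2 * (8 * Real.sqrt lam * lam * (τ * (h * Real.sqrt h))) :=
          mul_le_mul hL2 (mul_le_mul_of_nonneg_left hband (by positivity)) (by positivity) (by norm_num)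
      _ ≤ τ * (Λ * Real.sqrt Λ) := by
          rw [hΛ, Real.sqrt_mul (by positivity), Real.sqrt_mul (by norm_num),
            show Real.sqrt 16 = 4 by rw [show (16:ℝ) = 4 ^ 2 by norm_num, Real.sqrt_sq (by norm_num)]]
          have : 0 ≤ τ * (h * lam * (Real.sqrt h * Real.sqrt lam)) := by positivity
          nlinarith
  · have e1 : ∀ z, |trH (cu O a P b ρ3 g) z| =
        ρ3 ^ 2 / (L * ρ3) * |trH g (chart O P ρ3 z)| := fun z => by
      rw [cu, trH_nrm hρ30.ne' hg, abs_mul, abs_of_nonneg (by positivity)]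
    simp only [e1, integral_const_mul]
    have hkc : IsCompact (kbox lam) := isCompact_latbox _ _
    have h1 := setIntegral_chart_le O P hρ30 (continuous_trH hg).abs (fun x => abs_nonneg _)
      hkc (fun z hz => hsub (hmap hz))
    have he0 : 0 ≤ e := by
      have : 0 ≤ ε * ∫ x in kbox lam, |trH g x| :=
        mul_nonneg hε (setIntegral_nonneg hkc.measurableSet fun x _ => abs_nonneg _)
      exact nonneg_of_mul_nonneg_left (this.trans ht) (by positivity)
    have hL3 : (L ^ 3)⁻¹ ≤ 2 := by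
      rw [inv_le_comm₀ (by positivity) (by norm_num)]
      calc (2:ℝ)⁻¹ ≤ (99/100) ^ 3 := by norm_num
        _ ≤ L ^ 3 := pow_le_pow_left₀ (by norm_num) hL 3
    calc ε / L ^ 2 * (ρ3 ^ 2 / (L * ρ3) * ∫ z in qbox Λ, |trH g (chart O P ρ3 z)|)
        ≤ ε / L ^ 2 * (ρ3 ^ 2 / (L * ρ3) * ((ρ3 ^ 3)⁻¹ * ∫ x in kbox lam, |trH g x|)) :=
          mul_le_mul_of_nonneg_left (mul_le_mul_of_nonneg_left h1 (by positivity)) (by positivity)
      _ = (L ^ 3)⁻¹ * (ρ3 ^ 2)⁻¹ * (ε * ∫ x in kbox lam, |trH g x|) := by field_simp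
      _ ≤ 2 * (ρ3 ^ 2)⁻¹ * (τ * ρ ^ 2 * lam ^ 2) :=
          mul_le_mul (mul_le_mul_of_nonneg_right hL3 (by positivity))
            (ht.trans (mul_le_mul_of_nonneg_right he (sq_nonneg _)))
            (mul_nonneg hε (setIntegral_nonneg hkc.measurableSet fun x _ => abs_nonneg _))
            (by positivity)
      _ = 128 * (τ * lam ^ 2) := by rw [hρ3]; field_simp; ring
      _ ≤ τ * Λ ^ 2 := by
          rw [hΛ]
          have : 0 ≤ τ * lam ^ 2 := by positivity
          have h2 : (1:ℝ) ≤ h ^ 2 := one_le_pow₀ hh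
          nlinarith [mul_le_mul_of_nonneg_left h2 this]

end Vale.Agent.P080.C1.GoodScale
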