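import Vale.Agent.P080.C1.GoodScale.Boxes

/-!
# The tilt of the frames stays bounded
-/

namespace Vale.Agent.P080.C1.GoodScale

open scoped ContDiff Topology RealInnerProductSpace Gradient NNReal
open Set Filter MeasureTheory Metric

lemma volume_sbox {lam B ρ : ℝ} (hlam : 0 ≤ lam) (hB : 0 ≤ B) (hρ : 0 ≤ ρ) (P : E3) :
    volume.real (sbox lam B P ρ) = 144 * B ^ 2 * lam * ρ ^ 3 := by
  rw [sbox, volume_rbox (by positivity) (by positivity), mul_pow, mul_pow, Real.sq_sqrt hlam]
  ring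

/-- means over nested boxes move at most by the oscillations -/
lemma mean_chain {lam B θ : ℝ} (hlam : 0 < lam) (hB : 0 < B) (hθ : 0 < θ) (hθ1 : θ ≤ 1)
    {ρ : ℕ → ℝ} (hρ : ∀ j, 0 < ρ j) (hρs : ∀ j, ρ (j + 1) = θ * ρ j) {P : E3} {ψ : E3 → ℝ}
    (hψ : Continuous ψ) {D : ℕ → ℝ} {J : ℕ}
    (hD : ∀ j < J, ∫ x in sbox lam B P (ρ j), |ψ x - avg (sbox lam B P (ρ j)) ψ| ≤
      volume.real (sbox lam B P (ρ j)) * D j) :
    ∀ j ≤ J, |avg (sbox lam B P (ρ j)) ψ| ≤
      |avg (sbox lam B P (ρ 0)) ψ| + (θ ^ 3)⁻¹ * ∑ i ∈ Finset.range j, D i := by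
  intro j
  induction j with
  | zero => intro; simp
  | succ j ih =>
    intro hj
    have h0 := ih (Nat.le_of_succ_le hj)
    have hle : ρ (j + 1) ≤ ρ j := by rw [hρs]; exact mul_le_of_le_one_left (hρ j).le hθ1
    have hv : 0 < volume.real (sbox lam B P (ρ (j + 1))) := by
      rw [volume_sbox hlam.le hB.le (hρ _).le]; have := hρ (j + 1); positivity
    have h1 := abs_avg_sub_le (isCompact_sbox lam B P (ρ (j+1))) (isCompact_sbox lam B P (ρ j))
      (rbox_mono (mul_le_mul_of_nonneg_left hle (by positivity)) (by linarith)) hv hψ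
      (avg (sbox lam B P (ρ j)) ψ)
    have h2 : (volume.real (sbox lam B P (ρ (j+1))))⁻¹ *
        (volume.real (sbox lam B P (ρ j)) * D j) = (θ ^ 3)⁻¹ * D j := by
      rw [volume_sbox hlam.le hB.le (hρ _).le, volume_sbox hlam.le hB.le (hρ _).le, hρs]
      have := hρ j
      field_simp
    have h3 := h1.trans ((mul_le_mul_of_nonneg_left (hD j (Nat.lt_of_succ_le hj))
      (inv_nonneg.2 hv.le)).trans (le_of_eq h2))
    have h4 := abs_sub_abs_le_abs_sub (avg (sbox lam B P (ρ (j+1))) ψ) (avg (sbox lam B P (ρ j)) ψ)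
    rw [Finset.sum_range_succ, mul_add]
    linarith

/-- the mean of the truncated excess at the coarsest scale -/
lemma mean_start {A M lam B ρ : ℝ} {P : E3} {g : E3 → ℝ} (hg : ContDiff ℝ 2 g) (hlam : 0 < lam)
    (hB : 0 < B) (hρ : 0 < ρ) (hM : 1 ≤ M) (hsub : sbox lam B P ρ ⊆ kbox lam)
    (hexc : ∫ x in kbox lam, exc lam g x ^ 2 ≤ A * lam / 4) :
    |avg (sbox lam B P ρ) (psi M lam g)| ≤ 1 + A / (288 * B ^ 2 * ρ ^ 3) := by
  set S := sbox lam B P ρ
  have hS : IsCompact S := isCompact_sbox _ _ _ _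
  have hkc : IsCompact (kbox lam) := isCompact_latbox _ _
  have he : Continuous (exc lam g) := by
    have := continuous_gsq (hg.of_le (by norm_num : (1 : WithTop ℕ∞) ≤ 2))
    unfold exc; fun_prop
  have hi : ∀ {f : E3 → ℝ}, Continuous f → IntegrableOn f S := fun hf =>
    hf.continuousOn.integrableOn_compact hS
  have hv : volume.real S = 144 * B ^ 2 * lam * ρ ^ 3 := volume_sbox hlam.le hB.le hρ.le P
  have h1 : ∫ x in S, |psi M lam g x| ≤ volume.real S + A * lam / 2 := by
    calc ∫ x in S, |psi M lam g x| ≤ ∫ x in S, (1 + 2 * exc lam g x ^ 2) := by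
          refine setIntegral_mono_on (hi (contDiff_psi hg).continuous.abs) (hi (by fun_prop))
            hS.measurableSet fun x _ => (abs_psi_le (by linarith) x).trans ?_
          have h3 : exc lam g x ^ 2 / M ≤ exc lam g x ^ 2 := div_le_self (sq_nonneg _) hM
          nlinarith [sq_nonneg (|exc lam g x| - 1), sq_abs (exc lam g x), abs_nonneg (exc lam g x)]
      _ ≤ _ := by
          rw [integral_add (hi continuous_const) (hi (by fun_prop)), setIntegral_const, smul_eq_mul,
            mul_one, integral_const_mul]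
          have := setIntegral_mono_set (μ := volume) (t := kbox lam) (s := S)
            ((he.pow 2).continuousOn.integrableOn_compact hkc)
            (Eventually.of_forall fun x => sq_nonneg _) (Eventually.of_forall hsub)
          simp only [Pi.pow_apply] at this
          linarith
  rw [avg, abs_mul, abs_inv, abs_of_nonneg (measureReal_nonneg (μ := volume) (s := S)),
    hv, inv_mul_le_iff₀ (by positivity)]
  refine (abs_integral_le_integral_abs.trans h1).trans (le_of_eq ?_)
  rw [hv]; field_simp; ring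

/-- a bounded mean forces a bounded tilt -/
theorem tilt_bound {C A M lam h ρ B f ν : ℝ} {O : E3 ≃ₗᵢ[ℝ] E3} {a P : E3} {b : ℝ} {g : E3 → ℝ}
    (hg : ContDiff ℝ 2 g) (hlam : 0 < lam) (hh : 1 ≤ h) (hρ : 0 < ρ) (hC : 0 < C)
    (hM : 0 < M) (hAM : 5 * A ≤ M) (hn : O e3 = ‖a‖⁻¹ • a) (hL : 99/100 ≤ ‖a‖) (hL' : ‖a‖ ≤ 51/50)
    (hsb : SubBd C ν lam (16 * h * lam) (cu O a P b (ρ / 8) g))
    (hν : 6 * ν * Real.sqrt lam ≤ 1/4)
    (hmap : MapsTo (chart O P (ρ / 8)) (qbox (16 * h * lam)) (sbox lam B P ρ))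
    (hgb : ∀ x ∈ sbox lam B P ρ, GradBd A lam (grad g x) ∧ |pd 2 g x - 1| ≤ 1/4)
    (hf : |f| ≤ M / 4)
    (hosc : ∫ x in sbox lam B P ρ, |psi M lam g x - f| ≤ M * h * lam * ρ ^ 3 / 4) :
    lat a ≤ 4/3 * (Real.sqrt (11 * M) + 5 * (1 + C) * Real.sqrt h) * Real.sqrt lam := by
  set Λ := 16 * h * lam with hΛ
  set ρ3 := ρ / 8 with hρ3
  have hρ30 : 0 < ρ3 := by positivity
  have hΛ0 : 0 < Λ := by rw [hΛ]; positivity
  set u := cu O a P b ρ3 g
  have hu : ContDiff ℝ 2 u := contDiff_nrm hg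
  have hQ := isCompact_qbox Λ
  have hpc := (contDiff_psi (M := M) (lam := lam) hg).continuous
  have hl : Continuous (pLatSq u) := by
    rw [funext (pLatSq_eq u)]
    exact (by unfold latSq; fun_prop : Continuous latSq).comp
      (continuous_grad (hu.of_le (by norm_num)))
  have hgsq := continuous_gsq (hu.of_le (by norm_num : (1 : WithTop ℕ∞) ≤ 2))
  have hch := continuous_chart O P ρ3
  have h1 : ∫ z in qbox Λ, |psi M lam g (chart O P ρ3 z) - f| ≤ M * 128 * h * lam :=
    (setIntegral_chart_le O P hρ30 (f := fun x => |psi M lam g x - f|) (by fun_prop)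
      (fun x => abs_nonneg _) (isCompact_sbox lam B P ρ) hmap).trans
      ((mul_le_mul_of_nonneg_left hosc (by positivity)).trans (le_of_eq (by rw [hρ3]; field_simp; ring)))
  have h2 : ∫ z in qbox Λ, pLatSq u z ^ 2 ≤ C * Λ ^ 3 := by
    refine le_trans (setIntegral_mono_on ((hl.pow 2).continuousOn.integrableOn_compact hQ)
      ((((hgsq.sub continuous_const).pow 2).add (hl.pow 2)).continuousOn.integrableOn_compact hQ)
      hQ.measurableSet fun z _ => le_add_of_nonneg_left (sq_nonneg _)) hsb.energy_le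
  set X : E3 → ℝ := fun z =>
    |psi M lam g (chart O P ρ3 z) - f| * (4 / M) + pLatSq u z ^ 2 / ((1 + C) ^ 2 * Λ ^ 2) with hXdef
  have hXc : Continuous X := by rw [hXdef]; fun_prop
  have hX : ∫ z in qbox Λ, X z ≤ 128 * Λ / 2 := by
    have c1 : Continuous fun z => |psi M lam g (chart O P ρ3 z) - f| * (4 / M) := by fun_prop
    have c2 : Continuous fun z => pLatSq u z ^ 2 / ((1 + C) ^ 2 * Λ ^ 2) := by fun_prop
    simp only [hXdef]
    rw [integral_add (c1.continuousOn.integrableOn_compact hQ) (c2.continuousOn.integrableOn_compact hQ),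
      integral_mul_const, integral_div]
    have k1 : (∫ z in qbox Λ, |psi M lam g (chart O P ρ3 z) - f|) * (4 / M) ≤ 32 * Λ := by
      refine (mul_le_mul_of_nonneg_right h1 (by positivity)).trans (le_of_eq ?_)
      rw [hΛ]; field_simp; ring
    have k2 : (∫ z in qbox Λ, pLatSq u z ^ 2) / ((1 + C) ^ 2 * Λ ^ 2) ≤ Λ := by
      rw [div_le_iff₀ (by positivity)]
      refine h2.trans ?_
      have : C ≤ (1 + C) ^ 2 := by nlinarith
      nlinarith [mul_le_mul_of_nonneg_right this (show 0 ≤ Λ ^ 3 by positivity)]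
    linarith
  have hμ : 0 < volume.real (qbox Λ) := by rw [volume_qbox hΛ0.le]; positivity
  obtain ⟨z, hz, hzX⟩ : ∃ z ∈ qbox Λ, X z ≤ 1 := by
    by_contra hne
    push Not at hne
    have : ∫ _z in qbox Λ, (1:ℝ) ≤ ∫ z in qbox Λ, X z :=
      setIntegral_mono_on (continuous_const.continuousOn.integrableOn_compact hQ)
        (hXc.continuousOn.integrableOn_compact hQ) hQ.measurableSet fun z hz => (hne z hz).le
    rw [setIntegral_const, smul_eq_mul, mul_one, volume_qbox hΛ0.le] at this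
    linarith
  rw [hXdef] at hzX
  simp only at hzX
  have hX1 : |psi M lam g (chart O P ρ3 z) - f| ≤ M / 4 := by
    have : |psi M lam g (chart O P ρ3 z) - f| * (4 / M) ≤ 1 :=
      (le_add_of_nonneg_right (by positivity)).trans hzX
    rw [← mul_div_assoc, div_le_one hM] at this
    linarith
  have hX2 : pLatSq u z ≤ (1 + C) * Λ := by
    have : pLatSq u z ^ 2 / ((1 + C) ^ 2 * Λ ^ 2) ≤ 1 :=
      (le_add_of_nonneg_left (by positivity)).trans hzX
    rw [div_le_one (by positivity), ← mul_pow] at this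
    exact le_of_pow_le_pow_left₀ two_ne_zero (by positivity) this
  set x := chart O P ρ3 z
  have hF := abs_exc_le_of_psi (lam := lam) (g := g) hM (x := x) (by
    have := abs_sub_abs_le_abs_sub (psi M lam g x) f
    linarith)
  obtain ⟨hgx, h3x⟩ := hgb x (hmap hz)
  have hp : lat (grad g x) ≤ Real.sqrt (11 * M) * Real.sqrt lam := by
    rw [lat, ← Real.sqrt_mul (by positivity)]
    refine Real.sqrt_le_sqrt ((latSq_le_exc hlam hgx h3x).trans ?_)
    nlinarith [mul_le_mul_of_nonneg_left hF hlam.le]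
  set p := grad u z with hp'
  have hp2 : 3/4 ≤ p 2 := by
    have := abs_le.1 ((hsb.slope3 z hz).trans hν)
    rw [pd_eq_grad] at this; linarith
  have hl3 : lat p ≤ 4 * (1 + C) * (Real.sqrt h * Real.sqrt lam) := by
    rw [lat, ← pLatSq_eq, ← Real.sqrt_mul (by linarith)]
    refine (Real.sqrt_le_sqrt hX2).trans ?_
    rw [Real.sqrt_le_left (by positivity), mul_pow, Real.sq_sqrt (by positivity), hΛ]
    nlinarith [show 0 ≤ h * lam by positivity, sq_nonneg C]
  have hgr : grad g x = ‖a‖ • O p := by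
    rw [hp', show u = cu O a P b ρ3 g from rfl, grad_cu hρ30.ne', fgrad, map_smul,
      O.apply_symm_apply, smul_smul, mul_inv_cancel₀ (show ‖a‖ ≠ 0 by linarith), one_smul]
  have hdec : grad g x = p 2 • a + ‖a‖ • O (p - p 2 • e3) := by
    rw [hgr, map_sub, map_smul, hn, smul_sub, smul_smul, smul_smul,
      show ‖a‖ * p 2 * ‖a‖⁻¹ = p 2 by field_simp, add_sub_cancel]
  have hla : p 2 * lat a ≤ lat (grad g x) + 51/50 * lat p := by
    have e : p 2 • a = grad g x + (-1:ℝ) • (‖a‖ • O (p - p 2 • e3)) := by rw [hdec]; module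
    have h := lat_add_le (grad g x) ((-1:ℝ) • (‖a‖ • O (p - p 2 • e3)))
    rw [← e, lat_smul, lat_smul, lat_smul, abs_of_pos (show 0 < p 2 by linarith), abs_neg, abs_one,
      one_mul, abs_norm] at h
    refine h.trans (add_le_add le_rfl (mul_le_mul hL' ?_ (lat_nonneg _) (by norm_num)))
    exact (lat_le_norm _).trans (le_of_eq (by rw [O.norm_map, norm_sub_axis]))
  have hlow := mul_le_mul_of_nonneg_right hp2 (lat_nonneg a)
  have : 0 ≤ (1 + C) * (Real.sqrt h * Real.sqrt lam) := by positivity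
  linarith

end Vale.Agent.P080.C1.GoodScale
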