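import Vale.Agent.P080.C1.Frame
import Mathlib.MeasureTheory.Measure.Lebesgue.EqHaar
import Mathlib.MeasureTheory.Measure.Haar.NormedSpace
import Mathlib.MeasureTheory.Group.Integral

/-!
# Charts and boxes for the good-scale argument
-/

namespace Vale.Agent.P080.C1.GoodScale

open scoped ContDiff Topology RealInnerProductSpace
open Set Filter MeasureTheory Metric

/-- chart: similarity with centre `P`, axes `O`, ratio `ρ` -/
noncomputable def chart (O : E3 ≃ₗᵢ[ℝ] E3) (P : E3) (ρ : ℝ) (z : E3) : E3 := P + ρ • O z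

/-- a function read in a chart, affinely renormalised in value -/
noncomputable def nrm (O : E3 ≃ₗᵢ[ℝ] E3) (P : E3) (ρ L c : ℝ) (v : E3 → ℝ) (z : E3) : ℝ :=
  (v (chart O P ρ z) - c) / L

/-- inverse of a chart -/
noncomputable def chartInv (O : E3 ≃ₗᵢ[ℝ] E3) (P : E3) (ρ : ℝ) (x : E3) : E3 :=
  ρ⁻¹ • O.symm (x - P)

lemma chart_chartInv {O : E3 ≃ₗᵢ[ℝ] E3} {P : E3} {ρ : ℝ} (hρ : ρ ≠ 0) (x : E3) :
    chart O P ρ (chartInv O P ρ x) = x := by
  simp [chart, chartInv, smul_smul, mul_inv_cancel₀ hρ]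

lemma chartInv_chart {O : E3 ≃ₗᵢ[ℝ] E3} {P : E3} {ρ : ℝ} (hρ : ρ ≠ 0) (z : E3) :
    chartInv O P ρ (chart O P ρ z) = z := by
  simp [chart, chartInv, map_smul, smul_smul, inv_mul_cancel₀ hρ]

lemma continuous_chart (O : E3 ≃ₗᵢ[ℝ] E3) (P : E3) (ρ : ℝ) : Continuous (chart O P ρ) := by
  unfold chart; fun_prop

lemma continuous_chartInv (O : E3 ≃ₗᵢ[ℝ] E3) (P : E3) (ρ : ℝ) :
    Continuous (chartInv O P ρ) := by
  unfold chartInv; fun_prop

/-- change of variables in a chart -/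
lemma integral_chart {F : Type*} [NormedAddCommGroup F] [NormedSpace ℝ F] (O : E3 ≃ₗᵢ[ℝ] E3)
    (P : E3) {ρ : ℝ} (hρ : 0 < ρ) (f : E3 → F) :
    ∫ z, f (chart O P ρ z) = (ρ ^ 3)⁻¹ • ∫ x, f x := by
  have h1 : ∫ z, f (chart O P ρ z) = ∫ z, f (P + ρ • z) :=
    O.measurePreserving.integral_comp O.toHomeomorph.measurableEmbedding (fun y => f (P + ρ • y))
  rw [h1, Measure.integral_comp_smul volume (fun x => f (P + x)) ρ, integral_add_left_eq_self f P,
    finrank_euclideanSpace_fin, abs_of_pos (by positivity)]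

lemma setIntegral_chart {F : Type*} [NormedAddCommGroup F] [NormedSpace ℝ F]
    (O : E3 ≃ₗᵢ[ℝ] E3) (P : E3) {ρ : ℝ} (hρ : 0 < ρ) (f : E3 → F) {S : Set E3}
    (hS : MeasurableSet S) :
    ∫ z in chart O P ρ ⁻¹' S, f (chart O P ρ z) = (ρ ^ 3)⁻¹ • ∫ x in S, f x := by
  rw [← integral_indicator (hS.preimage (continuous_chart O P ρ).measurable),
    ← integral_indicator hS, ← integral_chart O P hρ]
  rfl

/-- the inequality used to push integrals forward -/
lemma setIntegral_chart_le (O : E3 ≃ₗᵢ[ℝ] E3) (P : E3) {ρ : ℝ} (hρ : 0 < ρ) {f : E3 → ℝ}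
    (hf : Continuous f) (h0 : ∀ x, 0 ≤ f x) {Q S : Set E3} (hS : IsCompact S)
    (hQ : MapsTo (chart O P ρ) Q S) :
    ∫ z in Q, f (chart O P ρ z) ≤ (ρ ^ 3)⁻¹ * ∫ x in S, f x := by
  rw [← smul_eq_mul, ← setIntegral_chart O P hρ f hS.measurableSet]
  refine setIntegral_mono_set ?_ (Eventually.of_forall fun z => h0 _) (Eventually.of_forall hQ)
  have hsub : chart O P ρ ⁻¹' S ⊆ chartInv O P ρ '' S := fun z hz =>
    ⟨_, hz, chartInv_chart hρ.ne' z⟩
  exact ((hf.comp (continuous_chart O P ρ)).continuousOn.integrableOn_compact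
    (hS.image (continuous_chartInv O P ρ))).mono_set hsub

/-- axis-parallel box with lateral half widths `a` and half height `h` -/
def rbox (P : E3) (a h : ℝ) : Set E3 :=
  {x | |(x - P) 2| ≤ h ∧ |(x - P) 0| ≤ a ∧ |(x - P) 1| ≤ a}

lemma isClosed_rbox (P : E3) (a h : ℝ) : IsClosed (rbox P a h) := by
  simp only [rbox, ofPred_and]
  refine (isClosed_le ?_ continuous_const).inter
    ((isClosed_le ?_ continuous_const).inter (isClosed_le ?_ continuous_const)) <;> fun_prop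

lemma rbox_eq_preimage (P : E3) (a h : ℝ) :
    rbox P a h = WithLp.ofLp ⁻¹' Icc (![P 0 - a, P 1 - a, P 2 - h]) (![P 0 + a, P 1 + a, P 2 + h]) := by
  ext x
  simp [rbox, Pi.le_def, Fin.forall_fin_succ, abs_le]
  constructor
  · rintro ⟨⟨a1, a2⟩, ⟨b1, b2⟩, c1, c2⟩
    refine ⟨⟨?_, ?_, ?_⟩, ?_, ?_, ?_⟩ <;> linarith
  · rintro ⟨⟨a1, a2, a3⟩, b1, b2, b3⟩
    refine ⟨⟨?_, ?_⟩, ⟨?_, ?_⟩, ?_, ?_⟩ <;> linarith

lemma volume_rbox {P : E3} {a h : ℝ} (ha : 0 ≤ a) (hh : 0 ≤ h) :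
    volume.real (rbox P a h) = 8 * a ^ 2 * h := by
  rw [rbox_eq_preimage, Measure.real, (PiLp.volume_preserving_ofLp (Fin 3)).measure_preimage
    measurableSet_Icc.nullMeasurableSet, Real.volume_Icc_pi_toReal]
  · simp [Fin.prod_univ_three]; ring
  · intro i; fin_cases i <;> simp <;> linarith

lemma isCompact_rbox (P : E3) (a h : ℝ) : IsCompact (rbox P a h) := by
  refine Metric.isCompact_of_isClosed_isBounded (isClosed_rbox P a h)
    ((isBounded_closedBall (x := P) (r := 2 * |a| + |h|)).subset fun x hx => ?_)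
  rw [mem_closedBall, dist_eq_norm]
  obtain ⟨h2, h0, h1⟩ := hx
  have e0 := h0.trans (le_abs_self a)
  have e1 := h1.trans (le_abs_self a)
  have e2 := h2.trans (le_abs_self h)
  refine le_of_pow_le_pow_left₀ two_ne_zero (by positivity) ?_
  rw [norm_sq_eq_lat, latSq, ← sq_abs ((x - P) 0), ← sq_abs ((x - P) 1), ← sq_abs ((x - P) 2)]
  nlinarith [abs_nonneg ((x - P) 0), abs_nonneg ((x - P) 1), abs_nonneg ((x - P) 2)]

lemma convex_rbox (P : E3) (a h : ℝ) : Convex ℝ (rbox P a h) := by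
  rw [rbox_eq_preimage]
  exact (convex_Icc _ _).linear_preimage (WithLp.linearEquiv 2 ℝ (Fin 3 → ℝ)).toLinearMap

lemma self_mem_rbox {P : E3} {a h : ℝ} (ha : 0 ≤ a) (hh : 0 ≤ h) : P ∈ rbox P a h := by
  simp [rbox, ha, hh]

lemma rbox_mono {P : E3} {a a' h h' : ℝ} (ha : a ≤ a') (hh : h ≤ h') :
    rbox P a h ⊆ rbox P a' h' :=
  fun _ hx => ⟨hx.1.trans hh, hx.2.1.trans ha, hx.2.2.trans ha⟩

lemma abs_le_lat (x : E3) : |x 0| ≤ lat x ∧ |x 1| ≤ lat x := by
  constructor <;> refine Real.le_sqrt_of_sq_le ?_ <;> rw [sq_abs, latSq] <;>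
    nlinarith [sq_nonneg (x 0), sq_nonneg (x 1)]

lemma lat_le_add (x : E3) : lat x ≤ |x 0| + |x 1| := by
  rw [lat, Real.sqrt_le_left (by positivity), latSq, add_sq, sq_abs, sq_abs]
  nlinarith [abs_nonneg (x 0), abs_nonneg (x 1)]

end Vale.Agent.P080.C1.GoodScale
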