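import Vale.Agent.P080.C1.GoodScale.Advance
import Vale.Agent.P080.C1.GoodScale.Bands

/-!
# Top-scale integral bounds
-/

namespace Vale.Agent.P080.C1.GoodScale

open scoped ContDiff Topology RealInnerProductSpace Gradient NNReal
open Set Filter MeasureTheory Metric

/-- scaled length of `D(|Dg|²/2)` -/
noncomputable def qlen (lam : ℝ) (g : E3 → ℝ) (x : E3) : ℝ := ‖qvec g x‖ / Real.sqrt lam

lemma qlen_nonneg (lam : ℝ) (g : E3 → ℝ) (x : E3) : 0 ≤ qlen lam g x := by
  unfold qlen; positivity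

lemma continuous_qlen (lam : ℝ) {g : E3 → ℝ} (hg : ContDiff ℝ 2 g) : Continuous (qlen lam g) := by
  unfold qlen; exact (continuous_qvec hg).norm.div_const _

lemma volume_kbox_le {lam : ℝ} (hlam : 0 ≤ lam) : volume.real (kbox lam) ≤ 2304 * lam := by
  have hsub : kbox lam ⊆ rbox 0 (24 * Real.sqrt lam) (1/2) := fun x hx => by
    simp only [rbox, sub_zero, mem_ofPred_eq]
    exact ⟨hx.1, (abs_le_lat x).1.trans hx.2, (abs_le_lat x).2.trans hx.2⟩
  refine (measureReal_mono hsub (isCompact_rbox _ _ _).measure_lt_top.ne).trans (le_of_eq ?_)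
  rw [volume_rbox (by positivity) (by norm_num), mul_pow, Real.sq_sqrt hlam]; ring

/-- consequences of the energy bound at the top scale -/
lemma energy_consequences {A δ lam ε : ℝ} {g : E3 → ℝ} (hpre : Pre A δ lam g) (hlam : 0 < lam)
    (hlam1 : lam ≤ 1) (hε : 0 ≤ ε) (hεlam : ε ≤ δ * lam) (hδ : 0 ≤ δ) (hδ1 : δ ≤ 1/10)
    (hen : energy lam ε g ≤ A * lam ^ 2)
    (hres : ∫ x in kbox lam, res ε g x ^ 2 ≤ lam ^ 2 / 6) :
    0 ≤ A ∧ ∫ x in kbox lam, qlen lam g x ^ 2 ≤ (2 * A + 1) * lam ∧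
      ∫ x in kbox lam, exc lam g x ^ 2 ≤ A * lam / 4 ∧
      ∀ s, 0 < s → ε * ∫ x in kbox lam, |trH g x| ≤ lam ^ 2 * (2304 * s + δ * A / s) := by
  have hg2 : ContDiff ℝ 2 g := hpre.smooth.of_le (by exact WithTop.coe_le_coe.2 le_top)
  have hg1 : ContDiff ℝ 1 g := hg2.of_le (by norm_num)
  set S := kbox lam
  have hS : IsCompact S := isCompact_latbox _ _
  have hi : ∀ {f : E3 → ℝ}, Continuous f → IntegrableOn f S := fun hf =>
    hf.continuousOn.integrableOn_compact hS
  have hp : Continuous (pLatSq g) := by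
    rw [funext (pLatSq_eq g)]
    exact (by unfold latSq; fun_prop : Continuous latSq).comp (continuous_grad hg1)
  have hq := continuous_qv hg2
  have ht := continuous_trH hg2
  have hr := continuous_res hg2 ε
  have hgs := continuous_gsq hg1
  have hd2 : Continuous (pd 2 g) := (hg1.continuous_fderiv one_ne_zero).clm_apply continuous_const
  have e1 : 0 ≤ ∫ x in S, (qv 0 g x ^ 2 + qv 1 g x ^ 2 + ε * trH g x ^ 2) :=
    setIntegral_nonneg hS.measurableSet fun x _ => by positivity
  have e2 : 0 ≤ (∫ x in S, ((gsq g x - 1) ^ 2 + pLatSq g x ^ 2 + (1 - pd 2 g x) ^ 2)) / lam :=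
    div_nonneg (setIntegral_nonneg hS.measurableSet fun x _ => by positivity) hlam.le
  unfold energy at hen
  have hA : 0 ≤ A * lam ^ 2 := by linarith
  have hA0 : 0 ≤ A := nonneg_of_mul_nonneg_left hA (by positivity)
  have hT : ε * ∫ x in S, trH g x ^ 2 ≤ A * lam ^ 2 := by
    rw [← integral_const_mul]
    refine le_trans (setIntegral_mono_on (hi (by fun_prop)) (hi (by fun_prop)) hS.measurableSet
      fun x _ => le_add_of_nonneg_left (by positivity)) (show
        (∫ x in S, (qv 0 g x ^ 2 + qv 1 g x ^ 2 + ε * trH g x ^ 2)) ≤ _ by linarith)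
  refine ⟨hA0, ?_, ?_, fun s hs => ?_⟩
  · have hkey : ∀ x ∈ S, ‖qvec g x‖ ^ 2 ≤
        2 * (qv 0 g x ^ 2 + qv 1 g x ^ 2 + ε * trH g x ^ 2) + 6 * res ε g x ^ 2 := by
      intro x hx
      have hm := kbox_subset_mbox' hx
      have h3 := abs_le.1 ((hpre.slope3 x hm).trans
        ((mul_le_of_le_one_right hδ (Real.sqrt_le_one.2 hlam1)).trans hδ1))
      have hl : pd 0 g x ^ 2 + pd 1 g x ^ 2 ≤ 1/100 :=
        (hpre.slopeLat x hm).trans (by nlinarith)
      have e : qv 2 g x * pd 2 g x =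
          res ε g x - ε * trH g x - (qv 0 g x * pd 0 g x + qv 1 g x * pd 1 g x) := by
        rw [res, infLap_eq_inner hg2, ← sum_mul_eq_inner, Fin.sum_univ_three]
        simp only [grad, qvec]; ring
      set R := res ε g x
      set T := ε * trH g x
      set X := qv 0 g x * pd 0 g x + qv 1 g x * pd 1 g x
      have hX : X ^ 2 ≤ (qv 0 g x ^ 2 + qv 1 g x ^ 2) * (1/100) := by
        refine le_trans ?_ (mul_le_mul_of_nonneg_left hl (by positivity))
        nlinarith [sq_nonneg (qv 0 g x * pd 1 g x - qv 1 g x * pd 0 g x)]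
      have hT2 : T ^ 2 ≤ 1/10 * (ε * trH g x ^ 2) := by
        have hεδ : ε ≤ 1/10 := hεlam.trans (by nlinarith)
        calc T ^ 2 = ε * (ε * trH g x ^ 2) := by ring
          _ ≤ _ := mul_le_mul_of_nonneg_right hεδ (by positivity)
      have hsq : (R - T - X) ^ 2 ≤ 3 * (R ^ 2 + T ^ 2 + X ^ 2) := by
        nlinarith [sq_nonneg (R + T), sq_nonneg (R + X), sq_nonneg (T - X)]
      have hlow : (81/100:ℝ) * qv 2 g x ^ 2 ≤ (qv 2 g x * pd 2 g x) ^ 2 := by
        rw [mul_pow, mul_comm]
        exact mul_le_mul_of_nonneg_left (by nlinarith) (sq_nonneg _)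
      rw [e] at hlow
      rw [EuclideanSpace.norm_sq_eq, Fin.sum_univ_three]
      simp only [qvec, Real.norm_eq_abs, sq_abs]
      nlinarith [sq_nonneg R, sq_nonneg T, mul_nonneg hε (sq_nonneg (trH g x))]
    have e : ∀ x, qlen lam g x ^ 2 = ‖qvec g x‖ ^ 2 / lam := fun x => by
      rw [qlen, div_pow, Real.sq_sqrt hlam.le]
    simp only [e, integral_div]
    rw [div_le_iff₀ hlam]
    calc ∫ x in S, ‖qvec g x‖ ^ 2
        ≤ ∫ x in S, (2 * (qv 0 g x ^ 2 + qv 1 g x ^ 2 + ε * trH g x ^ 2) + 6 * res ε g x ^ 2) :=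
          setIntegral_mono_on (hi ((continuous_qvec hg2).norm.pow 2)) (hi (by fun_prop))
            hS.measurableSet hkey
      _ ≤ (2 * A + 1) * lam * lam := by
          rw [integral_add (hi (by fun_prop)) (hi (by fun_prop)), integral_const_mul,
            integral_const_mul]
          nlinarith
  · have h2 : (∫ x in S, (gsq g x - 1) ^ 2) / lam ≤ A * lam ^ 2 := by
      refine le_trans (div_le_div_of_nonneg_right (setIntegral_mono_on (hi (by fun_prop))
        (hi (by fun_prop)) hS.measurableSet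
        fun x _ => le_add_of_le_of_nonneg (le_add_of_nonneg_right (sq_nonneg _)) (sq_nonneg _))
          hlam.le) (show (∫ x in S, ((gsq g x - 1) ^ 2 + pLatSq g x ^ 2 + (1 - pd 2 g x) ^ 2)) /
            lam ≤ _ by linarith)
    rw [div_le_iff₀ hlam] at h2
    simp only [exc, div_pow, integral_div]
    rw [div_le_iff₀ (by positivity)]
    nlinarith
  · have h := integral_abs_le_of_sq (f := fun x => ε * trH g x) (by fun_prop) hS
      (mul_pos hs hlam)
    simp only [abs_mul, abs_of_nonneg hε, integral_const_mul, mul_pow] at h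
    refine h.trans ?_
    have h1 : ε ^ 2 * (∫ x in S, trH g x ^ 2) / (s * lam) ≤ lam ^ 2 * (δ * A / s) := by
      rw [div_le_iff₀ (by positivity)]
      calc _ = ε * (ε * ∫ x in S, trH g x ^ 2) := by ring
        _ ≤ δ * lam * (A * lam ^ 2) := mul_le_mul hεlam hT
            (mul_nonneg hε (setIntegral_nonneg hS.measurableSet fun x _ => sq_nonneg _)) (by positivity)
        _ = _ := by field_simp
    have h2 : volume.real S * (s * lam) ≤ lam ^ 2 * (2304 * s) :=
      (mul_le_mul_of_nonneg_right (volume_kbox_le hlam.le) (by positivity)).trans (le_of_eq (by ring))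
    linarith

lemma volume_chart_image (O : E3 ≃ₗᵢ[ℝ] E3) (P : E3) {ρ : ℝ} (hρ : 0 < ρ) {Q : Set E3}
    (hQ : IsCompact Q) : volume.real (chart O P ρ '' Q) = ρ ^ 3 * volume.real Q := by
  have hS : IsCompact (chart O P ρ '' Q) := hQ.image (continuous_chart O P ρ)
  have h := setIntegral_chart O P hρ (fun _ => (1:ℝ)) hS.measurableSet
  simp only [setIntegral_const, smul_eq_mul, mul_one] at h
  rw [
    preimage_image_eq Q fun x y hxy => by
      simpa [chartInv_chart hρ.ne'] using congrArg (chartInv O P ρ) hxy] at h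
  rw [h]; field_simp

end Vale.Agent.P080.C1.GoodScale
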