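import Vale.Agent.P080.C1.GoodScale.Setting

/-!
# The iteration over scales at a good point
-/

namespace Vale.Agent.P080.C1.GoodScale

open scoped ContDiff Topology RealInnerProductSpace Gradient NNReal
open Set Filter MeasureTheory Metric

/-- conclusion of `step` at fixed constants -/
def StepProp (C d τ ν0 : ℝ) : Prop :=
  ∀ (ν lam ε h ρ : ℝ) (O : E3 ≃ₗᵢ[ℝ] E3) (a P : E3) (b : ℝ) (v : E3 → ℝ) (F : Filter ℝ),
    F ≤ 𝓝[>] 0 → F.NeBot → ν ≤ ν0 → h * lam ≤ ν0 → Top ν lam ε v →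
    Config ν lam ε h ρ O a P b v →
    (∀ᶠ m in 𝓝[>] (0 : ℝ), ∀ x ∈ mbox lam,
      lat (grad (moll m v) x) * lat a ≤ ν * Real.sqrt lam) →
    (∀ᶠ m in F, Small τ (16 * h * lam) (ε / ‖a‖ ^ 2) (cu O a P b (ρ / 8) (moll m v))) →
    Improved C (16 * h * lam) d (cu O a P b (ρ / 8) v)

/-- conclusion of `sub_data` at fixed constants -/
def SubProp (C ν0 : ℝ) : Prop :=
  ∀ (ν lam ε h ρ : ℝ) (O : E3 ≃ₗᵢ[ℝ] E3) (a P : E3) (b : ℝ) (v : E3 → ℝ),
    ν ≤ ν0 → h * lam ≤ ν0 → Top ν lam ε v → Config ν lam ε h ρ O a P b v →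
    (∀ᶠ m in 𝓝[>] (0 : ℝ), ∀ x ∈ mbox lam,
      lat (grad (moll m v) x) * lat a ≤ ν * Real.sqrt lam) →
    ∀ᶠ m in 𝓝[>] (0 : ℝ), SubBd C ν lam (16 * h * lam) (cu O a P b (ρ / 8) (moll m v))

/-- change of the vertical slope per step -/
def dslope (C : ℝ) (n : ℕ) : ℝ := (33 * C + 400) * (n : ℝ) ^ 8

/-- a configuration at scale `j` with flatness `h` and tilt at most `β` -/
def Reach (C θ ν lam ε : ℝ) (n : ℕ) (P : E3) (v : E3 → ℝ) (j : ℕ) (h β : ℝ) : Prop :=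
  ∃ (O : E3 ≃ₗᵢ[ℝ] E3) (a : E3) (b : ℝ), Config ν lam ε h (scl' θ n j) O a P b v ∧
    lat a ≤ β * Real.sqrt lam ∧ |a 2 - 1| ≤ (j : ℝ) * dslope C n * lam

variable {A C G τ θ e ν ν0 lam ε d : ℝ} {n : ℕ} {P : E3} {v : E3 → ℝ} {F : Filter ℝ}

section
variable (S : Setting A C G τ θ e ν ν0 lam ε n P v F)
include S

lemma Setting.theta_one : θ ≤ 1 := S.θ_small.trans (by norm_num)

lemma Setting.lam_pos : 0 < lam := S.top.pos

lemma Setting.sbox_sub (j : ℕ) : sbox lam (tilt n) P (scl' θ n j) ⊆ kbox lam := by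
  obtain ⟨h1, h24, -⟩ := tilt_facts S.budget.n_large
  have h0 := scl'_anti S.θ_pos S.theta_one S.budget.n_large (Nat.zero_le j)
  have e0 : scl' θ n 0 = 3 / tilt n := by simp [scl']
  refine sbox_subset_kbox S.lam_pos S.point ?_ ?_
  · calc 6 * tilt n * scl' θ n j ≤ 6 * tilt n * (3 / tilt n) :=
          mul_le_mul_of_nonneg_left (h0.trans e0.le) (by positivity)
      _ ≤ 23 := by field_simp; norm_num
  · refine (h0.trans e0.le).trans ?_
    rw [div_le_iff₀ (by positivity)]; linarith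

lemma Setting.maps {O : E3 ≃ₗᵢ[ℝ] E3} {a z : E3} {h ρ : ℝ} (hn : O e3 = ‖a‖⁻¹ • a)
    (ha : 1/2 ≤ ‖a‖) (hρ : 0 ≤ ρ) (hh : 0 ≤ h) (hhB : h ≤ tilt n)
    (hlata : lat a ≤ tilt n * Real.sqrt lam) (h2 : |z 2| ≤ 1)
    (hl : lat z ≤ 40 * Real.sqrt (h * lam)) : chart O P ρ z ∈ sbox lam (tilt n) P ρ := by
  obtain ⟨h1, -, -, -, h40, -⟩ := tilt_facts S.budget.n_large
  refine chart_mem_sbox hn ha hρ S.lam_pos.le hh hlata
    ((mul_le_mul_of_nonneg_left (Real.sqrt_le_sqrt hhB) (by norm_num)).trans h40) ?_ h2 hl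
  have hl := S.lam_small
  have hC2 : 1 ≤ C ^ 2 := one_le_pow₀ S.C_one
  have hx : 0 ≤ tilt n * lam := mul_nonneg (by linarith) S.lam_pos.le
  have hs : Real.sqrt (h * lam) ≤ 1/40 := by
    rw [Real.sqrt_le_left (by norm_num)]
    calc h * lam ≤ tilt n * lam := mul_le_mul_of_nonneg_right hhB S.lam_pos.le
      _ ≤ tilt n * lam * C ^ 2 := le_mul_of_one_le_right hx hC2
      _ ≤ _ := by norm_num; linarith
  linarith

lemma Setting.adm {O : E3 ≃ₗᵢ[ℝ] E3} {a : E3} (hn : O e3 = ‖a‖⁻¹ • a)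
    (hlata : lat a ≤ tilt n * Real.sqrt lam) (ha2 : |a 2 - 1| ≤ vslope C n * lam) :
    Adm ν lam O a := by
  obtain ⟨h1, -⟩ := tilt_facts S.budget.n_large
  have hs0 := Real.sqrt_nonneg lam
  have hss : Real.sqrt lam * Real.sqrt lam = lam := Real.mul_self_sqrt S.lam_pos.le
  have hC := S.C_one
  have hA' : 0 ≤ vslope C n := by
    have : (0:ℝ) ≤ 33 * C + 400 := by linarith
    unfold vslope; positivity
  have hsm := S.sq_small
  have hs1 : Real.sqrt lam ≤ 1 := Real.sqrt_le_one.2 S.top.le_one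
  have hq : Real.sqrt lam * tilt n ^ 2 ≤ ν :=
    (mul_le_mul_of_nonneg_left (le_add_of_nonneg_right hA') hs0).trans hsm
  refine ⟨hn, ha2.trans ?_, hlata.trans ?_, ?_⟩
  · calc vslope C n * lam = Real.sqrt lam * vslope C n * Real.sqrt lam := by
          rw [mul_comm (Real.sqrt lam) (vslope C n), mul_assoc, hss]
      _ ≤ ν * Real.sqrt lam := mul_le_mul_of_nonneg_right
          ((mul_le_mul_of_nonneg_left (le_add_of_nonneg_left (sq_nonneg _)) hs0).trans hsm) hs0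
  · calc tilt n * Real.sqrt lam ≤ Real.sqrt lam * tilt n ^ 2 := by
          rw [mul_comm]; exact mul_le_mul_of_nonneg_left (le_self_pow₀ h1 two_ne_zero) hs0
      _ ≤ ν := hq
  · calc lat a ^ 2 ≤ (tilt n * Real.sqrt lam) ^ 2 := pow_le_pow_left₀ (lat_nonneg a) hlata 2
      _ = Real.sqrt lam * tilt n ^ 2 * Real.sqrt lam := by ring
      _ ≤ ν * Real.sqrt lam := mul_le_mul_of_nonneg_right hq hs0

lemma Setting.slope_le {j : ℕ} (hj : j ≤ nsc n + 1) :
    (j : ℝ) * dslope C n ≤ vslope C n := by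
  have : (0:ℝ) ≤ 33 * C + 400 := by linarith [S.C_one]
  have hj' : (j:ℝ) ≤ (nsc n : ℝ) + 1 := by exact_mod_cast hj
  unfold vslope dslope
  rw [← mul_assoc, mul_assoc ((nsc n : ℝ) + 1)]
  calc (j:ℝ) * (33 * C + 400) * (n:ℝ) ^ 8 ≤ ((nsc n : ℝ) + 1) * (33 * C + 400) * (n:ℝ) ^ 8 :=
        mul_le_mul_of_nonneg_right (mul_le_mul_of_nonneg_right hj' this) (by positivity)
    _ ≤ _ := by rw [mul_assoc]; exact le_add_of_nonneg_right (by positivity)

lemma Setting.config {O : E3 ≃ₗᵢ[ℝ] E3} {a : E3} {b h : ℝ} {j : ℕ} (hn : O e3 = ‖a‖⁻¹ • a)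
    (hh : 1 ≤ h) (hhB : h ≤ tilt n) (hj : j ≤ nsc n)
    (hlata : lat a ≤ tilt n * Real.sqrt lam) (ha2 : |a 2 - 1| ≤ (j : ℝ) * dslope C n * lam)
    (hflat : ∀ z : E3, |z 2| ≤ 1 → lat z ≤ 40 * Real.sqrt (h * lam) →
      chart O P (scl' θ n j) z ∈ kbox lam →
      |v (chart O P (scl' θ n j) z) - (⟪a, chart O P (scl' θ n j) z⟫ + b)| ≤
        h * lam * scl' θ n j) :
    Config ν lam ε h (scl' θ n j) O a P b v := by
  have hρ := scl'_pos S.θ_pos S.budget.n_large j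
  have hadm := S.adm hn hlata
    (ha2.trans (mul_le_mul_of_nonneg_right (S.slope_le (Nat.le_succ_of_le hj)) S.lam_pos.le))
  obtain ⟨hL, -⟩ := hadm.norm_bounds (S.ν_le.trans S.ν0_le) S.top.le_one
  have hin : ∀ z ∈ wbox (h * lam), chart O P (scl' θ n j) z ∈ kbox lam := fun z hz =>
    S.sbox_sub j (S.maps hn (by linarith) hρ.le (by linarith) hhB hlata
      (hz.1.le.trans (by norm_num)) hz.2.le)
  refine ⟨hadm, hρ, hh, ?_, hin, fun z hz => hflat z (hz.1.le.trans (by norm_num)) hz.2.le (hin z hz)⟩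
  exact sol0_similar S.top.sol O P hρ (by positivity) _ (isOpen_latbox _ _)
    fun z hz => kbox_subset_wbox S.lam_pos (hin z hz)

lemma Setting.cross_of {a : E3} (hlata : lat a ≤ tilt n * Real.sqrt lam) :
    ∀ᶠ m in 𝓝[>] (0 : ℝ), ∀ x ∈ mbox lam,
      lat (grad (moll m v) x) * lat a ≤ ν * Real.sqrt lam := by
  filter_upwards [S.cross] with m hm x hx
  calc lat (grad (moll m v) x) * lat a ≤ lat (grad (moll m v) x) * (tilt n * Real.sqrt lam) :=
        mul_le_mul_of_nonneg_left hlata (lat_nonneg _)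
    _ = lat (grad (moll m v) x) * tilt n * Real.sqrt lam := (mul_assoc _ _ _).symm
    _ ≤ ν * Real.sqrt lam := mul_le_mul_of_nonneg_right (hm x hx) (Real.sqrt_nonneg _)

lemma Setting.qbox_maps {O : E3 ≃ₗᵢ[ℝ] E3} {a : E3} {h ρ : ℝ} (hn : O e3 = ‖a‖⁻¹ • a)
    (ha : 1/2 ≤ ‖a‖) (hρ : 0 ≤ ρ) (hh : 1 ≤ h) (hhB : h ≤ tilt n)
    (hlata : lat a ≤ tilt n * Real.sqrt lam) :
    MapsTo (chart O P (ρ / 8)) (qbox (16 * h * lam)) (sbox lam (tilt n) P ρ) := fun z hz => by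
  obtain ⟨h2, hl⟩ := (box_geometry (mul_pos (by linarith) S.lam_pos)).2.1 z hz
  rw [show ρ / 8 = ρ * (1/8) by ring, chart_mul]
  exact S.maps hn ha hρ (by linarith) hhB hlata (h2.trans (by norm_num))
    (hl.trans (mul_le_mul_of_nonneg_right (by norm_num) (Real.sqrt_nonneg _)))

/-- in the first phase the tilt is at most half the budget -/
theorem Setting.drift (hsd : SubProp C ν0) {O : E3 ≃ₗᵢ[ℝ] E3} {a : E3} {b : ℝ} {j : ℕ}
    (hj : j < nsc n) (hcfg : Config ν lam ε (tilt n) (scl' θ n j) O a P b v)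
    (hlata : lat a ≤ tilt n * Real.sqrt lam) :
    lat a ≤ tilt n / 2 * Real.sqrt lam := by
  have hb := S.budget
  obtain ⟨h1, -⟩ := tilt_facts hb.n_large
  have hlam := S.lam_pos
  obtain ⟨hL, hL'⟩ := hcfg.adm.norm_bounds (S.ν_le.trans S.ν0_le) S.top.le_one
  have hev := (hsd ν lam ε _ _ O a P b v S.ν_le S.lam_small' S.top hcfg (S.cross_of hlata)).filter_mono
    S.F_le
  have := S.F_ne
  obtain ⟨m, hsb, hg⟩ := (hev.and S.good).exists
  set g := moll m v
  set B := tilt n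
  set M := lev n
  have hn' : (2000:ℝ) ≤ n := by exact_mod_cast hb.n_large
  have hM0 : 0 < M := by linarith [hb.M_one]
  have hK2 : (0:ℝ) < (n:ℝ) ^ 2 := by positivity
  have hK9 : (0:ℝ) < (n:ℝ) ^ 9 := by positivity
  have hek : ∀ i ≤ nsc n, e ≤ scl' θ n i ^ 2 := fun i hi => S.e_le.trans
    (pow_le_pow_left₀ (scl'_pos S.θ_pos hb.n_large _).le
      (scl'_anti S.θ_pos S.theta_one hb.n_large hi) 2)
  have hosc : ∀ (K : ℝ), 0 < K → ∀ i < nsc n,
      ∫ x in sbox lam B P (scl' θ n i),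
          |psi M lam g x - avg (sbox lam B P (scl' θ n i)) (psi M lam g)| ≤
        144 * B ^ 2 * lam * scl' θ n i ^ 3 *
          ((band lam B K P (scl' θ n i) g + 144 * B ^ 2 / K + 1) / B) := fun K hK i hi =>
    sbox_oscillation hg.smooth hM0 S.A_nonneg hb.sqrtM hlam S.top.eps_pos.le h1 hK
      (scl'_pos S.θ_pos hb.n_large i) (S.sbox_sub i) hg.gb hg.res_small hg.tr_small (hek i hi.le)
  have hmean := mean_chain (ψ := psi M lam g) (B := B) (P := P)
    (D := fun i => (band lam B ((n:ℝ) ^ 9) P (scl' θ n i) g + 144 * B ^ 2 / (n:ℝ) ^ 9 + 1) / B)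
    (J := nsc n) hlam (by linarith) S.θ_pos S.theta_one (scl'_pos S.θ_pos hb.n_large)
    (scl'_succ θ n) (contDiff_psi hg.smooth).continuous
    (fun i hi => by
      rw [volume_sbox hlam.le (by linarith) (scl'_pos S.θ_pos hb.n_large i).le]
      exact hosc _ hK9 i hi) j hj.le
  have hstart := mean_start (P := P) hg.smooth hlam (by linarith : 0 < B)
    (scl'_pos S.θ_pos hb.n_large 0) hb.M_one (S.sbox_sub 0) hg.exc_small
  have hsum : ∑ i ∈ Finset.range j,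
      (band lam B ((n:ℝ) ^ 9) P (scl' θ n i) g + 144 * B ^ 2 / (n:ℝ) ^ 9 + 1) / B ≤
      (G * B * (n:ℝ) ^ 9 + (nsc n : ℝ) * (144 * B ^ 2 / (n:ℝ) ^ 9 + 1)) / B := by
    rw [← Finset.sum_div]
    refine div_le_div_of_nonneg_right ?_ (by linarith)
    have hb9 := hg.bands ((n:ℝ) ^ 9) (by simp)
    calc ∑ i ∈ Finset.range j, (band lam B ((n:ℝ) ^ 9) P (scl' θ n i) g + 144 * B ^ 2 / (n:ℝ) ^ 9 + 1)
        ≤ ∑ i ∈ Finset.range (nsc n),
            (band lam B ((n:ℝ) ^ 9) P (scl' θ n i) g + 144 * B ^ 2 / (n:ℝ) ^ 9 + 1) :=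
          Finset.sum_le_sum_of_subset_of_nonneg (Finset.range_mono hj.le) fun i _ _ => by
            have := band_nonneg hlam.le B ((n:ℝ) ^ 9) P (scl' θ n i) g
            positivity
      _ ≤ _ := by
          rw [Finset.sum_add_distrib, Finset.sum_add_distrib, Finset.sum_const, Finset.sum_const,
            Finset.card_range, nsmul_eq_mul, nsmul_eq_mul]
          linarith
  have e0 : scl' θ n 0 = 3 / B := by simp [scl', B]
  rw [e0] at hstart
  simp only [← e0] at hstart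
  have hfj : |avg (sbox lam B P (scl' θ n j)) (psi M lam g)| ≤ M / 4 := by
    have hpre : 1 + A / (288 * B ^ 2 * scl' θ n 0 ^ 3) + (θ ^ 3)⁻¹ *
        ((G * B * (n : ℝ) ^ 9 + (nsc n : ℝ) * (144 * B ^ 2 / (n : ℝ) ^ 9 + 1)) / B) ≤ M / 4 := by
      rw [e0]; exact hb.chain
    have h3 := mul_le_mul_of_nonneg_left hsum (inv_nonneg.2 (pow_nonneg S.θ_pos.le 3))
    linarith
  have hmean2 : ∫ x in sbox lam B P (scl' θ n j),
      |psi M lam g x - avg (sbox lam B P (scl' θ n j)) (psi M lam g)| ≤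
        M * B * lam * scl' θ n j ^ 3 / 4 := by
    refine (hosc _ hK2 j hj).trans ?_
    have hband : band lam B ((n:ℝ) ^ 2) P (scl' θ n j) g ≤ G * B * (n:ℝ) ^ 2 :=
      (Finset.single_le_sum (f := fun i => band lam B ((n:ℝ) ^ 2) P (scl' θ n i) g)
        (fun i _ => band_nonneg hlam.le _ _ _ _ _) (Finset.mem_range.2 hj)).trans
        (hg.bands _ (by simp))
    have hX : (band lam B ((n:ℝ) ^ 2) P (scl' θ n j) g + 144 * B ^ 2 / (n:ℝ) ^ 2 + 1) / B ≤
        (G * B * (n:ℝ) ^ 2 + 144 * B ^ 2 / (n:ℝ) ^ 2 + 1) / B :=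
      div_le_div_of_nonneg_right (by linarith) (by linarith)
    have h3 := mul_le_mul_of_nonneg_left hX (show 0 ≤ 144 * B ^ 2 by positivity)
    have hρ3 : 0 ≤ lam * scl' θ n j ^ 3 := by
      have := scl'_pos S.θ_pos hb.n_large j
      positivity
    nlinarith [mul_le_mul_of_nonneg_right (h3.trans hb.mean) hρ3]
  have hνq : 6 * ν * Real.sqrt lam ≤ 1/4 := by
    have hν0 : 0 ≤ ν := (lat_nonneg a).trans hcfg.adm.lata
    have : ν * Real.sqrt lam ≤ ν := mul_le_of_le_one_right hν0 (Real.sqrt_le_one.2 S.top.le_one)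
    linarith [S.ν_le, S.ν0_le]
  have ht := tilt_bound (A := A) hg.smooth hlam h1 (scl'_pos S.θ_pos hb.n_large j)
    (by linarith [S.C_one]) hM0 hb.AM hcfg.adm.axis hL hL' hsb hνq
    (S.qbox_maps hcfg.adm.axis (by linarith) (scl'_pos S.θ_pos hb.n_large j).le h1 le_rfl hlata)
    (fun x hx => hg.gb x (S.sbox_sub j hx)) hfj hmean2
  exact ht.trans (mul_le_mul_of_nonneg_right hb.tilt_half (Real.sqrt_nonneg _))

/-- one step -/
theorem Setting.go (hst : StepProp C d τ ν0) (hd : 0 ≤ d) {h : ℝ} {j : ℕ} {O : E3 ≃ₗᵢ[ℝ] E3}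
    {a : E3} {b : ℝ} (hj : j < nsc n) (hhB : h ≤ tilt n)
    (hcfg : Config ν lam ε h (scl' θ n j) O a P b v) (hlata : lat a ≤ tilt n * Real.sqrt lam)
    (ha2 : |a 2 - 1| ≤ (j : ℝ) * dslope C n * lam) {K : ℝ} (hK : 0 < K)
    (hband : ∀ᶠ m in F, 8 * (band lam (tilt n) K P (scl' θ n j) (moll m v) + 4 * h / K) ≤
      τ * (h * Real.sqrt h)) :
    ∃ (a' : E3) (b' : ℝ), lat a' ≤ lat a + 140 * Real.sqrt (tilt n) * Real.sqrt lam ∧
      |a' 2 - 1| ≤ ((j + 1 : ℕ) : ℝ) * dslope C n * lam ∧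
      ∀ O' : E3 ≃ₗᵢ[ℝ] E3, O' e3 = ‖a'‖⁻¹ • a' → ∀ z : E3, |z 2| ≤ 1 →
        lat z ≤ 40 * Real.sqrt (h * lam) →
        |v (chart O' P (scl' θ n (j + 1)) z) - (⟪a', chart O' P (scl' θ n (j + 1)) z⟫ + b')| ≤
          3 * C * (1000000 * θ ^ 2 + d ^ (1/8 : ℝ)) * (h * lam * scl' θ n j) := by
  have hb := S.budget
  obtain ⟨h1, -, -, hs3, -, -⟩ := tilt_facts hb.n_large
  have hlam := S.lam_pos
  have hh := hcfg.one_le
  have hν := S.ν_le.trans S.ν0_le
  obtain ⟨hL, -⟩ := hcfg.adm.norm_bounds hν S.top.le_one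
  have hρ := scl'_pos S.θ_pos hb.n_large j
  have hsmall : ∀ᶠ m in F, Small τ (16 * h * lam) (ε / ‖a‖ ^ 2)
      (cu O a P b (scl' θ n j / 8) (moll m v)) := by
    filter_upwards [hband, S.good] with m hm hg
    refine small_of_band hg.smooth hlam S.top.eps_pos.le hK hρ hh hL
      (S.qbox_maps hcfg.adm.axis (by linarith) hρ.le hh hhB hlata) (S.sbox_sub j) hm S.τ_pos.le
      hg.tr_small (S.e_le'.trans (mul_le_mul_of_nonneg_left ?_ S.τ_pos.le))
    exact pow_le_pow_left₀ (scl'_pos S.θ_pos hb.n_large _).le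
      (scl'_anti S.θ_pos S.theta_one hb.n_large hj.le) 2
  have himp := hst ν lam ε h _ O a P b v F S.F_le S.F_ne S.ν_le
    ((mul_le_mul_of_nonneg_right hhB hlam.le).trans S.lam_small') S.top hcfg
    (S.cross_of hlata) hsmall
  have hls : 16 * h * lam * C ^ 2 ≤ 1/1000000 := by
    refine le_trans ?_ S.lam_small
    exact mul_le_mul_of_nonneg_right (mul_le_mul_of_nonneg_right (by linarith) hlam.le) (sq_nonneg C)
  obtain ⟨a', b', ha', hl', hflat⟩ := advance hν hlam S.top.le_one hh hρ S.θ_pos S.θ_small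
    S.C_one hd hls hcfg.adm himp
  have hsh : Real.sqrt (h * lam) ≤ Real.sqrt (tilt n) * Real.sqrt lam := by
    rw [← Real.sqrt_mul (by linarith)]
    exact Real.sqrt_le_sqrt (mul_le_mul_of_nonneg_right hhB hlam.le)
  refine ⟨a', b', ?_, ?_, fun O' hO' z h2 hl => ?_⟩
  · have := lat_add_le a (a' - a)
    rw [add_sub_cancel] at this
    linarith
  · have hC := S.C_one
    have hD : 33 * C * (h * lam) + 400 * (Real.sqrt (h * lam) * lat a) ≤ dslope C n * lam := by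
      have e1 : 33 * C * (h * lam) ≤ 33 * C * ((n:ℝ) ^ 8 * lam) := by
        refine mul_le_mul_of_nonneg_left (mul_le_mul_of_nonneg_right (hhB.trans ?_) hlam.le)
          (by linarith)
        exact pow_le_pow_right₀ (by exact_mod_cast (show 1 ≤ n by have := hb.n_large; omega))
          (by norm_num)
      have e2 : Real.sqrt (h * lam) * lat a ≤ (n:ℝ) ^ 8 * lam := by
        calc Real.sqrt (h * lam) * lat a
            ≤ (Real.sqrt (tilt n) * Real.sqrt lam) * (tilt n * Real.sqrt lam) :=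
              mul_le_mul hsh hlata (lat_nonneg a) (by positivity)
          _ = Real.sqrt (tilt n) * tilt n * (Real.sqrt lam * Real.sqrt lam) := by ring
          _ ≤ (n:ℝ) ^ 3 * (n:ℝ) ^ 5 * (Real.sqrt lam * Real.sqrt lam) :=
              mul_le_mul_of_nonneg_right (mul_le_mul hs3 le_rfl (by linarith) (by positivity))
                (mul_self_nonneg _)
          _ = _ := by rw [Real.mul_self_sqrt hlam.le]; ring
      unfold dslope; nlinarith
    have := abs_sub_le (a' 2) (a 2) 1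
    push_cast
    linarith
  · rw [scl'_succ]; exact hflat O' hO' z h2 hl

/-- one step keeping or lowering the flatness -/
theorem Setting.go_config (hst : StepProp C d τ ν0) (hd : 0 ≤ d)
    (hθd : 6 * C * (1000000 * θ ^ 2 + d ^ (1/8 : ℝ)) ≤ θ) {h h' β : ℝ} {j : ℕ} (hj : j < nsc n)
    (hh' : 1 ≤ h') (hh'1 : h / 2 ≤ h') (hh'2 : h' ≤ h) (hhB : h ≤ tilt n)
    (hβ : β + 140 * Real.sqrt (tilt n) ≤ tilt n)
    (hR : Reach C θ ν lam ε n P v j h β) {K : ℝ} (hK : 0 < K)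
    (hband : ∀ᶠ m in F, 8 * (band lam (tilt n) K P (scl' θ n j) (moll m v) + 4 * h / K) ≤
      τ * (h * Real.sqrt h)) :
    Reach C θ ν lam ε n P v (j + 1) h' (β + 140 * Real.sqrt (tilt n)) := by
  obtain ⟨O, a, b, hcfg, hla, ha2⟩ := hR
  have hlam := S.lam_pos
  have hla' : lat a ≤ tilt n * Real.sqrt lam :=
    hla.trans (mul_le_mul_of_nonneg_right (by linarith [Real.sqrt_nonneg (tilt n)]) (Real.sqrt_nonneg _))
  obtain ⟨a', b', hl', ha2', hflat⟩ := S.go hst hd hj hhB hcfg hla' ha2 hK hband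
  have hl'' : lat a' ≤ (β + 140 * Real.sqrt (tilt n)) * Real.sqrt lam := by linarith
  have hl3 : lat a' ≤ tilt n * Real.sqrt lam :=
    hl''.trans (mul_le_mul_of_nonneg_right hβ (Real.sqrt_nonneg _))
  have hν := S.ν_le.trans S.ν0_le
  have hν0 : 0 ≤ ν := (lat_nonneg a).trans hcfg.adm.lata
  have ha'0 : ‖a'‖ ≠ 0 := by
    have h2 := ha2'.trans
      (mul_le_mul_of_nonneg_right (S.slope_le (Nat.succ_le_succ hj.le)) hlam.le)
    have h4 : vslope C n * lam ≤ ν := by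
      calc vslope C n * lam = Real.sqrt lam * vslope C n * Real.sqrt lam := by
            rw [mul_comm (Real.sqrt lam) (vslope C n), mul_assoc, Real.mul_self_sqrt hlam.le]
        _ ≤ ν * 1 := mul_le_mul ((mul_le_mul_of_nonneg_left (le_add_of_nonneg_left (sq_nonneg _))
              (Real.sqrt_nonneg _)).trans S.sq_small) (Real.sqrt_le_one.2 S.top.le_one)
              (Real.sqrt_nonneg _) hν0
        _ = ν := mul_one ν
    intro h0
    rw [norm_eq_zero] at h0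
    subst h0
    simp at h2
    linarith
  obtain ⟨O', hO'⟩ := exists_isometry_e3 (n := ‖a'‖⁻¹ • a')
    (by rw [norm_smul, norm_inv, norm_norm, inv_mul_cancel₀ ha'0])
  refine ⟨O', a', b', S.config hO' hh' (hh'2.trans hhB) hj hl3 ha2' fun z h2 hl _ => ?_, hl'', ha2'⟩
  refine (hflat O' hO' z h2 (hl.trans (mul_le_mul_of_nonneg_left
    (Real.sqrt_le_sqrt (mul_le_mul_of_nonneg_right hh'2 hlam.le)) (by norm_num)))).trans ?_
  have hρ := scl'_pos S.θ_pos S.budget.n_large j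
  have h5 := mul_le_mul_of_nonneg_right hθd (show 0 ≤ h / 2 * lam * scl' θ n j by
    have := hcfg.one_le; positivity)
  rw [scl'_succ]
  have h6 : h / 2 * lam * (θ * scl' θ n j) ≤ h' * lam * (θ * scl' θ n j) :=
    mul_le_mul_of_nonneg_right (mul_le_mul_of_nonneg_right hh'1 hlam.le)
      (mul_nonneg S.θ_pos.le hρ.le)
  linarith

end

end Vale.Agent.P080.C1.GoodScale
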