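import Vale.Agent.P080.C1.GoodScale.Sub
import Vale.Agent.P080.C1.Improve3
import Mathlib.Algebra.Order.Chebyshev

/-!
# Normalised data of a sub-configuration
-/

namespace Vale.Agent.P080.C1.GoodScale

open scoped ContDiff Topology RealInnerProductSpace Gradient NNReal
open Set Filter MeasureTheory Metric Vale.Agent.P080.C1.Approx

variable {O : E3 ≃ₗᵢ[ℝ] E3} {a P : E3} {b ρ : ℝ}

lemma hessSq_nrm_le {L c : ℝ} (hρ : ρ ≠ 0) {g : E3 → ℝ} (hg : ContDiff ℝ 2 g) (z : E3) :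
    hessSq (nrm O P ρ L c g) z ≤ 81 * (ρ ^ 2 / L) ^ 2 * hessSq g (chart O P ρ z) := by
  set x := chart O P ρ z
  set B := fderiv ℝ (fderiv ℝ g) x
  have hexp : ∀ v : E3, v = ∑ k, v k • EuclideanSpace.single k (1 : ℝ) := fun v => by
    ext m; simp [Finset.sum_apply, Pi.single_apply]
  have h1 : ∀ i j : Fin 3,
      B (O (EuclideanSpace.single i 1)) (O (EuclideanSpace.single j 1)) ^ 2 ≤ 9 * hessSq g x := by
    intro i j
    set v := O (EuclideanSpace.single i (1 : ℝ))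
    set w := O (EuclideanSpace.single j (1 : ℝ))
    have hv : ∀ k, |v k| ≤ 1 := fun k => by
      rw [← Real.norm_eq_abs]
      exact (PiLp.norm_apply_le v k).trans (le_of_eq (by simp [v]))
    have hw : ∀ k, |w k| ≤ 1 := fun k => by
      rw [← Real.norm_eq_abs]
      exact (PiLp.norm_apply_le w k).trans (le_of_eq (by simp [w]))
    have he : B v w = ∑ p : Fin 3 × Fin 3, v p.1 * w p.2 * pd2 p.1 p.2 g x := by
      conv_lhs => rw [hexp v, hexp w]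
      simp only [map_sum, map_smul, FunLike.coe_sum, Finset.sum_apply, FunLike.coe_smul,
        Pi.smul_apply, smul_eq_mul, Finset.mul_sum, pd2_eq hg, Fintype.sum_prod_type]
      rw [Finset.sum_comm]
      exact Finset.sum_congr rfl fun k _ => Finset.sum_congr rfl fun m _ => by ring
    rw [he, hessSq, ← Fintype.sum_prod_type (fun p : Fin 3 × Fin 3 => pd2 p.1 p.2 g x ^ 2)]
    refine (sq_sum_le_card_mul_sum_sq (s := Finset.univ)
      (f := fun p : Fin 3 × Fin 3 => v p.1 * w p.2 * pd2 p.1 p.2 g x)).trans ?_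
    simp only [Finset.card_univ, Fintype.card_prod, Fintype.card_fin]
    norm_num
    refine Finset.sum_le_sum fun p _ => ?_
    rw [mul_pow]
    refine mul_le_of_le_one_left (sq_nonneg _) ?_
    rw [sq_le_one_iff_abs_le_one, abs_mul]
    exact mul_le_one₀ (hv _) (abs_nonneg _) (hw _)
  calc hessSq (nrm O P ρ L c g) z
      = ∑ i, ∑ j, (ρ ^ 2 / L) ^ 2 *
          B (O (EuclideanSpace.single i 1)) (O (EuclideanSpace.single j 1)) ^ 2 := by
        simp only [hessSq, pd2_eq (contDiff_nrm hg), fderiv2_nrm hρ hg, mul_pow, B, x]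
    _ ≤ ∑ _i : Fin 3, ∑ _j : Fin 3, (ρ ^ 2 / L) ^ 2 * (9 * hessSq g x) :=
        Finset.sum_le_sum fun i _ => Finset.sum_le_sum fun j _ =>
          mul_le_mul_of_nonneg_left (h1 i j) (sq_nonneg _)
    _ = _ := by simp; ring

lemma continuous_hessSq {g : E3 → ℝ} (hg : ContDiff ℝ 2 g) : Continuous (hessSq g) :=
  continuous_finsetSum _ fun i _ => continuous_finsetSum _ fun j _ => (continuous_pd2 hg i j).pow 2

lemma hessSq_nonneg (g : E3 → ℝ) (x : E3) : 0 ≤ hessSq g x :=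
  Finset.sum_nonneg fun _ _ => Finset.sum_nonneg fun _ _ => sq_nonneg _

lemma grad_cu_scale (hρ : ρ ≠ 0) {s : ℝ} (hs : s ≠ 0) (g : E3 → ℝ) (z : E3) :
    grad (cu O a P b (ρ * s) g) z = grad (cu O a P b ρ g) (s • z) := by
  rw [grad_cu (mul_ne_zero hρ hs), grad_cu hρ, chart_mul]

lemma lat_smul_pos {s : ℝ} (hs : 0 ≤ s) (z : E3) :
    |(s • z) 2| = s * |z 2| ∧ lat (s • z) = s * lat z := by
  rw [lat_smul, abs_of_nonneg hs, PiLp.smul_apply, smul_eq_mul, abs_mul, abs_of_nonneg hs]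
  exact ⟨rfl, rfl⟩

lemma qbox_eq (lam : ℝ) : qbox lam = rbox 0 (4 * Real.sqrt lam) 1 := by
  simp [qbox, rbox]

lemma lat_of_qbox {lam : ℝ} {z : E3} (hz : z ∈ qbox lam) :
    |z 2| ≤ 1 ∧ lat z ≤ 8 * Real.sqrt lam := by
  simp only [qbox, mem_ofPred_eq] at hz
  exact ⟨hz.1, (lat_le_add z).trans (by linarith [hz.2.1, hz.2.2])⟩

/-- what is known about a normalised sub-configuration -/
structure SubBd (C ν lam Λ : ℝ) (u : E3 → ℝ) : Prop where
  flat : ∀ z ∈ qbox Λ, |u z - z 2| ≤ Λ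
  grad_le : ∀ z ∈ qbox Λ, GradBd C Λ (grad u z)
  slope3 : ∀ z ∈ qbox Λ, |pd 2 u z - 1| ≤ 6 * ν * Real.sqrt lam
  slopeLat : ∀ z ∈ qbox Λ, pLatSq u z ≤ 36 * ν ^ 2
  energy_le : ∫ z in qbox Λ, ((gsq u z - 1) ^ 2 + pLatSq u z ^ 2) ≤ C * Λ ^ 3

/-- configurations at scale `ρ` with flatness `h` -/
structure Config (ν lam ε h ρ : ℝ) (O : E3 ≃ₗᵢ[ℝ] E3) (a P : E3) (b : ℝ) (v : E3 → ℝ) : Prop where
  adm : Adm ν lam O a
  scale : 0 < ρ
  one_le : 1 ≤ h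
  sol : Sol0 (ε * ρ ^ 2 / (‖a‖ * ρ) ^ 2) (wbox (h * lam)) (cu O a P b ρ v)
  maps : MapsTo (chart O P ρ) (wbox (h * lam)) (kbox lam)
  flat : ∀ z ∈ wbox (h * lam),
    |v (chart O P ρ z) - (⟪a, chart O P ρ z⟫ + b)| ≤ h * lam * ρ

/-- top-level information used by all sub-configurations -/
structure Top (ν lam ε : ℝ) (v : E3 → ℝ) : Prop where
  pos : 0 < lam
  le_one : lam ≤ 1
  eps_pos : 0 < ε
  eps_le : ε ≤ ν * lam
  sol : Sol0 ε (wbox lam) v
  grads : ∀ᶠ m in 𝓝[>] (0 : ℝ), ∀ x ∈ mbox lam,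
    |pd 2 (moll m v) x - 1| ≤ ν * Real.sqrt lam ∧ lat (grad (moll m v) x) ≤ ν

lemma kbox_subset_wbox {lam : ℝ} (hlam : 0 < lam) : kbox lam ⊆ wbox lam := fun x hx =>
  ⟨hx.1.trans_lt (by norm_num), hx.2.trans_lt
    (by nlinarith [Real.sqrt_pos.2 hlam])⟩

lemma kbox_subset_mbox' {lam : ℝ} : kbox lam ⊆ mbox lam := fun x hx =>
  ⟨hx.1.trans (by norm_num), hx.2.trans
    (mul_le_mul_of_nonneg_right (by norm_num) (Real.sqrt_nonneg _))⟩

lemma eps_scale (ε L : ℝ) (hρ : ρ ≠ 0) : ε * ρ ^ 2 / (L * ρ) ^ 2 = ε / L ^ 2 := by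
  rw [mul_pow]; exact mul_div_mul_right ε (L ^ 2) (pow_ne_zero 2 hρ)

lemma GradBd.mono {C C' Λ Λ' : ℝ} (hC : 0 ≤ C) (hCC : C ≤ C') (hΛ0 : 0 ≤ Λ') (hΛ : Λ ≤ Λ')
    {p : E3} (hp : GradBd C Λ p) : GradBd C' Λ' p := by
  have h : C * Λ ≤ C' * Λ' :=
    (mul_le_mul_of_nonneg_left hΛ hC).trans (mul_le_mul_of_nonneg_right hCC hΛ0)
  exact ⟨hp.1.trans h, hp.2.trans h⟩

lemma absorb {e R R' Hs H' K T D : ℝ}
    (h : e ≤ T + K * Real.sqrt R * (1 + Real.sqrt Hs)) (hR : R ≤ R') (hH : Hs ≤ H')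
    (hD : |K| * Real.sqrt R' * (1 + Real.sqrt H') ≤ D) : e ≤ T + D := by
  refine h.trans (add_le_add le_rfl (le_trans ?_ hD))
  exact mul_le_mul (mul_le_mul (le_abs_self _) (Real.sqrt_le_sqrt hR) (Real.sqrt_nonneg _)
    (abs_nonneg _)) (by linarith [Real.sqrt_le_sqrt hH]) (by positivity) (by positivity)

/-- bounds at one scale read at a smaller scale -/
lemma scaled_bounds (hn : O e3 = ‖a‖⁻¹ • a) (ha : a ≠ 0) (hρ : 0 < ρ) {g : E3 → ℝ} {s : ℝ}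
    (hs : 0 < s) {C Λ Λ' c1 c2 c0 : ℝ} (hC : 0 ≤ C) (hΛ0 : 0 ≤ Λ') (hΛ : Λ ≤ Λ') {z : E3}
    (h : |cu O a P b ρ g (s • z) - (s • z) 2| ≤ c0 ∧ GradBd C Λ (grad (cu O a P b ρ g) (s • z)) ∧
      |grad (cu O a P b ρ g) (s • z) 2 - 1| ≤ c1 ∧
      latSq (grad (cu O a P b ρ g) (s • z)) ≤ c2) :
    |cu O a P b (ρ * s) g z - z 2| ≤ s⁻¹ * c0 ∧
      GradBd C Λ' (grad (cu O a P b (ρ * s) g) z) ∧
      |pd 2 (cu O a P b (ρ * s) g) z - 1| ≤ c1 ∧ pLatSq (cu O a P b (ρ * s) g) z ≤ c2 := by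
  obtain ⟨h1, h2, h3, h4⟩ := h
  rw [pd_eq_grad, pLatSq_eq, grad_cu_scale hρ.ne' hs.ne']
  refine ⟨?_, h2.mono hC le_rfl hΛ0 hΛ, h3, h4⟩
  rw [cu_sub hn ha hρ.ne'] at h1
  rw [cu_sub hn ha (mul_pos hρ hs).ne', chart_mul, ← mul_assoc ‖a‖ ρ s, div_mul_eq_div_div, abs_div,
    abs_of_pos hs, div_eq_inv_mul]
  exact mul_le_mul_of_nonneg_left h1 (inv_nonneg.2 hs.le)

lemma transfer_integrals {L c : ℝ} (hρ : 0 < ρ) (hL : L ≠ 0) {g : E3 → ℝ} (hg : ContDiff ℝ 2 g)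
    (ε : ℝ) {Q S : Set E3} (hQ : IsCompact Q) (hS : IsCompact S)
    (hQS : MapsTo (chart O P ρ) Q S) :
    (∫ x in Q, res (ε * ρ ^ 2 / L ^ 2) (nrm O P ρ L c g) x ^ 2) ≤
        (ρ ^ 4 / L ^ 3) ^ 2 * (ρ ^ 3)⁻¹ * ∫ x in S, res ε g x ^ 2 ∧
      (∫ x in Q, hessSq (nrm O P ρ L c g) x) ≤
        81 * (ρ ^ 2 / L) ^ 2 * (ρ ^ 3)⁻¹ * ∫ x in S, hessSq g x := by
  constructor
  · have e : ∀ x, res (ε * ρ ^ 2 / L ^ 2) (nrm O P ρ L c g) x ^ 2 =
        (ρ ^ 4 / L ^ 3) ^ 2 * res ε g (chart O P ρ x) ^ 2 := fun x => by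
      rw [res_nrm hρ.ne' hL hg, mul_pow]
    simp only [e, integral_const_mul, mul_assoc]
    exact mul_le_mul_of_nonneg_left (setIntegral_chart_le O P hρ
      (f := fun x => res ε g x ^ 2) ((continuous_res hg ε).pow 2) (fun x => sq_nonneg _) hS hQS)
      (sq_nonneg _)
  · rw [mul_assoc]
    refine le_trans (setIntegral_mono_on
      ((continuous_hessSq (contDiff_nrm hg)).continuousOn.integrableOn_compact hQ)
      (((continuous_hessSq hg).comp (continuous_chart O P ρ)).const_mul _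
        |>.continuousOn.integrableOn_compact hQ) hQ.measurableSet
      fun x _ => hessSq_nrm_le hρ.ne' hg x) ?_
    simp only [Function.comp_apply]
    rw [integral_const_mul]
    exact mul_le_mul_of_nonneg_left (setIntegral_chart_le O P hρ (continuous_hessSq hg)
      (hessSq_nonneg g) hS hQS) (by positivity)

/-- the Bernstein energy restricted to the half-size box -/
lemma energy_half {l ε M : ℝ} (hl : 0 < l) (hε : 0 ≤ ε) {u w : E3 → ℝ} (hu : ContDiff ℝ 2 u)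
    (hw : ∀ z, grad w z = grad u ((1/2:ℝ) • z)) {Q : Set E3}
    (hQ : ∀ z ∈ Q, (1/2:ℝ) • z ∈ kbox l) (hen : energy l ε u ≤ M) :
    ∫ z in Q, ((gsq w z - 1) ^ 2 + pLatSq w z ^ 2) ≤ 8 * (M * l) := by
  set φ : E3 → ℝ := fun y => (gsq u y - 1) ^ 2 + pLatSq u y ^ 2
  have hu1 : ContDiff ℝ 1 u := hu.of_le (by norm_num)
  have hφc : Continuous φ := by
    have h1 := continuous_gsq hu1
    have h2 : Continuous (pLatSq u) := by
      rw [funext (pLatSq_eq u)]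
      exact (by unfold latSq; fun_prop : Continuous latSq).comp (continuous_grad hu1)
    fun_prop
  have hkb : IsCompact (kbox l) := isCompact_latbox _ _
  have e : ∀ z, (gsq w z - 1) ^ 2 + pLatSq w z ^ 2 =
      φ (chart (LinearIsometryEquiv.refl ℝ E3) 0 (1/2) z) := fun z => by
    simp [φ, chart, gsq_eq_norm, pLatSq_eq, hw]
  simp only [e]
  have hi : ∫ x in kbox l, φ x ≤
      ∫ x in kbox l, ((gsq u x - 1) ^ 2 + pLatSq u x ^ 2 + (1 - pd 2 u x) ^ 2) :=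
    setIntegral_mono_on (hφc.continuousOn.integrableOn_compact hkb)
      ((hφc.add ((continuous_const.sub ((hu1.continuous_fderiv one_ne_zero).clm_apply
        continuous_const)).pow 2)).continuousOn.integrableOn_compact hkb) hkb.measurableSet
      fun x _ => le_add_of_nonneg_right (sq_nonneg _)
  have h1 : 0 ≤ ∫ x in kbox l, (qv 0 u x ^ 2 + qv 1 u x ^ 2 + ε * trH u x ^ 2) :=
    setIntegral_nonneg hkb.measurableSet fun x _ => by positivity
  have h2 : (∫ x in kbox l, ((gsq u x - 1) ^ 2 + pLatSq u x ^ 2 + (1 - pd 2 u x) ^ 2)) / l ≤ M := by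
    unfold energy at hen; linarith
  rw [div_le_iff₀ hl] at h2
  refine (setIntegral_chart_le _ 0 (by norm_num : (0:ℝ) < 1/2) hφc (fun x => by positivity) hkb
    (fun z hz => by simpa [chart] using hQ z hz)).trans ?_
  norm_num
  linarith

lemma center_bounds {ν lam ε h CB : ℝ} {v g : E3 → ℝ} (hcfg : Config ν lam ε h ρ O a P b v)
    (hν : ν ≤ 1/100) (hlam : 0 < lam) (hlam1 : lam ≤ 1)
    (htg : ∀ x ∈ mbox lam, |pd 2 g x - 1| ≤ ν * Real.sqrt lam ∧ lat (grad g x) ≤ ν)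
    (hc : ∀ x ∈ mbox lam, lat (grad g x) * lat a ≤ ν * Real.sqrt lam)
    (hgv : ∀ x, |g x - v x| ≤ h * lam * ρ / 8)
    (hg : ∀ z ∈ inner1 (h * lam), GradBd CB (h * lam) (grad (cu O a P b ρ g) z)) :
    ∀ z ∈ inner1 (h * lam),
      |cu O a P b ρ g z - z 2| ≤ 6/5 * (h * lam) ∧
      GradBd CB (h * lam) (grad (cu O a P b ρ g) z) ∧
      |grad (cu O a P b ρ g) z 2 - 1| ≤ 6 * ν * Real.sqrt lam ∧
      latSq (grad (cu O a P b ρ g) z) ≤ 36 * ν ^ 2 := by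
  intro z hz
  obtain ⟨hL, hL'⟩ := hcfg.adm.norm_bounds hν hlam1
  have hρ := hcfg.scale
  have hh0 : 0 < h * lam := mul_pos (by linarith [hcfg.one_le]) hlam
  have hw : z ∈ wbox (h * lam) :=
    ⟨hz.1.trans_lt (by norm_num), hz.2.trans_lt (by nlinarith [Real.sqrt_pos.2 hh0])⟩
  have hzk := kbox_subset_mbox' (hcfg.maps hw)
  refine ⟨?_, hg z hz, ?_⟩
  · rw [cu_sub hcfg.adm.axis (by rintro rfl; simp at hL; linarith) hρ.ne', abs_div,
      abs_of_pos (show 0 < ‖a‖ * ρ by positivity), div_le_iff₀ (by positivity)]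
    have h1 := hcfg.flat z hw
    have h2 := hgv (chart O P ρ z)
    have h3 := abs_sub_le (g (chart O P ρ z)) (v (chart O P ρ z)) (⟪a, chart O P ρ z⟫ + b)
    nlinarith [mul_pos hh0 hρ]
  · rw [grad_cu hρ.ne']
    exact hcfg.adm.fgrad_bounds hν hlam1 (htg _ hzk).1 (htg _ hzk).2 (hc _ hzk)

lemma box_geometry {h lam : ℝ} (hh0 : 0 < h * lam) :
    (∀ z ∈ mbox (8 * (h * lam)), (1/4:ℝ) • z ∈ inner1 (h * lam)) ∧
      (∀ z ∈ qbox (16 * h * lam), (1/8:ℝ) • z ∈ inner1 (h * lam)) ∧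
      ∀ z ∈ qbox (16 * h * lam), (1/2:ℝ) • z ∈ kbox (8 * (h * lam)) := by
  have hsq8 : Real.sqrt (8 * (h * lam)) ≤ 3 * Real.sqrt (h * lam) := by
    rw [Real.sqrt_mul (by norm_num)]
    refine mul_le_mul_of_nonneg_right ?_ (Real.sqrt_nonneg _)
    rw [Real.sqrt_le_left (by norm_num)]; norm_num
  have hle : Real.sqrt (h * lam) ≤ Real.sqrt (8 * (h * lam)) := Real.sqrt_le_sqrt (by linarith)
  have hsq16 : Real.sqrt (16 * h * lam) = 4 * Real.sqrt (h * lam) := by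
    rw [mul_assoc, Real.sqrt_mul (by norm_num),
      show (16:ℝ) = 4 ^ 2 by norm_num, Real.sqrt_sq (by norm_num)]
  have h0 := Real.sqrt_nonneg (h * lam)
  refine ⟨fun z hz => ?_, fun z hz => ?_, fun z hz => ?_⟩
  · obtain ⟨e2, el⟩ := lat_smul_pos (show (0:ℝ) ≤ 1/4 by norm_num) z
    exact ⟨by rw [e2]; linarith [hz.1], by rw [el]; linarith [hz.2]⟩
  · obtain ⟨z2, zl⟩ := lat_of_qbox hz
    obtain ⟨e2, el⟩ := lat_smul_pos (show (0:ℝ) ≤ 1/8 by norm_num) z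
    rw [hsq16] at zl
    exact ⟨by rw [e2]; linarith, by rw [el]; linarith⟩
  · obtain ⟨z2, zl⟩ := lat_of_qbox hz
    obtain ⟨e2, el⟩ := lat_smul_pos (show (0:ℝ) ≤ 1/2 by norm_num) z
    rw [hsq16] at zl
    exact ⟨by rw [e2]; linarith, by rw [el]; linarith⟩

theorem sub_data (hB : BernsteinOut) (hE : EnergyOut) :
    ∃ C ν0 : ℝ, 0 < C ∧ 0 < ν0 ∧ ∀ (ν lam ε h ρ : ℝ) (O : E3 ≃ₗᵢ[ℝ] E3) (a P : E3) (b : ℝ)
      (v : E3 → ℝ), ν ≤ ν0 → h * lam ≤ ν0 → Top ν lam ε v → Config ν lam ε h ρ O a P b v →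
      (∀ᶠ m in 𝓝[>] (0 : ℝ), ∀ x ∈ mbox lam,
        lat (grad (moll m v) x) * lat a ≤ ν * Real.sqrt lam) →
      ∀ᶠ m in 𝓝[>] (0 : ℝ),
        SubBd C ν lam (16 * h * lam) (cu O a P b (ρ / 8) (moll m v)) := by
  obtain ⟨CB, δB, hCB, hδB, hB⟩ := hB
  obtain ⟨CE, δE, hCE, hδE, hE⟩ := hE CB
  set ν0 : ℝ := min (min (1/100) (δB / 72)) (δE / 16) with hν0def
  have hν0 : 0 < ν0 := by positivity
  refine ⟨max CB (CE + 1), ν0, lt_max_of_lt_left hCB, hν0,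
    fun ν lam ε h ρ O a P b v hν hhlam htop hcfg hcross => ?_⟩
  obtain ⟨hν1, hν2, hν3⟩ : ν ≤ 1/100 ∧ ν ≤ δB / 72 ∧ ν ≤ δE / 16 :=
    ⟨hν.trans ((min_le_left _ _).trans (min_le_left _ _)),
      hν.trans ((min_le_left _ _).trans (min_le_right _ _)), hν.trans (min_le_right _ _)⟩
  obtain ⟨hlam, hlam1, hεpos, hεν⟩ := htop.pos, htop.le_one, htop.eps_pos, htop.eps_le
  obtain ⟨hL, hL'⟩ := hcfg.adm.norm_bounds hν1 hlam1
  have hν0' : 0 ≤ ν := (lat_nonneg a).trans hcfg.adm.lata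
  have hh := hcfg.one_le
  have hρ := hcfg.scale
  have hh0 : 0 < h * lam := by positivity
  have hlh : lam ≤ h * lam := le_mul_of_one_le_left hlam.le hh
  have hεL : ε / ‖a‖ ^ 2 ≤ h * lam := by
    rw [div_le_iff₀ (by positivity)]
    calc ε ≤ ν * lam := hεν
      _ ≤ 1/100 * (h * lam) := mul_le_mul hν1 hlh hlam.le (by norm_num)
      _ ≤ h * lam * ‖a‖ ^ 2 := by
          have : (1/100:ℝ) ≤ ‖a‖ ^ 2 := by nlinarith
          nlinarith
  obtain ⟨K, hK⟩ := htop.sol.lip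
  have hsub := sub_gradBd hCB.le hδB hB hlam hlam1 hν1 (by linarith)
    (by nlinarith) hcfg.adm hρ hh
    (hhlam.trans ((min_le_left _ _).trans ((min_le_right _ _).trans (by linarith)))) hεL hK
    hcfg.sol hcfg.maps hcfg.flat
    (by filter_upwards [htop.grads, hcross] with m h1 h2 x hx
        exact ⟨(h1 x hx).1, (h1 x hx).2, h2 x hx⟩)
  set l2 := 8 * (h * lam) with hl2
  set l3 := 16 * h * lam with hl3
  have hl20 : 0 < l2 := by positivity
  set ρ2 := ρ * (1/4) with hρ2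
  have hρ20 : 0 < ρ2 := by positivity
  set ε2 := ε / ‖a‖ ^ 2 with hε2
  obtain ⟨KE, hKE⟩ := hE l2 ε2 hl20
    (by have : h * lam ≤ δE / 16 := hhlam.trans (min_le_right _ _); linarith) (by positivity)
    (by linarith)
  obtain ⟨hm2, hq3, hq2⟩ := box_geometry hh0
  have hmk : MapsTo (chart O P ρ2) (mbox l2) (kbox lam) := fun z hz => by
    rw [hρ2, chart_mul]
    exact hcfg.maps ⟨(hm2 z hz).1.trans_lt (by norm_num),
      (hm2 z hz).2.trans_lt (mul_lt_mul_of_pos_right (by norm_num) (Real.sqrt_pos.2 hh0))⟩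
  have hmc : IsCompact (mbox lam) := isCompact_latbox _ _
  have hmw : mbox lam ⊆ wbox lam := fun x hx =>
    ⟨hx.1.trans_lt (by norm_num), hx.2.trans_lt (by nlinarith [Real.sqrt_pos.2 hlam])⟩
  obtain ⟨H, hH⟩ := htop.sol.hess _ hmc hmw
  have hH0 : ∀ᶠ m in 𝓝[>] (0:ℝ), ∫ x in mbox lam, hessSq (moll m v) x ≤ H := hH
  set cR := (ρ2 ^ 4 / (‖a‖ * ρ2) ^ 3) ^ 2 * (ρ2 ^ 3)⁻¹
  set cH := 81 * (ρ2 ^ 2 / (‖a‖ * ρ2)) ^ 2 * (ρ2 ^ 3)⁻¹
  have htend : Tendsto (fun m => |KE| * Real.sqrt (cR * ∫ x in mbox lam, res ε (moll m v) x ^ 2) *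
      (1 + Real.sqrt (cH * H))) (𝓝[>] (0:ℝ)) (𝓝 0) := by
    have := (((htop.sol.res_tendsto _ hmc hmw).const_mul cR).sqrt.const_mul |KE|).mul_const
      (1 + Real.sqrt (cH * H))
    simpa using this
  have hflatm : ∀ᶠ m in 𝓝[>] (0:ℝ), (K : ℝ) * m ≤ h * lam * ρ / 8 := by
    have ht : Tendsto (fun m : ℝ => (K : ℝ) * m) (𝓝[>] (0:ℝ)) (𝓝 0) :=
      ((continuous_const.mul continuous_id).tendsto' (0:ℝ) 0 (by simp)).mono_left nhdsWithin_le_nhds
    exact ht.eventually (Iic_mem_nhds (by positivity))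
  filter_upwards [hsub, htop.grads, hcross, hH0,
    htend.eventually (Iic_mem_nhds (show (0:ℝ) < l2 ^ 2 by positivity)), hflatm,
    self_mem_nhdsWithin] with m hg htg hc hHm hRm hKm hm0
  replace hm0 : 0 < m := hm0
  set g := moll m v
  have hgs : ContDiff ℝ ∞ g := contDiff_moll hm0 hK
  have hg2 : ContDiff ℝ 2 g := hgs.of_le (by exact WithTop.coe_le_coe.2 le_top)
  have hlin := center_bounds hcfg hν1 hlam hlam1 htg hc
    (fun x => (abs_moll_sub_le hm0 hK x).trans hKm) hg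
  have hslam : Real.sqrt lam ≤ Real.sqrt l2 := Real.sqrt_le_sqrt (by linarith)
  have ha0 : a ≠ 0 := by rintro rfl; simp at hL; linarith
  set u2 := cu O a P b (ρ * (1/4)) g with hu2def
  have b2 := fun z hz => scaled_bounds (s := 1/4) (Λ' := l2) (z := z) hcfg.adm.axis ha0 hρ
    (by norm_num) hCB.le hl20.le (by linarith) (hlin _ (hm2 z hz))
  have b3 := fun z hz => scaled_bounds (s := 1/8) (Λ' := l3) (z := z) hcfg.adm.axis ha0 hρ
    (by norm_num) hCB.le (by positivity) (by linarith) (hlin _ (hq3 z hz))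
  have hpre : Pre CB δE l2 u2 := by
    refine ⟨contDiff_nrm hgs, fun z hz => (b2 z hz).1.trans (by linarith),
      fun z hz => (b2 z hz).2.2.1.trans (mul_le_mul (by linarith) hslam (Real.sqrt_nonneg _) hδE.le),
      fun z hz => (b2 z hz).2.2.2.trans (by nlinarith),
      fun z hz => ((gsq_tilt_iff u2 z CB l2).2 (b2 z hz).2.1).1,
      fun z hz => ((gsq_tilt_iff u2 z CB l2).2 (b2 z hz).2.1).2⟩
  have hu2 : ContDiff ℝ 2 u2 := contDiff_nrm hg2
  obtain ⟨hr, hh'⟩ := transfer_integrals (c := ⟪a, P⟫ + b) hρ20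
    (mul_ne_zero (norm_ne_zero_iff.2 ha0) hρ20.ne') hg2 ε (isCompact_latbox (5/8) (32 * Real.sqrt l2))
    hmc (fun z hz => kbox_subset_mbox' (hmk hz))
  rw [eps_scale ε _ hρ20.ne'] at hr
  have hen : energy l2 ε2 u2 ≤ CE * l2 ^ 2 + l2 ^ 2 :=
    absorb (hKE u2 hpre) hr (hh'.trans (mul_le_mul_of_nonneg_left hHm (by positivity))) hRm
  rw [show ρ / 8 = ρ * (1/8) by ring]
  have hgr3 : ∀ z, grad (cu O a P b (ρ * (1/8)) g) z = grad u2 ((1/2:ℝ) • z) := fun z => by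
    rw [grad_cu_scale hρ.ne' (by norm_num), hu2def, grad_cu_scale hρ.ne' (by norm_num), smul_smul]
    norm_num
  refine ⟨fun z hz => (b3 z hz).1.trans (by linarith),
    fun z hz => (b3 z hz).2.1.mono hCB.le (le_max_left _ _) (by positivity) le_rfl,
    fun z hz => (b3 z hz).2.2.1, fun z hz => (b3 z hz).2.2.2, ?_⟩
  · refine (energy_half hl20 (by positivity) hu2 hgr3 hq2 hen).trans ?_
    have : (CE + 1) * l3 ^ 3 ≤ max CB (CE + 1) * l3 ^ 3 :=
      mul_le_mul_of_nonneg_right (le_max_right _ _) (by positivity)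
    refine le_trans ?_ this
    rw [hl2, hl3]
    nlinarith [show 0 ≤ (CE + 1) * (h * lam) ^ 3 by positivity]

end Vale.Agent.P080.C1.GoodScale
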