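import Vale.Agent.P080.C1.GoodScale.Oscillation
import Vale.Agent.P080.C1.GoodScale.SubData
import Mathlib.Analysis.SpecialFunctions.Trigonometric.ArctanDeriv
import Mathlib.Analysis.Calculus.Deriv.MeanValue
import Mathlib.Analysis.Real.Pi.Bounds

/-!
# The truncated excess and its mean oscillation
-/

namespace Vale.Agent.P080.C1.GoodScale

open scoped ContDiff Topology RealInnerProductSpace Gradient
open Set Filter MeasureTheory Metric

/-- the excess `F = (|Dg|² - 1)/(2λ)` -/
noncomputable def exc (lam : ℝ) (g : E3 → ℝ) (x : E3) : ℝ := (gsq g x - 1) / (2 * lam)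

/-- truncated excess -/
noncomputable def psi (M lam : ℝ) (g : E3 → ℝ) (x : E3) : ℝ := M * Real.arctan (exc lam g x / M)

variable {M lam : ℝ} {g : E3 → ℝ}

lemma abs_sub_arctan (t : ℝ) : |t - Real.arctan t| ≤ t ^ 2 := by
  have pos : ∀ t : ℝ, 0 ≤ t → 0 ≤ t - Real.arctan t ∧ t - Real.arctan t ≤ t ^ 2 := by
    intro t ht
    have h1 : MonotoneOn (fun t => t - Real.arctan t) (Ici 0) := by
      refine monotoneOn_of_hasDerivWithinAt_nonneg (f' := fun t => 1 - 1 / (1 + t ^ 2))
        (convex_Ici 0) (by fun_prop)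
        (fun x _ => ((hasDerivAt_id x).sub (Real.hasDerivAt_arctan x)).hasDerivWithinAt) fun x _ => ?_
      rw [sub_nonneg, div_le_one (by positivity)]; nlinarith
    have h2 : MonotoneOn (fun t => t ^ 2 - (t - Real.arctan t)) (Ici 0) := by
      refine monotoneOn_of_hasDerivWithinAt_nonneg (f' := fun t => 2 * t - (1 - 1 / (1 + t ^ 2)))
        (convex_Ici 0) (by fun_prop)
        (fun x _ => (((hasDerivAt_pow 2 x).sub
          ((hasDerivAt_id x).sub (Real.hasDerivAt_arctan x))).congr_deriv (by simp)).hasDerivWithinAt)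
        fun x hx => ?_
      rw [interior_Ici, mem_Ioi] at hx
      rw [one_sub_div (by positivity), sub_nonneg, div_le_iff₀ (by positivity)]
      nlinarith [sq_nonneg (x - 1), pow_pos hx 3]
    have a1 := h1 self_mem_Ici ht ht
    have a2 := h2 self_mem_Ici ht ht
    simp only [Real.arctan_zero, sub_zero, ne_eq, OfNat.ofNat_ne_zero, not_false_eq_true,
      zero_pow] at a1 a2
    exact ⟨a1, by linarith⟩
  rcases le_total 0 t with h | h
  · rw [abs_of_nonneg (pos t h).1]; exact (pos t h).2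
  · have h' := pos (-t) (by linarith)
    rw [Real.arctan_neg, neg_sq] at h'
    rw [abs_le]; constructor <;> linarith [h'.1, h'.2]

lemma abs_exc_sub_psi (hM : 0 < M) (x : E3) :
    |exc lam g x - psi M lam g x| ≤ exc lam g x ^ 2 / M := by
  have h := mul_le_mul_of_nonneg_left (abs_sub_arctan (exc lam g x / M)) hM.le
  calc |exc lam g x - psi M lam g x|
      = M * |exc lam g x / M - Real.arctan (exc lam g x / M)| := by
        rw [psi, ← abs_of_pos hM, ← abs_mul, abs_of_pos hM]; congr 1; field_simp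
    _ ≤ _ := h.trans (le_of_eq (by field_simp))

lemma abs_psi_le (hM : 0 < M) (x : E3) :
    |psi M lam g x| ≤ |exc lam g x| + exc lam g x ^ 2 / M := by
  have h := abs_exc_sub_psi (lam := lam) (g := g) hM x
  have := abs_sub_abs_le_abs_sub (psi M lam g x) (exc lam g x)
  rw [abs_sub_comm] at this
  linarith

/-- a small truncated excess bounds the excess -/
lemma abs_exc_le_of_psi (hM : 0 < M) {x : E3} (h : |psi M lam g x| ≤ M / 2) :
    |exc lam g x| ≤ M := by
  set t := exc lam g x / M with ht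
  have h' : |Real.arctan t| ≤ 1 / 2 := by
    rw [psi, abs_mul, abs_of_pos hM] at h
    exact le_of_mul_le_mul_left (h.trans (le_of_eq (by ring))) hM
  have : |t| ≤ 1 := by
    by_contra hc
    rw [not_le, lt_abs] at hc
    have := Real.pi_gt_three
    rcases hc with hc | hc
    · have := Real.arctan_strictMono hc
      rw [Real.arctan_one] at this
      linarith [abs_le.1 h']
    · have := Real.arctan_strictMono (show t < -1 by linarith)
      rw [Real.arctan_neg, Real.arctan_one] at this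
      linarith [abs_le.1 h']
  rw [ht, abs_div, abs_of_pos hM, div_le_one hM] at this
  exact this

/-- the tilt bound controls the lateral slope by the excess -/
lemma latSq_le_exc {C : ℝ} (hlam : 0 < lam) {x : E3} (hg : GradBd C lam (grad g x))
    (h3 : |pd 2 g x - 1| ≤ 1 / 4) :
    latSq (grad g x) ≤ 5 * C * lam + 10 * lam * |exc lam g x| := by
  have hp : grad g x 2 = pd 2 g x := rfl
  obtain ⟨hu, ht⟩ := hg
  rw [← gsq_eq_norm] at ht
  rw [hp] at ht
  have hgs : gsq g x = latSq (grad g x) + pd 2 g x ^ 2 := by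
    rw [gsq_eq_norm, norm_sq_eq_lat, hp]
  have hF : gsq g x - 1 = 2 * lam * exc lam g x := by rw [exc]; field_simp
  have h1 := abs_le.1 h3
  have h2 : 2 * lam * exc lam g x ≤ 2 * lam * |exc lam g x| :=
    mul_le_mul_of_nonneg_left (le_abs_self _) (by linarith)
  have h4 : -(2 * lam * exc lam g x) ≤ 2 * lam * |exc lam g x| := by
    have := mul_le_mul_of_nonneg_left (neg_abs_le (exc lam g x)) (show 0 ≤ 2 * lam by linarith)
    linarith
  set p3 := pd 2 g x
  set l := latSq (grad g x)
  have hl : 0 ≤ l := latSq_nonneg _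
  -- (p3 + 1) * (p3 - 1) = 2 λ F - l
  have k1 : (p3 + 1) * (p3 - 1) = 2 * lam * exc lam g x - l := by nlinarith
  have k2 : 2 * lam * exc lam g x - (p3 - 1) / 2 ≤ C * lam := by nlinarith
  rcases le_total 0 (p3 - 1) with hs | hs
  · nlinarith
  · nlinarith

lemma hasFDerivAt_psi (hg : ContDiff ℝ 2 g) (hM : M ≠ 0) (x : E3) :
    HasFDerivAt (psi M lam g)
      (((1 + (exc lam g x / M) ^ 2)⁻¹ / lam) • innerSL ℝ (qvec g x)) x := by
  have h1 : HasFDerivAt (fun y => exc lam g y / M)
      ((M⁻¹ * (2 * lam)⁻¹) • (2 • innerSL ℝ (qvec g x))) x := by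
    have := ((hasFDerivAt_gsq hg x).sub_const 1).const_mul (M⁻¹ * (2 * lam)⁻¹)
    refine this.congr_of_eventuallyEq (Eventually.of_forall fun y => ?_)
    simp [exc]; ring
  have h2 := (h1.arctan).const_mul M
  refine h2.congr_fderiv ?_
  ext v
  simp
  field_simp

lemma contDiff_psi (hg : ContDiff ℝ 2 g) : ContDiff ℝ 1 (psi M lam g) := by
  have h1 : ContDiff ℝ 1 (gsq g) := by
    unfold gsq pd
    exact ContDiff.sum fun i _ =>
      ((hg.fderiv_right (m := 1) (by norm_num)).clm_apply contDiff_const).pow 2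
  unfold psi exc
  exact contDiff_const.mul ((((h1.sub contDiff_const).div_const _).div_const _).arctan)

/-- derivative bound of the truncated excess -/
lemma fderiv_psi_le (hg : ContDiff ℝ 2 g) (hM : 0 < M) (hlam : 0 < lam) {C : ℝ} (hC : 0 ≤ C)
    {ε : ℝ} (hε : 0 ≤ ε) {x : E3} (hgb : GradBd C lam (grad g x)) (h3 : |pd 2 g x - 1| ≤ 1/4)
    (v : E3) :
    |fderiv ℝ (psi M lam g) x v| ≤
      ((|v 0| + |v 1|) * ‖qvec g x‖ + 2 * |v 2| * (|res ε g x| + ε * |trH g x| +
        Real.sqrt (5 * C + 10 * M) * Real.sqrt lam * ‖qvec g x‖)) / lam := by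
  set χ := (1 + (exc lam g x / M) ^ 2)⁻¹ with hχ
  set q := qvec g x
  set Mb := Real.sqrt (5 * C + 10 * M) * Real.sqrt lam
  have hden : 0 < 1 + (exc lam g x / M) ^ 2 := by positivity
  have hχ0 : 0 ≤ χ := by positivity
  have hχ1 : χ ≤ 1 := inv_le_one_of_one_le₀ (by nlinarith [sq_nonneg (exc lam g x / M)])
  rw [(hasFDerivAt_psi hg hM.ne' x).fderiv]
  simp only [FunLike.coe_smul, Pi.smul_apply, innerSL_apply_apply, smul_eq_mul, ← hχ]
  have hl : χ * lat (grad g x) ≤ Mb := by
    have h1 : lat (grad g x) ≤ Mb * Real.sqrt (1 + (exc lam g x / M) ^ 2) := by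
      simp only [lat, Mb]
      rw [← Real.sqrt_mul (by positivity), ← Real.sqrt_mul (by positivity)]
      refine Real.sqrt_le_sqrt ((latSq_le_exc hlam hgb h3).trans ?_)
      have : |exc lam g x| ≤ M * (1 + (exc lam g x / M) ^ 2) := by
        have h2 : |exc lam g x / M| ≤ 1 + (exc lam g x / M) ^ 2 := by
          nlinarith [sq_nonneg (|exc lam g x / M| - 1), sq_abs (exc lam g x / M),
            abs_nonneg (exc lam g x / M)]
        rw [abs_div, abs_of_pos hM, div_le_iff₀ hM] at h2
        linarith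
      nlinarith [mul_le_mul_of_nonneg_left this hlam.le,
        mul_nonneg (mul_nonneg hC hlam.le) (sq_nonneg (exc lam g x / M))]
    have h2 : χ * Real.sqrt (1 + (exc lam g x / M) ^ 2) ≤ 1 := by
      rw [hχ, inv_mul_le_iff₀ hden, mul_one, Real.sqrt_le_left hden.le]
      nlinarith [sq_nonneg (exc lam g x / M)]
    calc χ * lat (grad g x) ≤ χ * (Mb * Real.sqrt (1 + (exc lam g x / M) ^ 2)) :=
          mul_le_mul_of_nonneg_left h1 hχ0
      _ = Mb * (χ * Real.sqrt (1 + (exc lam g x / M) ^ 2)) := by ring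
      _ ≤ Mb := mul_le_of_le_one_right (by positivity) h2
  have hqi : ∀ i, |q i| ≤ ‖q‖ := fun i => by rw [← Real.norm_eq_abs]; exact PiLp.norm_apply_le q i
  have hq2 : χ * |q 2| ≤ 2 * (|res ε g x| + ε * |trH g x| + Mb * ‖q‖) := by
    have e : q 2 * pd 2 g x = res ε g x - ε * trH g x - (q 0 * pd 0 g x + q 1 * pd 1 g x) := by
      rw [res, infLap_eq_inner hg, ← sum_mul_eq_inner, Fin.sum_univ_three]
      simp only [grad, q]
      ring
    have hlat : |q 0 * pd 0 g x + q 1 * pd 1 g x| ≤ ‖q‖ * lat (grad g x) := by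
      refine le_trans ?_ (mul_le_mul_of_nonneg_right (lat_le_norm q) (lat_nonneg _))
      rw [lat, lat, ← Real.sqrt_mul (latSq_nonneg q)]
      refine Real.le_sqrt_of_sq_le ?_
      rw [sq_abs]; simp only [latSq, grad]
      nlinarith [sq_nonneg (q 0 * pd 1 g x - q 1 * pd 0 g x)]
    have h1 := abs_le.1 h3
    have hp : |q 2| * (3/4) ≤ |q 2 * pd 2 g x| := by
      rw [abs_mul]
      exact mul_le_mul_of_nonneg_left (le_abs.2 (Or.inl (by linarith))) (abs_nonneg _)
    have h2 : |q 2 * pd 2 g x| ≤ |res ε g x| + ε * |trH g x| + ‖q‖ * lat (grad g x) := by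
      rw [e]
      refine (abs_sub _ _).trans (add_le_add ((abs_sub _ _).trans (le_of_eq ?_)) hlat)
      rw [abs_mul, abs_of_nonneg hε]
    have h5 : χ * (|res ε g x| + ε * |trH g x|) ≤ |res ε g x| + ε * |trH g x| :=
      mul_le_of_le_one_left (by positivity) hχ1
    have h6 := mul_le_mul_of_nonneg_left (hp.trans h2) hχ0
    have h7 := mul_le_mul_of_nonneg_left hl (norm_nonneg q)
    have h8 : 0 ≤ |res ε g x| + ε * |trH g x| + Mb * ‖q‖ := by positivity
    nlinarith
  rw [← sum_mul_eq_inner, Fin.sum_univ_three, div_mul_eq_mul_div, abs_div, abs_of_pos hlam,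
    div_le_div_iff_of_pos_right hlam]
  have t0 : |χ * (q 0 * v 0)| ≤ |v 0| * ‖q‖ := by
    rw [abs_mul, abs_mul, abs_of_nonneg hχ0]
    calc χ * (|q 0| * |v 0|) ≤ 1 * (‖q‖ * |v 0|) :=
          mul_le_mul hχ1 (mul_le_mul_of_nonneg_right (hqi 0) (abs_nonneg _)) (by positivity) zero_le_one
      _ = _ := by ring
  have t1 : |χ * (q 1 * v 1)| ≤ |v 1| * ‖q‖ := by
    rw [abs_mul, abs_mul, abs_of_nonneg hχ0]
    calc χ * (|q 1| * |v 1|) ≤ 1 * (‖q‖ * |v 1|) :=
          mul_le_mul hχ1 (mul_le_mul_of_nonneg_right (hqi 1) (abs_nonneg _)) (by positivity) zero_le_one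
      _ = _ := by ring
  have t2 : |χ * (q 2 * v 2)| ≤ 2 * |v 2| * (|res ε g x| + ε * |trH g x| + Mb * ‖q‖) := by
    rw [abs_mul, abs_mul, abs_of_nonneg hχ0, ← mul_assoc]
    exact (mul_le_mul_of_nonneg_right hq2 (abs_nonneg _)).trans (le_of_eq (by ring))
  rw [mul_add, mul_add]
  exact (abs_add_three _ _ _).trans (by linarith)

/-- mean oscillation of the truncated excess on a box -/
theorem psi_oscillation (hg : ContDiff ℝ 2 g) (hM : 0 < M) (hlam : 0 < lam) {C : ℝ} (hC : 0 ≤ C)
    {ε : ℝ} (hε : 0 ≤ ε) {P : E3} {w h : ℝ} (hw : 0 < w) (hh : 0 < h)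
    (hgb : ∀ x ∈ rbox P w h, GradBd C lam (grad g x) ∧ |pd 2 g x - 1| ≤ 1/4) :
    ∫ x in rbox P w h, |psi M lam g x - avg (rbox P w h) (psi M lam g)| ≤
      32 * ((w + h * (Real.sqrt (5 * C + 10 * M) * Real.sqrt lam)) *
          (∫ x in rbox P w h, ‖qvec g x‖) +
        h * ((∫ x in rbox P w h, |res ε g x|) + ε * ∫ x in rbox P w h, |trH g x|)) / lam := by
  set S := rbox P w h
  set Mb := Real.sqrt (5 * C + 10 * M) * Real.sqrt lam
  set G : E3 → ℝ := fun x =>
    (4 * (w + h * Mb) * ‖qvec g x‖ + 4 * h * (|res ε g x| + ε * |trH g x|)) / lam with hG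
  have hr : Continuous (res ε g) := continuous_res hg ε
  have hq := continuous_qvec hg
  have ht := continuous_trH hg
  have hGc : Continuous G := by fun_prop
  have hS : IsCompact S := isCompact_rbox _ _ _
  have hi : ∀ {f : E3 → ℝ}, Continuous f → IntegrableOn f S := fun hf =>
    hf.continuousOn.integrableOn_compact hS
  refine (oscillation hS (convex_rbox P w h) (by rw [volume_rbox hw.le hh.le]; positivity)
    (contDiff_psi hg) hGc (fun x => by rw [hG]; positivity) fun x hx y hy z hz => ?_).trans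
    (le_of_eq ?_)
  · obtain ⟨h1, h2⟩ := hgb z hz
    refine (fderiv_psi_le hg hM hlam hC hε h1 h2 (y - x)).trans ?_
    rw [hG]
    have hd : ∀ i, |(y - x) i| ≤ |(y - P) i| + |(x - P) i| := fun i => by
      simp only [PiLp.sub_apply]
      calc _ = |(y i - P i) - (x i - P i)| := by ring_nf
        _ ≤ _ := abs_sub _ _
    obtain ⟨x2, x0, x1⟩ := hx
    obtain ⟨y2, y0, y1⟩ := hy
    refine div_le_div_of_nonneg_right ?_ hlam.le
    have hv01 : (|(y - x) 0| + |(y - x) 1|) * ‖qvec g z‖ ≤ 4 * w * ‖qvec g z‖ :=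
      mul_le_mul_of_nonneg_right (by linarith [hd 0, hd 1]) (norm_nonneg _)
    have hv2 : 2 * |(y - x) 2| * (|res ε g z| + ε * |trH g z| + Mb * ‖qvec g z‖) ≤
        4 * h * (|res ε g z| + ε * |trH g z| + Mb * ‖qvec g z‖) :=
      mul_le_mul_of_nonneg_right (by linarith [hd 2]) (by positivity)
    linarith
  · simp only [hG]
    rw [integral_div, integral_add (hi (by fun_prop)) (hi (by fun_prop)), integral_const_mul,
      integral_const_mul, integral_add (hi (by fun_prop)) (hi (by fun_prop)), integral_const_mul]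
    ring

/-- the excess is close in `L¹` to the mean of its truncation -/
lemma integral_exc_sub_le (hg : ContDiff ℝ 2 g) (hM : 0 < M) {S : Set E3} (hS : IsCompact S)
    (c : ℝ) :
    ∫ x in S, |exc lam g x - c| ≤
      (∫ x in S, |psi M lam g x - c|) + (∫ x in S, exc lam g x ^ 2) / M := by
  have he : Continuous (exc lam g) := by
    have := continuous_gsq (hg.of_le (by norm_num : (1 : WithTop ℕ∞) ≤ 2))
    unfold exc; fun_prop
  have hp : Continuous (psi M lam g) := (contDiff_psi hg).continuous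
  have hi : ∀ {f : E3 → ℝ}, Continuous f → IntegrableOn f S := fun hf =>
    hf.continuousOn.integrableOn_compact hS
  rw [← integral_div, ← integral_add (hi (by fun_prop)) (hi (by fun_prop))]
  refine setIntegral_mono_on (hi (by fun_prop)) (hi (by fun_prop)) hS.measurableSet fun x _ => ?_
  have := abs_exc_sub_psi (lam := lam) (g := g) hM x
  have := abs_sub_le (exc lam g x) (psi M lam g x) c
  linarith

end Vale.Agent.P080.C1.GoodScale
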