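import Vale.Agent.P080.C1.GoodScale.Geometry
import Mathlib.MeasureTheory.Integral.IntervalIntegral.FundThmCalculus
import Mathlib.Analysis.Calculus.Deriv.Comp
import Mathlib.MeasureTheory.Integral.Prod
import Mathlib.MeasureTheory.Integral.IntervalIntegral.ContDiff

/-!
# Mean oscillation on convex sets
-/

namespace Vale.Agent.P080.C1.GoodScale

open scoped ContDiff Topology RealInnerProductSpace
open Set Filter MeasureTheory Metric

variable {S : Set E3}

lemma contraction_integral_le (hS : IsCompact S) (hc : Convex ℝ S) {G : E3 → ℝ} (hG : Continuous G)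
    (h0 : ∀ x, 0 ≤ G x) {p : E3} (hp : p ∈ S) {s : ℝ} (hs : 1/2 ≤ s) (hs1 : s ≤ 1) :
    ∫ x in S, G (p + s • (x - p)) ≤ 8 * ∫ x in S, G x := by
  set F := S.indicator G
  have hF0 : ∀ x, 0 ≤ F x := indicator_nonneg fun x _ => h0 x
  have hFi : Integrable F :=
    (hG.continuousOn.integrableOn_compact hS).integrable_indicator hS.measurableSet
  have hs0 : 0 < s := by linarith
  have hFc : Integrable fun x => F (p + s • (x - p)) := by
    simpa using ((hFi.comp_add_left p).comp_smul hs0.ne').comp_sub_right p
  calc ∫ x in S, G (p + s • (x - p)) = ∫ x in S, F (p + s • (x - p)) := by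
        refine setIntegral_congr_fun hS.measurableSet fun x hx => (indicator_of_mem ?_ G).symm
        rw [show p + s • (x - p) = (1 - s) • p + s • x by module]
        exact hc hp hx (by linarith) hs0.le (by ring)
    _ ≤ ∫ x, F (p + s • (x - p)) := setIntegral_le_integral hFc (ae_of_all _ fun x => hF0 _)
    _ = |(s ^ 3)⁻¹| * ∫ x, F x := by
        rw [integral_sub_right_eq_self (fun x => F (p + s • x)) p,
          Measure.integral_comp_smul volume (fun x => F (p + x)) s, integral_add_left_eq_self F p,
          smul_eq_mul]
        simp [E3]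
    _ ≤ 8 * ∫ x, F x := by
        refine mul_le_mul_of_nonneg_right ?_ (integral_nonneg hF0)
        rw [abs_of_pos (by positivity), inv_le_comm₀ (by positivity) (by norm_num)]
        calc (8:ℝ)⁻¹ = (1/2) ^ 3 := by norm_num
          _ ≤ s ^ 3 := pow_le_pow_left₀ (by norm_num) hs 3
    _ = 8 * ∫ x in S, G x := by rw [integral_indicator hS.measurableSet]

lemma half_segment_integral_le (hS : IsCompact S) (hc : Convex ℝ S) {G : E3 → ℝ}
    (hG : Continuous G) (h0 : ∀ x, 0 ≤ G x) {p : E3} (hp : p ∈ S) :
    ∫ x in S, ∫ t in (1/2:ℝ)..1, G (p + t • (x - p)) ≤ 4 * ∫ x in S, G x := by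
  have hK : Continuous fun q : ℝ × E3 => G (p + q.1 • (q.2 - p)) := by fun_prop
  have hint : Integrable (Function.uncurry fun t x => G (p + t • (x - p)))
      ((volume.restrict (uIoc (1/2:ℝ) 1)).prod (volume.restrict S)) := by
    rw [Measure.prod_restrict]
    exact (hK.continuousOn.integrableOn_compact (isCompact_uIcc.prod hS)).mono_set
      (prod_mono uIoc_subset_uIcc Subset.rfl)
  rw [← intervalIntegral_integral_swap hint]
  calc ∫ t in (1/2:ℝ)..1, ∫ x in S, G (p + t • (x - p))
      ≤ ∫ t in (1/2:ℝ)..1, 8 * ∫ x in S, G x :=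
        intervalIntegral.integral_mono_on (by norm_num)
          ((continuous_parametric_integral_of_continuous hK hS).intervalIntegrable _ _)
          (continuous_const.intervalIntegrable _ _)
          fun t ht => contraction_integral_le hS hc hG h0 hp ht.1 ht.2
    _ = 4 * ∫ x in S, G x := by simp; ring

/-- mean value of a function on a set -/
noncomputable def avg (S : Set E3) (f : E3 → ℝ) : ℝ := (volume.real S)⁻¹ * ∫ x in S, f x

/-- L¹ Poincaré inequality on a convex compact set, with an anisotropic majorant -/
theorem oscillation (hS : IsCompact S) (hc : Convex ℝ S) (hv : 0 < volume.real S) {f : E3 → ℝ}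
    (hf : ContDiff ℝ 1 f) {G : E3 → ℝ} (hG : Continuous G) (h0 : ∀ x, 0 ≤ G x)
    (hfG : ∀ x ∈ S, ∀ y ∈ S, ∀ z ∈ S, |fderiv ℝ f z (y - x)| ≤ G z) :
    ∫ x in S, |f x - avg S f| ≤ 8 * ∫ x in S, G x := by
  set R : E3 → E3 → ℝ := fun x y => ∫ t in (1/2:ℝ)..1, G (x + t • (y - x))
  have hseg : ∀ x ∈ S, ∀ y ∈ S, |f y - f (x + (1/2:ℝ) • (y - x))| ≤ R x y := by
    intro x hx y hy
    have hd : ∀ t ∈ uIcc (1/2:ℝ) 1, HasDerivAt (fun t : ℝ => f (x + t • (y - x)))
        (fderiv ℝ f (x + t • (y - x)) (y - x)) t := fun t _ => by
      have h1 : HasDerivAt (fun t : ℝ => x + t • (y - x)) (y - x) t := by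
        simpa using ((hasDerivAt_id t).smul_const (y - x)).const_add x
      exact ((hf.differentiable one_ne_zero _).hasFDerivAt).comp_hasDerivAt t h1
    have hc' : Continuous fun t : ℝ => fderiv ℝ f (x + t • (y - x)) (y - x) :=
      ((hf.continuous_fderiv one_ne_zero).comp (by fun_prop)).clm_apply continuous_const
    have h := intervalIntegral.integral_eq_sub_of_hasDerivAt hd (hc'.intervalIntegrable _ _)
    simp only [one_smul, add_sub_cancel] at h
    rw [← h, ← Real.norm_eq_abs]
    refine intervalIntegral.norm_integral_le_of_norm_le (by norm_num) ?_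
      ((by fun_prop : Continuous fun t : ℝ => G (x + t • (y - x))).intervalIntegrable _ _)
    refine Eventually.of_forall fun t ht => ?_
    rw [Real.norm_eq_abs]
    refine hfG x hx y hy _ (hc.add_smul_sub_mem hx hy ⟨?_, ?_⟩) <;> linarith [ht.1, ht.2]
  have hpair : ∀ x ∈ S, ∀ y ∈ S, |f x - f y| ≤ R x y + R y x := by
    intro x hx y hy
    have h1 := hseg x hx y hy
    have h2 := hseg y hy x hx
    rw [show y + (1/2:ℝ) • (x - y) = x + (1/2:ℝ) • (y - x) by module] at h2
    rw [abs_le] at h1 h2 ⊢
    constructor <;> linarith
  have hRc : Continuous fun q : E3 × E3 => R q.1 q.2 :=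
    intervalIntegral.continuous_parametric_intervalIntegral_of_continuous' (by fun_prop) _ _
  have hfc : Continuous f := hf.continuous
  have iS : ∀ {g : E3 → ℝ}, Continuous g → IntegrableOn g S := fun hg =>
    hg.continuousOn.integrableOn_compact hS
  have hx : ∀ x ∈ S, volume.real S * |f x - avg S f| ≤
      4 * (∫ z in S, G z) + ∫ y in S, R y x := by
    intro x hxS
    have he : volume.real S * (f x - avg S f) = ∫ y in S, (f x - f y) := by
      rw [integral_sub (iS continuous_const) (iS hfc), setIntegral_const, avg, mul_sub, smul_eq_mul,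
        ← mul_assoc (volume.real S) (volume.real S)⁻¹, mul_inv_cancel₀ hv.ne', one_mul]
    rw [show volume.real S * |f x - avg S f| = |volume.real S * (f x - avg S f)| by
      rw [abs_mul, abs_of_pos hv], he]
    have c1 : Continuous fun y => R x y := hRc.comp (by fun_prop : Continuous fun y : E3 => (x, y))
    have c2 : Continuous fun y => R y x := hRc.comp (by fun_prop : Continuous fun y : E3 => (y, x))
    calc |∫ y in S, (f x - f y)| ≤ ∫ y in S, |f x - f y| := abs_integral_le_integral_abs
      _ ≤ ∫ y in S, (R x y + R y x) :=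
          setIntegral_mono_on (iS (by fun_prop)) (iS (c1.add c2)) hS.measurableSet
            fun y hy => hpair x hxS y hy
      _ ≤ _ := by
          rw [integral_add (iS c1) (iS c2)]
          exact add_le_add_left (half_segment_integral_le hS hc hG h0 hxS) _
  have hswap : ∫ x in S, ∫ y in S, R y x ≤ volume.real S * (4 * ∫ z in S, G z) := by
    have hint : Integrable (Function.uncurry fun x y => R y x)
        ((volume.restrict S).prod (volume.restrict S)) := by
      rw [Measure.prod_restrict]
      exact (hRc.comp continuous_swap).continuousOn.integrableOn_compact (hS.prod hS)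
    rw [integral_integral_swap hint]
    calc ∫ y in S, ∫ x in S, R y x ≤ ∫ _y in S, 4 * ∫ z in S, G z :=
          setIntegral_mono_on
            (iS (continuous_parametric_integral_of_continuous hRc hS))
            (iS continuous_const) hS.measurableSet
            fun y hy => half_segment_integral_le hS hc hG h0 hy
      _ = _ := by rw [setIntegral_const, smul_eq_mul]
  refine le_of_mul_le_mul_left ?_ hv
  rw [← integral_const_mul]
  calc ∫ x in S, volume.real S * |f x - avg S f|
      ≤ ∫ x in S, (4 * (∫ z in S, G z) + ∫ y in S, R y x) :=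
        setIntegral_mono_on (iS (by fun_prop))
          ((iS continuous_const).add (iS (continuous_parametric_integral_of_continuous
            (by exact hRc.comp continuous_swap) hS))) hS.measurableSet hx
    _ ≤ _ := by
        rw [integral_add (iS continuous_const) (iS (continuous_parametric_integral_of_continuous
          (by exact hRc.comp continuous_swap) hS)), setIntegral_const, smul_eq_mul]
        linarith

/-- mean over a subset -/
lemma abs_avg_sub_le {T : Set E3} (hTc : IsCompact T) (hS : IsCompact S) (hTS : T ⊆ S)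
    (hv : 0 < volume.real T) {f : E3 → ℝ} (hf : Continuous f) (c : ℝ) :
    |avg T f - c| ≤ (volume.real T)⁻¹ * ∫ x in S, |f x - c| := by
  have hi := hf.continuousOn.integrableOn_compact (μ := volume) hTc
  have he : avg T f - c = (volume.real T)⁻¹ * ∫ x in T, (f x - c) := by
    rw [integral_sub hi (continuous_const.continuousOn.integrableOn_compact hTc),
      setIntegral_const, smul_eq_mul, avg, mul_sub, ← mul_assoc, inv_mul_cancel₀ hv.ne', one_mul]
  rw [he, abs_mul, abs_inv, abs_of_pos hv]
  refine mul_le_mul_of_nonneg_left ?_ (inv_nonneg.2 hv.le)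
  exact abs_integral_le_integral_abs.trans (setIntegral_mono_set
    ((hf.sub continuous_const).abs.continuousOn.integrableOn_compact hS)
    (Eventually.of_forall fun x => abs_nonneg _) (Eventually.of_forall hTS))

end Vale.Agent.P080.C1.GoodScale
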