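import Vale.Agent.P080.C1.GoodScale.Iterate

/-!
# The two phases of the iteration and the conclusion at a good point
-/

namespace Vale.Agent.P080.C1.GoodScale

open scoped ContDiff Topology RealInnerProductSpace Gradient NNReal
open Set Filter MeasureTheory Metric

variable {A C G τ θ e ν ν0 lam ε d η : ℝ} {n m0 : ℕ} {P : E3} {v : E3 → ℝ} {F : Filter ℝ}

section
variable (S : Setting A C G τ θ e ν ν0 lam ε n P v F)
include S

lemma Setting.start (hflat : ∀ x ∈ kbox lam, |v x - x 2| ≤ 3 * lam) :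
    Reach C θ ν lam ε n P v 0 (tilt n) (tilt n) := by
  obtain ⟨h1, -⟩ := tilt_facts S.budget.n_large
  have hl : lat e3 = 0 := by simp [lat, latSq, e3]
  refine ⟨LinearIsometryEquiv.refl ℝ E3, e3, 0, S.config (by simp [norm_e3]) h1 le_rfl (Nat.zero_le _)
    (by rw [hl]; exact mul_nonneg (by linarith) (Real.sqrt_nonneg _)) (by simp [e3])
    (fun z _ _ hk => ?_),
    by rw [hl]; exact mul_nonneg (by linarith) (Real.sqrt_nonneg _), by simp [e3]⟩
  set x := chart (LinearIsometryEquiv.refl ℝ E3) P (scl' θ n 0) z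
  rw [show ⟪e3, x⟫ + 0 = x 2 by simp [e3, EuclideanSpace.inner_single_left],
    show tilt n * lam * scl' θ n 0 = 3 * lam by
      have : tilt n ≠ 0 := by linarith
      simp [scl']; field_simp]
  exact hflat x hk

/-- coarse phase: flatness stays at the initial level -/
lemma Setting.phase_one (hst : StepProp C d τ ν0) (hsd : SubProp C ν0) (hd : 0 ≤ d)
    (hθd : 6 * C * (1000000 * θ ^ 2 + d ^ (1/8 : ℝ)) ≤ θ)
    (hflat : ∀ x ∈ kbox lam, |v x - x 2| ≤ 3 * lam) :
    ∀ j < nsc n, Reach C θ ν lam ε n P v j (tilt n) (tilt n / 2) := by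
  obtain ⟨h1, -, -, -, -, hgrow⟩ := tilt_facts S.budget.n_large
  have hn : (2000:ℝ) ≤ n := by exact_mod_cast S.budget.n_large
  have hsq := Real.sqrt_nonneg (tilt n)
  have half : ∀ j < nsc n, Reach C θ ν lam ε n P v j (tilt n) (tilt n) →
      Reach C θ ν lam ε n P v j (tilt n) (tilt n / 2) := fun j hj ⟨O, a, b, hc, hl, h2⟩ =>
    ⟨O, a, b, hc, S.drift hsd hj hc hl, h2⟩
  intro j
  induction j with
  | zero => exact fun hj => half 0 hj (S.start hflat)
  | succ j ih =>
    intro hj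
    have hj' : j < nsc n := Nat.lt_of_succ_lt hj
    have hb : tilt n / 2 + 140 * Real.sqrt (tilt n) ≤ tilt n := by nlinarith
    have hband : ∀ᶠ m in F,
        8 * (band lam (tilt n) 1 P (scl' θ n j) (moll m v) + 4 * tilt n / 1) ≤
          τ * (tilt n * Real.sqrt (tilt n)) := by
      filter_upwards [S.good] with m hm
      refine le_trans ?_ S.budget.small_H
      have h := (Finset.single_le_sum
        (f := fun i => band lam (tilt n) 1 P (scl' θ n i) (moll m v))
        (fun i _ => band_nonneg S.lam_pos.le _ _ _ _ _) (Finset.mem_range.2 hj')).trans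
        (hm.bands 1 (by simp))
      rw [mul_one] at h
      linarith
    obtain ⟨O, a, b, hc, hl, h2⟩ :=
      S.go_config hst hd hθd hj' h1 (by linarith) le_rfl le_rfl hb (ih hj') one_pos hband
    exact half (j + 1) hj ⟨O, a, b, hc, hl.trans (mul_le_mul_of_nonneg_right hb (Real.sqrt_nonneg _)),
      h2⟩

/-- the conclusion of the good-scale theorem at the point `P` -/
theorem Setting.conclude (hst : StepProp C d τ ν0) (hsd : SubProp C ν0) (hd : 0 ≤ d)
    (hθd : 6 * C * (1000000 * θ ^ 2 + d ^ (1/8 : ℝ)) ≤ θ)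
    (hθη : 3 * C * (1000000 * θ ^ 2 + d ^ (1/8 : ℝ)) ≤ η * θ)
    (hflat : ∀ x ∈ kbox lam, |v x - x 2| ≤ 3 * lam) (hn : n = 2 ^ m0) {j0 : ℕ} (hj0 : n ≤ j0)
    (hj0' : j0 < n + n ^ 13)
    (hwin : ∀ᶠ m in F, ∀ t ≤ 5 * m0, band lam (tilt n) ((n : ℝ) ^ 6) P (scl' θ n (j0 + t)) (moll m v)
      ≤ 6 * n / (n : ℝ) ^ 13 * (G * tilt n * (n : ℝ) ^ 6)) :
    ∃ (a : E3) (b ρ : ℝ), scl' θ n (nsc n) ≤ ρ ∧ 8 * ρ * (1 + 2 * vslope C n) ≤ 1 ∧
      |a 2 - 1| ≤ vslope C n * lam ∧ lat a ≤ vslope C n * Real.sqrt lam ∧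
      ∀ z ∈ ocyl a P ρ (R0 * Real.sqrt (lam / 32) * ρ),
        z ∈ kbox lam ∧ |v z - (⟪a, z⟫ + b)| ≤ η * lam * ρ := by
  have hb := S.budget
  obtain ⟨h1, -, -, -, -, hgrow⟩ := tilt_facts hb.n_large
  have hlam := S.lam_pos
  have hm0 : 5 * m0 + 1 ≤ 6 * n := by
    have h : m0 < 2 ^ m0 := Nat.lt_two_pow_self
    rw [← hn] at h; omega
  have hlt : ∀ t ≤ 5 * m0, j0 + t < nsc n := fun t ht => by unfold nsc; omega
  have hK : (0:ℝ) < (n:ℝ) ^ 6 := by
    have := hb.n_large
    have : (0:ℝ) < n := by exact_mod_cast (show 0 < n by omega)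
    positivity
  set hf : ℕ → ℝ := fun t => (2:ℝ) ^ (5 * m0 - t) with hhf
  have hf0 : hf 0 = tilt n := by
    simp only [hhf, Nat.sub_zero, tilt, hn]; push_cast; rw [← pow_mul, mul_comm]
  have hfle : ∀ t, hf t ≤ tilt n := fun t => by
    rw [← hf0]; exact pow_le_pow_right₀ (by norm_num) (by simp)
  have hf1 : ∀ t, 1 ≤ hf t := fun t => one_le_pow₀ (by norm_num)
  have hband : ∀ t ≤ 5 * m0, ∀ᶠ m in F,
      8 * (band lam (tilt n) ((n:ℝ) ^ 6) P (scl' θ n (j0 + t)) (moll m v) + 4 * hf t / (n:ℝ) ^ 6) ≤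
        τ * (hf t * Real.sqrt (hf t)) := by
    intro t ht
    filter_upwards [hwin] with m hm
    have h2 : 4 * hf t / (n:ℝ) ^ 6 ≤ 4 * tilt n / (n:ℝ) ^ 6 :=
      div_le_div_of_nonneg_right (mul_le_mul_of_nonneg_left (hfle t) (by norm_num)) hK.le
    have h3 : τ ≤ τ * (hf t * Real.sqrt (hf t)) :=
      le_mul_of_one_le_right S.τ_pos.le (by
        have := mul_le_mul (hf1 t) (Real.one_le_sqrt.2 (hf1 t)) zero_le_one (zero_le_one.trans (hf1 t))
        linarith)
    linarith [hm t ht, hb.window]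
  set β : ℕ → ℝ := fun t => tilt n / 2 + t * (140 * Real.sqrt (tilt n))
  have hβ : ∀ t ≤ 6 * n, β t ≤ tilt n := fun t ht => by
    have : (t:ℝ) ≤ 6 * n := by exact_mod_cast ht
    have := mul_le_mul_of_nonneg_right this (show 0 ≤ 140 * Real.sqrt (tilt n) by positivity)
    simp only [β]; linarith
  have two : ∀ t ≤ 5 * m0, Reach C θ ν lam ε n P v (j0 + t) (hf t) (β t) := by
    intro t
    induction t with
    | zero =>
      intro _
      simp only [hf0, β, Nat.cast_zero, zero_mul, add_zero]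
      exact S.phase_one hst hsd hd hθd hflat j0 (hlt 0 (Nat.zero_le _))
    | succ t ih =>
      intro ht
      have hhalf : hf (t + 1) = hf t / 2 := by
        simp only [hhf]
        rw [show 5 * m0 - t = (5 * m0 - (t + 1)) + 1 by omega, pow_succ]
        ring
      have hbb : β t + 140 * Real.sqrt (tilt n) = β (t + 1) := by simp only [β]; push_cast; ring
      rw [← hbb]
      exact S.go_config hst hd hθd (hlt t (by omega)) (hf1 _) hhalf.ge
        (by linarith [hhalf, hf1 t]) (hfle t) (hbb ▸ hβ (t + 1) (by omega)) (ih (by omega)) hK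
        (hband t (by omega))
  obtain ⟨O, a, b, hcfg, hla, ha2⟩ := two (5 * m0) le_rfl
  set j := j0 + 5 * m0
  have hfend : hf (5 * m0) = 1 := by simp [hhf]
  rw [hfend] at hcfg
  have hj : j < nsc n := hlt _ le_rfl
  have hla' : lat a ≤ tilt n * Real.sqrt lam :=
    hla.trans (mul_le_mul_of_nonneg_right (hβ _ (by omega)) (Real.sqrt_nonneg _))
  obtain ⟨a', b', hl', ha2', hres⟩ := S.go hst hd hj h1 hcfg hla' ha2 hK
    (by simpa [hfend] using hband (5 * m0) le_rfl)
  have hla'' : lat a' ≤ tilt n * Real.sqrt lam := by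
    have := mul_le_mul_of_nonneg_right (hβ (5 * m0 + 1) hm0) (Real.sqrt_nonneg lam)
    simp only [β] at this hla
    push_cast at this hla
    linarith
  have ha2'' : |a' 2 - 1| ≤ vslope C n * lam :=
    ha2'.trans (mul_le_mul_of_nonneg_right (S.slope_le (by omega)) hlam.le)
  have hρ := scl'_pos S.θ_pos hb.n_large (j + 1)
  have hvb : tilt n ≤ vslope C n := by
    have : (0:ℝ) ≤ 33 * C + 400 := by linarith [S.C_one]
    unfold vslope tilt
    exact le_add_of_nonneg_left (by positivity)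
  refine ⟨a', b', scl' θ n (j + 1), scl'_anti S.θ_pos S.theta_one hb.n_large (by omega), ?_, ha2'',
    hla''.trans (mul_le_mul_of_nonneg_right hvb (Real.sqrt_nonneg _)), fun z hz => ?_⟩
  · refine le_trans ?_ hb.height
    refine mul_le_mul_of_nonneg_right (mul_le_mul_of_nonneg_left ?_ (by norm_num)) (by linarith)
    calc scl' θ n (j + 1) ≤ 1 * θ ^ (j + 1) := by
          obtain ⟨-, h24, -⟩ := tilt_facts hb.n_large
          exact mul_le_mul_of_nonneg_right ((div_le_one (by linarith)).2 (by linarith))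
            (pow_nonneg S.θ_pos.le _)
      _ ≤ θ ^ n := by rw [one_mul]; exact pow_le_pow_of_le_one S.θ_pos.le S.theta_one (by omega)
  · have hν : ν ≤ 1/100 := S.ν_le.trans S.ν0_le
    obtain ⟨O1, hO1⟩ : ∃ O1 : E3 ≃ₗᵢ[ℝ] E3, O1 e3 = ‖a'‖⁻¹ • a' := by
      refine exists_isometry_e3 ?_
      have hne : ‖a'‖ ≠ 0 := by
        intro h0
        rw [norm_eq_zero] at h0
        subst h0
        have h4 : vslope C n * lam ≤ ν := by
          calc vslope C n * lam = Real.sqrt lam * vslope C n * Real.sqrt lam := by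
                rw [mul_comm (Real.sqrt lam) (vslope C n), mul_assoc, Real.mul_self_sqrt hlam.le]
            _ ≤ ν * 1 := mul_le_mul
                  ((mul_le_mul_of_nonneg_left (le_add_of_nonneg_left (sq_nonneg _))
                    (Real.sqrt_nonneg _)).trans S.sq_small) (Real.sqrt_le_one.2 S.top.le_one)
                  (Real.sqrt_nonneg _) ((lat_nonneg a).trans hcfg.adm.lata)
            _ = ν := mul_one ν
        simp at ha2''
        linarith
      rw [norm_smul, norm_inv, norm_norm, inv_mul_cancel₀ hne]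
    obtain ⟨hL, -⟩ := (S.adm hO1 hla'' ha2'').norm_bounds hν S.top.le_one
    set r := scl' θ n (j + 1)
    set w := chartInv O1 P r z with hw
    have hzw : chart O1 P r w = z := chart_chartInv hρ.ne' z
    have hzP : z - P = r • O1 w := by rw [← hzw, chart, add_sub_cancel_left]
    have hax : ⟪‖a'‖⁻¹ • a', r • O1 w⟫ = r * w 2 := by
      rw [← hO1, real_inner_smul_right, O1.inner_map_map]
      simp [e3, EuclideanSpace.inner_single_left]
    obtain ⟨hz1, hz2⟩ := hz
    rw [hzP, hax, abs_mul, abs_of_pos hρ] at hz1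
    rw [hzP, hax, ← hO1, ← map_smul, ← map_smul, ← map_sub, O1.norm_map, ← smul_smul, ← smul_sub,
      norm_smul, Real.norm_eq_abs, abs_of_pos hρ, norm_sub_axis, mul_comm _ r] at hz2
    have hw2 : |w 2| ≤ 1 := le_of_mul_le_mul_left (hz1.trans (le_of_eq (mul_one r).symm)) hρ
    have hwl : lat w ≤ 40 * Real.sqrt (1 * lam) := by
      refine (le_of_mul_le_mul_left hz2 hρ).trans ?_
      rw [one_mul, R0, show lam / 32 = lam * (1/32) by ring, Real.sqrt_mul hlam.le]
      have : Real.sqrt (1/32) ≤ 1/5 := by rw [Real.sqrt_le_left (by norm_num)]; norm_num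
      nlinarith [Real.sqrt_nonneg lam, mul_le_mul_of_nonneg_left this (Real.sqrt_nonneg lam)]
    have hkb : z ∈ kbox lam := hzw ▸ S.sbox_sub (j + 1)
      (S.maps hO1 (by linarith) hρ.le zero_le_one h1 hla'' hw2 hwl)
    refine ⟨hkb, ?_⟩
    have h := hres O1 hO1 w hw2 hwl
    rw [hzw] at h
    refine h.trans ?_
    have hρj := scl'_pos S.θ_pos hb.n_large j
    calc 3 * C * (1000000 * θ ^ 2 + d ^ (1/8:ℝ)) * (1 * lam * scl' θ n j)
        ≤ η * θ * (1 * lam * scl' θ n j) := mul_le_mul_of_nonneg_right hθη (by positivity)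
      _ = η * lam * r := by
          simp only [r, scl'_succ]; ring

end

end Vale.Agent.P080.C1.GoodScale
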