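import Vale.Agent.P080.C1.GoodScale.Drift

/-!
# Parameters and standing hypotheses of the good-scale iteration
-/

namespace Vale.Agent.P080.C1.GoodScale

open scoped ContDiff Topology RealInnerProductSpace Gradient NNReal
open Set Filter MeasureTheory Metric

/-- tilt budget (also the initial flatness) -/
def tilt (n : ℕ) : ℝ := (n : ℝ) ^ 5

/-- truncation level -/
noncomputable def lev (n : ℕ) : ℝ := (n : ℝ) ^ 10 / 256

/-- number of scales -/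
def nsc (n : ℕ) : ℕ := n + n ^ 13 + 6 * n

/-- bound for the vertical slope -/
def vslope (C : ℝ) (n : ℕ) : ℝ := ((nsc n : ℝ) + 1) * (33 * C + 400) * (n : ℝ) ^ 8 + (n : ℝ) ^ 5

/-- the scales -/
noncomputable def scl' (θ : ℝ) (n j : ℕ) : ℝ := 3 / tilt n * θ ^ j

/-- Inequalities satisfied by all large `n`. -/
structure Budget (A C G τ θ : ℝ) (n : ℕ) : Prop where
  n_large : 2000 ≤ n
  sqrtM : Real.sqrt (5 * A + 10 * lev n) ≤ tilt n / 2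
  AM : 5 * A ≤ lev n
  M_one : 1 ≤ lev n
  small_H : 8 * (G * tilt n + 4 * tilt n) ≤ τ * (tilt n * Real.sqrt (tilt n))
  chain : 1 + A / (288 * tilt n ^ 2 * (3 / tilt n) ^ 3) + (θ ^ 3)⁻¹ *
    ((G * tilt n * (n : ℝ) ^ 9 + (nsc n : ℝ) * (144 * tilt n ^ 2 / (n : ℝ) ^ 9 + 1)) / tilt n)
      ≤ lev n / 4
  mean : 144 * tilt n ^ 2 * ((G * tilt n * (n : ℝ) ^ 2 + 144 * tilt n ^ 2 / (n : ℝ) ^ 2 + 1) / tilt n)
    ≤ lev n * tilt n / 4
  tilt_half : 4/3 * (Real.sqrt (11 * lev n) + 5 * (1 + C) * Real.sqrt (tilt n)) ≤ tilt n / 2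
  window : 8 * (6 * n / (n : ℝ) ^ 13 * (G * tilt n * (n : ℝ) ^ 6) + 4 * tilt n / (n : ℝ) ^ 6) ≤ τ
  height : 8 * θ ^ n * (1 + 2 * vslope C n) ≤ 1

lemma tilt_facts {n : ℕ} (hn : 2000 ≤ n) :
    1 ≤ tilt n ∧ 24 ≤ tilt n ∧ 1600 ≤ tilt n ∧ Real.sqrt (tilt n) ≤ (n : ℝ) ^ 3 ∧
      40 * Real.sqrt (tilt n) ≤ tilt n ∧
      6 * (n : ℝ) * (140 * Real.sqrt (tilt n)) ≤ tilt n / 2 := by
  have hn' : (2000:ℝ) ≤ n := by exact_mod_cast hn
  have h5 : (1600:ℝ) ≤ tilt n := by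
    refine le_trans (by linarith) (le_self_pow₀ (by linarith : (1:ℝ) ≤ n) (by norm_num : 5 ≠ 0))
  have hs : Real.sqrt (tilt n) ≤ (n : ℝ) ^ 3 := by
    rw [Real.sqrt_le_left (by positivity), tilt, ← pow_mul]
    exact pow_le_pow_right₀ (by linarith) (by norm_num)
  refine ⟨by linarith, by linarith, h5, hs, ?_, ?_⟩
  · have e : Real.sqrt (tilt n) * Real.sqrt (tilt n) = tilt n := Real.mul_self_sqrt (by linarith)
    have : 40 ≤ Real.sqrt (tilt n) := Real.le_sqrt_of_sq_le (by linarith)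
    nlinarith
  · calc 6 * (n : ℝ) * (140 * Real.sqrt (tilt n)) ≤ 6 * n * (140 * (n : ℝ) ^ 3) :=
          mul_le_mul_of_nonneg_left (by linarith) (by positivity)
      _ = 840 * (n : ℝ) ^ 4 := by ring
      _ ≤ (n : ℝ) / 2 * (n : ℝ) ^ 4 := mul_le_mul_of_nonneg_right (by linarith) (by positivity)
      _ = tilt n / 2 := by rw [tilt]; ring

lemma scl'_pos {θ : ℝ} (hθ : 0 < θ) {n : ℕ} (hn : 2000 ≤ n) (j : ℕ) : 0 < scl' θ n j := by
  have := (tilt_facts hn).1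
  unfold scl'; positivity

lemma scl'_succ (θ : ℝ) (n j : ℕ) : scl' θ n (j + 1) = θ * scl' θ n j := by
  unfold scl'; ring

lemma scl'_anti {θ : ℝ} (hθ : 0 < θ) (hθ1 : θ ≤ 1) {n : ℕ} (hn : 2000 ≤ n) {i j : ℕ} (hij : i ≤ j) :
    scl' θ n j ≤ scl' θ n i := by
  have := (tilt_facts hn).1
  exact mul_le_mul_of_nonneg_left (pow_le_pow_of_le_one hθ.le hθ1 hij) (by positivity)

/-- what is known for one good mollification -/
structure GoodAt (A G e lam ε θ : ℝ) (n : ℕ) (P : E3) (g : E3 → ℝ) : Prop where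
  smooth : ContDiff ℝ 2 g
  gb : ∀ x ∈ kbox lam, GradBd A lam (grad g x) ∧ |pd 2 g x - 1| ≤ 1/4
  res_small : ∫ x in kbox lam, |res ε g x| ≤ e * lam ^ 2
  tr_small : ε * ∫ x in kbox lam, |trH g x| ≤ e * lam ^ 2
  exc_small : ∫ x in kbox lam, exc lam g x ^ 2 ≤ A * lam / 4
  bands : ∀ K ∈ ({1, (n : ℝ) ^ 2, (n : ℝ) ^ 6, (n : ℝ) ^ 9} : Finset ℝ),
    ∑ j ∈ Finset.range (nsc n), band lam (tilt n) K P (scl' θ n j) g ≤ G * tilt n * K

/-- standing hypotheses -/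
structure Setting (A C G τ θ e ν ν0 lam ε : ℝ) (n : ℕ) (P : E3) (v : E3 → ℝ) (F : Filter ℝ) :
    Prop where
  budget : Budget A C G τ θ n
  θ_pos : 0 < θ
  θ_small : θ ≤ 1/4000
  C_one : 1 ≤ C
  A_nonneg : 0 ≤ A
  τ_pos : 0 < τ
  e_le : e ≤ scl' θ n (nsc n) ^ 2
  e_le' : e ≤ τ * scl' θ n (nsc n) ^ 2
  ν_le : ν ≤ ν0
  ν0_le : ν0 ≤ 1/100
  F_le : F ≤ 𝓝[>] 0
  F_ne : F.NeBot
  top : Top ν lam ε v
  point : gau lam P ≤ 1/4
  good : ∀ᶠ m in F, GoodAt A G e lam ε θ n P (moll m v)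
  sq_small : Real.sqrt lam * (tilt n ^ 2 + vslope C n) ≤ ν
  lam_small : 16 * tilt n * lam * C ^ 2 ≤ 1/1000000
  lam_small' : tilt n * lam ≤ ν0
  cross : ∀ᶠ m in 𝓝[>] (0 : ℝ), ∀ x ∈ mbox lam,
    lat (grad (moll m v) x) * tilt n ≤ ν

end Vale.Agent.P080.C1.GoodScale
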