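import Vale.Agent.P080.C1.GoodScale.Transform
import Vale.Agent.P080.C1.Approx.Main

/-!
# The weak exponential equation is invariant under similarities
-/

namespace Vale.Agent.P080.C1.GoodScale

open scoped ContDiff Topology RealInnerProductSpace Gradient NNReal
open Set Filter MeasureTheory Metric Vale.Agent.P080.C1.Approx

lemma lipschitz_chart (O : E3 ≃ₗᵢ[ℝ] E3) (P : E3) (ρ : ℝ) :
    ∃ K, LipschitzWith K (chart O P ρ) := by
  refine ⟨Real.toNNReal |ρ|, LipschitzWith.of_dist_le_mul fun x y => ?_⟩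
  rw [dist_eq_norm, dist_eq_norm, chart, chart, add_sub_add_left_eq_sub, ← smul_sub, ← map_sub,
    norm_smul, LinearIsometryEquiv.norm_map, Real.coe_toNNReal _ (abs_nonneg ρ), Real.norm_eq_abs]

lemma lipschitz_nrm (O : E3 ≃ₗᵢ[ℝ] E3) (P : E3) (ρ L c : ℝ) {v : E3 → ℝ} {K : ℝ≥0}
    (hv : LipschitzWith K v) : ∃ K', LipschitzWith K' (nrm O P ρ L c v) := by
  obtain ⟨K₁, h₁⟩ := lipschitz_chart O P ρ
  refine ⟨Real.toNNReal |L⁻¹| * (K * K₁), LipschitzWith.of_dist_le_mul fun x y => ?_⟩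
  have h := (hv.comp h₁).dist_le_mul x y
  simp only [Function.comp, Real.dist_eq] at h
  rw [Real.dist_eq, nrm, nrm, ← sub_div, sub_sub_sub_cancel_right, div_eq_mul_inv, abs_mul,
    mul_comm]
  push_cast
  rw [Real.coe_toNNReal _ (abs_nonneg _), mul_assoc]
  exact mul_le_mul_of_nonneg_left h (abs_nonneg _)

lemma grad_chartInv {O : E3 ≃ₗᵢ[ℝ] E3} {P : E3} {ρ : ℝ} (hρ : ρ ≠ 0) (φ : E3 → ℝ) (z : E3) :
    ∇ (fun z => φ (chart O P ρ z)) z = ρ • O.symm (∇ φ (chart O P ρ z)) := by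
  have e : (fun z => φ (chart O P ρ z)) = nrm O P ρ 1 0 φ := by funext z; simp [nrm]
  rw [e, gradient_eq_grad, gradient_eq_grad, grad_nrm hρ, div_one]

theorem weak_similar {ε : ℝ} {U : Set E3} {v : E3 → ℝ} (h : Weak ε U v)
    (O : E3 ≃ₗᵢ[ℝ] E3) (P : E3) {ρ L : ℝ} (hρ : 0 < ρ) (hL : 0 < L) (c : ℝ) {V : Set E3}
    (hV : MapsTo (chart O P ρ) V U) :
    Weak (ε * ρ ^ 2 / L ^ 2) V (nrm O P ρ L c v) := by
  intro ψ Lψ hψ hψc hψV
  set φ : E3 → ℝ := fun x => ψ (chartInv O P ρ x) with hφ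
  have hinv : ∀ x, chartInv O P ρ x = chart O.symm (-(ρ⁻¹ • O.symm P)) ρ⁻¹ x := fun x => by
    simp [chart, chartInv, map_sub, smul_sub]; abel
  obtain ⟨K₁, h₁⟩ := lipschitz_chart O.symm (-(ρ⁻¹ • O.symm P)) ρ⁻¹
  have hφL : LipschitzWith (Lψ * K₁) φ := by
    rw [hφ]; simp only [hinv]; exact hψ.comp h₁
  have hsub : Function.support φ ⊆ chart O P ρ '' tsupport ψ := fun x hx =>
    ⟨_, subset_tsupport ψ hx, chart_chartInv hρ.ne' x⟩
  have hK : IsCompact (chart O P ρ '' tsupport ψ) :=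
    hψc.isCompact.image (continuous_chart O P ρ)
  have hts : tsupport φ ⊆ chart O P ρ '' tsupport ψ := closure_minimal hsub hK.isClosed
  have h0 := h φ _ hφL (HasCompactSupport.of_support_subset_isCompact hK hsub)
    (hts.trans ((image_mono hψV).trans hV.image_subset))
  have hψφ : ψ = fun z => φ (chart O P ρ z) := by
    funext z; simp [hφ, chartInv_chart hρ.ne']
  set ε' := ε * ρ ^ 2 / L ^ 2
  by_cases hε : ε = 0
  · simp [ε', hε, dPhi]
  have hpt : ∀ z, ⟪dPhi ε' (∇ (nrm O P ρ L c v) z), ∇ ψ z⟫ =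
      L * ⟪dPhi ε (∇ v (chart O P ρ z)), ∇ φ (chart O P ρ z)⟫ := fun z => by
    rw [gradient_eq_grad (nrm O P ρ L c v), grad_nrm hρ.ne', hψφ, grad_chartInv hρ.ne', dPhi,
      gradient_eq_grad v, dPhi]
    simp only [norm_smul, LinearIsometryEquiv.norm_map, real_inner_smul_left, real_inner_smul_right,
      LinearIsometryEquiv.inner_map_map, mul_pow, Real.norm_eq_abs, sq_abs, ε']
    have e : (ρ / L) ^ 2 * ‖grad v (chart O P ρ z)‖ ^ 2 / (2 * (ε * ρ ^ 2 / L ^ 2)) =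
        ‖grad v (chart O P ρ z)‖ ^ 2 / (2 * ε) := by field_simp
    rw [e]
    field_simp
  simp only [hpt, integral_const_mul]
  rw [integral_chart O P hρ (fun x => ⟪dPhi ε (∇ v x), ∇ φ x⟫), h0]
  simp

/-- strong solutions are invariant under similarities -/
theorem sol0_similar {ε : ℝ} {U : Set E3} {v : E3 → ℝ} (h : Sol0 ε U v)
    (O : E3 ≃ₗᵢ[ℝ] E3) (P : E3) {ρ L : ℝ} (hρ : 0 < ρ) (hL : 0 < L) (c : ℝ) {V : Set E3}
    (hVo : IsOpen V) (hV : MapsTo (chart O P ρ) V U) :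
    Sol0 (ε * ρ ^ 2 / L ^ 2) V (nrm O P ρ L c v) := by
  obtain ⟨K, hK⟩ := h.lip
  obtain ⟨K', hK'⟩ := lipschitz_nrm O P ρ L c hK
  exact sol0_of_weak (by have := h.pos; positivity) hVo hK'
    (weak_similar (weak_of_sol0 h) O P hρ hL c hV)

end Vale.Agent.P080.C1.GoodScale
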