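import Vale.Agent.P080.C1.GoodScale.Mean

/-!
# One improvement step at a scale with small oscillation
-/

namespace Vale.Agent.P080.C1.GoodScale

open scoped ContDiff Topology RealInnerProductSpace Gradient NNReal
open Set Filter MeasureTheory Metric Vale.Agent.P080.C1.Approx

variable {O : E3 ≃ₗᵢ[ℝ] E3} {a P : E3} {b ρ : ℝ}

lemma isCompact_qbox (lam : ℝ) : IsCompact (qbox lam) := by
  rw [qbox_eq]; exact isCompact_rbox _ _ _

lemma volume_qbox {lam : ℝ} (hlam : 0 ≤ lam) : volume.real (qbox lam) = 128 * lam := by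
  rw [qbox_eq, volume_rbox (by positivity) zero_le_one, mul_pow, Real.sq_sqrt hlam]; ring

lemma integral_abs_le_of_sq {f : E3 → ℝ} (hf : Continuous f) {S : Set E3} (hS : IsCompact S)
    {κ : ℝ} (hκ : 0 < κ) :
    ∫ x in S, |f x| ≤ volume.real S * κ + (∫ x in S, f x ^ 2) / κ := by
  have hi : ∀ {g : E3 → ℝ}, Continuous g → IntegrableOn g S := fun hg =>
    hg.continuousOn.integrableOn_compact hS
  rw [← integral_div, ← smul_eq_mul, ← setIntegral_const,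
    ← integral_add (hi continuous_const) (hi (by fun_prop))]
  refine setIntegral_mono_on (hi (by fun_prop)) (hi (by fun_prop)) hS.measurableSet fun x _ => ?_
  rw [← sub_nonneg, show κ + f x ^ 2 / κ - |f x| = (κ ^ 2 + f x ^ 2 - κ * |f x|) / κ by field_simp]
  have := sq_abs (f x)
  exact div_nonneg (by nlinarith [sq_nonneg (κ - |f x|), abs_nonneg (f x)]) hκ.le

/-- the residual of a sub-configuration vanishes in `L¹` -/
lemma tendsto_res_sub {ν lam ε h : ℝ} {v : E3 → ℝ} (htop : Top ν lam ε v)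
    (hcfg : Config ν lam ε h ρ O a P b v) (hν : ν ≤ 1/100) :
    Tendsto (fun m => ∫ z in qbox (16 * h * lam),
      |res (ε / ‖a‖ ^ 2) (cu O a P b (ρ / 8) (moll m v)) z|) (𝓝[>] 0) (𝓝 0) := by
  obtain ⟨K, hK⟩ := htop.sol.lip
  have hρ : 0 < ρ / 8 := by linarith [hcfg.scale]
  obtain ⟨hL, _⟩ := hcfg.adm.norm_bounds hν htop.le_one
  have hh : 0 < h * lam := mul_pos (by linarith [hcfg.one_le]) htop.pos
  obtain ⟨-, hq3, -⟩ := box_geometry hh
  have hmaps : MapsTo (chart O P (ρ / 8)) (qbox (16 * h * lam)) (kbox lam) := fun z hz => by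
    rw [show ρ / 8 = ρ * (1/8) by ring, chart_mul]
    exact hcfg.maps ⟨(hq3 z hz).1.trans_lt (by norm_num),
      (hq3 z hz).2.trans_lt (mul_lt_mul_of_pos_right (by norm_num) (Real.sqrt_pos.2 hh))⟩
  have hkc : IsCompact (kbox lam) := isCompact_latbox _ _
  have hlim := htop.sol.res_tendsto _ hkc (kbox_subset_wbox htop.pos)
  set c := ((ρ / 8) ^ 4 / (‖a‖ * (ρ / 8)) ^ 3) ^ 2 * ((ρ / 8) ^ 3)⁻¹
  set V := volume.real (qbox (16 * h * lam))
  rw [Metric.tendsto_nhds]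
  intro e he
  have hV : 0 ≤ V := measureReal_nonneg
  set κ := e / (2 * (V + 1)) with hκdef
  have hκ : 0 < κ := by positivity
  have hev := (hlim.const_mul (c / κ)).eventually
    (show Iio (e / 2) ∈ 𝓝 (c / κ * 0) by rw [mul_zero]; exact Iio_mem_nhds (by positivity))
  filter_upwards [hev, self_mem_nhdsWithin] with m hm hm0
  have hg : ContDiff ℝ 2 (moll m v) :=
    (contDiff_moll hm0 hK).of_le (by exact WithTop.coe_le_coe.2 le_top)
  rw [dist_zero_right, Real.norm_eq_abs, abs_of_nonneg (setIntegral_nonneg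
    (isCompact_qbox _).measurableSet fun z _ => abs_nonneg _)]
  refine (integral_abs_le_of_sq (continuous_res (contDiff_nrm hg) _) (isCompact_qbox _) hκ).trans_lt ?_
  have ht := (transfer_integrals (c := ⟪a, P⟫ + b) hρ (mul_ne_zero (show ‖a‖ ≠ 0 by linarith) hρ.ne') hg ε
    (isCompact_qbox (16 * h * lam)) hkc hmaps).1
  rw [eps_scale ε _ hρ.ne'] at ht
  have h1 : V * κ < e / 2 + 0 := by
    rw [add_zero, hκdef, ← mul_div_assoc, div_lt_iff₀ (by positivity)]; nlinarith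
  calc V * κ + (∫ z in qbox (16 * h * lam),
        res (ε / ‖a‖ ^ 2) (cu O a P b (ρ / 8) (moll m v)) z ^ 2) / κ
      ≤ V * κ + c * (∫ x in kbox lam, res ε (moll m v) x ^ 2) / κ :=
        add_le_add le_rfl (div_le_div_of_nonneg_right ht hκ.le)
    _ < e / 2 + e / 2 := add_lt_add (by linarith) (by rw [mul_div_right_comm]; exact hm)
    _ = e := by ring

/-- smallness of the oscillation at a scale -/
def Small (τ Λ ε : ℝ) (u : E3 → ℝ) : Prop :=
  (∫ z in qbox Λ, ‖qvec u z‖) ≤ τ * (Λ * Real.sqrt Λ) ∧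
    ε * (∫ z in qbox Λ, |trH u z|) ≤ τ * Λ ^ 2

/-- the excess is nearly constant -/
lemma exc_near_const {C ν lam Λ M τ ε : ℝ} {u : E3 → ℝ} (hu : ContDiff ℝ 2 u) (hC : 0 ≤ C)
    (hΛ : 0 < Λ) (hM : 1 ≤ M) (hτ : 0 ≤ τ) (hε : 0 ≤ ε) (hsub : SubBd C ν lam Λ u)
    (hν : 6 * ν * Real.sqrt lam ≤ 1/4) (hsmall : Small τ Λ ε u)
    (hres : ∫ z in qbox Λ, |res ε u z| ≤ τ * Λ ^ 2) :
    ∃ f, |f| ≤ 1 + C ∧ ∫ z in qbox Λ, |gsq u z - 1 - 2 * Λ * f| ≤
      2 * Λ ^ 2 * (32 * (6 + Real.sqrt (5 * C + 10 * M)) * τ + C / (4 * M)) := by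
  have hM0 : 0 < M := by linarith
  set f := avg (qbox Λ) (psi M Λ u)
  have hQ := isCompact_qbox Λ
  have he : Continuous (exc Λ u) := by
    have := continuous_gsq (hu.of_le (by norm_num : (1 : WithTop ℕ∞) ≤ 2))
    unfold exc; fun_prop
  have hi : ∀ {g : E3 → ℝ}, Continuous g → IntegrableOn g (qbox Λ) := fun hg =>
    hg.continuousOn.integrableOn_compact hQ
  have h2 : ∫ z in qbox Λ, exc Λ u z ^ 2 ≤ C * Λ / 4 := by
    have hu1 : ContDiff ℝ 1 u := hu.of_le (by norm_num)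
    have hpl : Continuous (pLatSq u) := by
      rw [funext (pLatSq_eq u)]
      exact (by unfold latSq; fun_prop : Continuous latSq).comp (continuous_grad hu1)
    have hmono : ∫ z in qbox Λ, exc Λ u z ^ 2 ≤
        ∫ z in qbox Λ, ((gsq u z - 1) ^ 2 + pLatSq u z ^ 2) / (4 * Λ ^ 2) :=
      setIntegral_mono_on (hi (by fun_prop)) (hi (by have := continuous_gsq hu1; fun_prop))
        hQ.measurableSet fun z _ => by
          rw [exc, div_pow, mul_pow, show (2:ℝ) ^ 2 = 4 by norm_num]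
          exact div_le_div_of_nonneg_right (le_add_of_nonneg_right (sq_nonneg _)) (by positivity)
    rw [integral_div] at hmono
    refine hmono.trans ((div_le_div_of_nonneg_right hsub.energy_le (by positivity)).trans
      (le_of_eq ?_))
    field_simp
  have hosc := psi_oscillation (M := M) (lam := Λ) (P := 0) (w := 4 * Real.sqrt Λ) (h := 1) hu hM0
    hΛ hC hε (by positivity) one_pos fun z hz => by
      rw [← qbox_eq] at hz; exact ⟨hsub.grad_le z hz, (hsub.slope3 z hz).trans hν⟩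
  rw [← qbox_eq, one_mul, one_mul] at hosc
  have hosc' : ∫ z in qbox Λ, |psi M Λ u z - f| ≤
      32 * (6 + Real.sqrt (5 * C + 10 * M)) * τ * Λ := by
    refine hosc.trans ?_
    have hMb : 0 ≤ Real.sqrt (5 * C + 10 * M) := Real.sqrt_nonneg _
    rw [div_le_iff₀ hΛ]
    have k1 := mul_le_mul_of_nonneg_left hsmall.1
      (show 0 ≤ 4 * Real.sqrt Λ + Real.sqrt (5 * C + 10 * M) * Real.sqrt Λ by positivity)
    have k2 : Real.sqrt Λ * (τ * (Λ * Real.sqrt Λ)) = τ * Λ ^ 2 := by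
      rw [show Real.sqrt Λ * (τ * (Λ * Real.sqrt Λ)) = τ * Λ * (Real.sqrt Λ * Real.sqrt Λ) by ring,
        Real.mul_self_sqrt hΛ.le]; ring
    nlinarith [hsmall.2]
  refine ⟨f, ?_, ?_⟩
  · have hp : ∫ z in qbox Λ, |psi M Λ u z| ≤ volume.real (qbox Λ) + 2 * (C * Λ / 4) := by
      calc ∫ z in qbox Λ, |psi M Λ u z| ≤ ∫ z in qbox Λ, (1 + 2 * exc Λ u z ^ 2) := by
            refine setIntegral_mono_on (hi (contDiff_psi hu).continuous.abs) (hi (by fun_prop))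
              hQ.measurableSet fun z _ => (abs_psi_le hM0 z).trans ?_
            have h3 : exc Λ u z ^ 2 / M ≤ exc Λ u z ^ 2 := div_le_self (sq_nonneg _) hM
            nlinarith [sq_nonneg (|exc Λ u z| - 1), sq_abs (exc Λ u z), abs_nonneg (exc Λ u z)]
        _ ≤ _ := by
            rw [integral_add (hi continuous_const) (hi (by fun_prop)), setIntegral_const, smul_eq_mul,
              mul_one, integral_const_mul]
            linarith
    rw [show f = (volume.real (qbox Λ))⁻¹ * ∫ z in qbox Λ, psi M Λ u z from rfl, abs_mul,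
      abs_of_nonneg (by positivity), volume_qbox hΛ.le, inv_mul_le_iff₀ (by positivity)]
    rw [volume_qbox hΛ.le] at hp
    exact abs_integral_le_integral_abs.trans (hp.trans (by nlinarith))
  · have h := (integral_exc_sub_le (lam := Λ) hu hM0 hQ f).trans
      (add_le_add hosc' (div_le_div_of_nonneg_right h2 hM0.le))
    have e : ∀ z, |gsq u z - 1 - 2 * Λ * f| = 2 * Λ * |exc Λ u z - f| := fun z => by
      rw [show gsq u z - 1 - 2 * Λ * f = 2 * Λ * (exc Λ u z - f) by rw [exc]; field_simp, abs_mul,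
        abs_of_pos (show 0 < 2 * Λ by positivity)]
    simp only [e, integral_const_mul]
    refine (mul_le_mul_of_nonneg_left h (by positivity)).trans (le_of_eq ?_)
    field_simp

/-- improved affine approximation of `v` in the frame of a sub-configuration -/
def Improved (C Λ d : ℝ) (u : E3 → ℝ) : Prop :=
  ∃ c0 c1 s : ℝ, |c0| ≤ 16 ∧ |c1| ≤ 16 ∧ |s| ≤ C ∧ ∀ x : E3, |x 2| ≤ 1 / 8 →
    |x 0| ≤ Real.sqrt Λ / 8 → |x 1| ≤ Real.sqrt Λ / 8 →
    |u x - (u 0 + Real.sqrt Λ * c0 * x 0 + Real.sqrt Λ * c1 * x 1 + (1 + Λ * s) * x 2)| ≤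
      Λ * C * (((|x 0| + |x 1|) / Real.sqrt Λ + |x 2|) ^ 2 + d ^ (1 / 8 : ℝ))

lemma budget {C d : ℝ} (hC : 0 < C) (hd : 0 < d) :
    32 * (6 + Real.sqrt (5 * C + 10 * max 1 (C / d))) *
        (d / (2 * (32 * (6 + Real.sqrt (5 * C + 10 * max 1 (C / d)))))) +
      C / (4 * max 1 (C / d)) ≤ d := by
  set R := 32 * (6 + Real.sqrt (5 * C + 10 * max 1 (C / d))) with hR
  have hR0 : 0 < R := by positivity
  have hM : 0 < max 1 (C / d) := lt_max_of_lt_left one_pos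
  have h1 : R * (d / (2 * R)) = d / 2 := by field_simp
  have h2 : C / (4 * max 1 (C / d)) ≤ d / 4 := by
    rw [div_le_iff₀ (mul_pos four_pos hM)]
    have h := mul_le_mul_of_nonneg_left (le_max_right 1 (C / d)) hd.le
    rw [mul_div_cancel₀ _ hd.ne'] at h
    linarith
  rw [h1]; linarith

lemma improve_input {C ν lam Λ d : ℝ} {u : E3 → ℝ} (hsub : SubBd C ν lam Λ u) (hlam : 0 < lam)
    (hlam1 : lam ≤ 1) (hν0 : 0 ≤ ν) (hν : ν ≤ 1/100) (hνd : ν ≤ d / 100) (hΛ : 16 * lam ≤ Λ) :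
    6 * ν * Real.sqrt lam ≤ 1/4 ∧ ∀ x ∈ qbox Λ, |u x - x 2| ≤ Λ ∧ gsq u x - 1 ≤ 2 * (C / 2) * Λ ∧
      |pd 2 u x - 1| ≤ 1 / 4 ∧ (pd 2 u x - 1) ^ 2 * (1 + pLatSq u x) ≤ d * Λ := by
  have hs1 : Real.sqrt lam ≤ 1 := Real.sqrt_le_one.2 hlam1
  have hq : 6 * ν * Real.sqrt lam ≤ 1/4 :=
    (mul_le_of_le_one_right (by linarith) hs1).trans (by linarith)
  refine ⟨hq, fun x hx => ⟨hsub.flat x hx, ?_, (hsub.slope3 x hx).trans hq, ?_⟩⟩
  · have h := (hsub.grad_le x hx).1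
    rw [gsq_eq_norm]; linarith
  · have h1 := hsub.slope3 x hx
    have h2 := hsub.slopeLat x hx
    have h3 : (pd 2 u x - 1) ^ 2 ≤ (6 * ν * Real.sqrt lam) ^ 2 :=
      sq_le_sq' (abs_le.1 h1).1 (abs_le.1 h1).2
    rw [mul_pow, Real.sq_sqrt hlam.le] at h3
    have h4 : 0 ≤ pLatSq u x := latSq_nonneg (grad u x)
    have h5 : pLatSq u x ≤ 1 := h2.trans (by nlinarith)
    calc _ ≤ (6 * ν) ^ 2 * lam * 2 := mul_le_mul h3 (by linarith) (by linarith) (by positivity)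
      _ = 72 * ν * ν * lam := by ring
      _ ≤ 72 * 1 * (d / 100) * lam := by
          refine mul_le_mul_of_nonneg_right (mul_le_mul ?_ hνd hν0 (by norm_num)) hlam.le
          linarith
      _ ≤ d * Λ := by nlinarith [mul_nonneg (show 0 ≤ d by linarith) hlam.le]

/-- passing the improvement from a mollification to the function itself -/
lemma improved_transfer {C CI Λ d s c0 c1 : ℝ} {u w : E3 → ℝ} (hC : CI + 1 ≤ C) (hΛ : 0 < Λ)
    (hc0 : |c0| ≤ 16) (hc1 : |c1| ≤ 16) (hs : |s| ≤ C) (hd : 0 ≤ d)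
    (hdiff : ∀ y, |w y - u y| ≤ Λ * d ^ (1/8:ℝ) / 2)
    (hz : ∀ x : E3, |x 2| ≤ 1 / 8 → |x 0| ≤ Real.sqrt Λ / 8 → |x 1| ≤ Real.sqrt Λ / 8 →
      |u x - (u 0 + Real.sqrt Λ * c0 * x 0 + Real.sqrt Λ * c1 * x 1 + (1 + Λ * s) * x 2)| ≤
        Λ * CI * (((|x 0| + |x 1|) / Real.sqrt Λ + |x 2|) ^ 2 + d ^ (1 / 8 : ℝ))) :
    Improved C Λ d w := by
  refine ⟨c0, c1, s, hc0, hc1, hs, fun x hx2 hx0 hx1 => ?_⟩
  have h1 := abs_le.1 (hdiff x)
  have h2 := abs_le.1 (hdiff 0)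
  have h3 := abs_le.1 (hz x hx2 hx0 hx1)
  set E1 := ((|x 0| + |x 1|) / Real.sqrt Λ + |x 2|) ^ 2
  have hE : 0 ≤ E1 := sq_nonneg _
  have hd8 : 0 ≤ d ^ (1/8:ℝ) := Real.rpow_nonneg hd _
  have h4 : Λ * (CI + 1) * (E1 + d ^ (1/8:ℝ)) ≤ Λ * C * (E1 + d ^ (1/8:ℝ)) :=
    mul_le_mul_of_nonneg_right (mul_le_mul_of_nonneg_left hC hΛ.le) (add_nonneg hE hd8)
  have h5 : 0 ≤ Λ * E1 := mul_nonneg hΛ.le hE
  rw [abs_le]; constructor <;> linarith

theorem step (hB : BernsteinOut) (hE : EnergyOut) :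
    ∃ C d0 : ℝ, 0 < C ∧ 0 < d0 ∧ ∀ d : ℝ, 0 < d → d ≤ d0 → ∃ τ ν0 : ℝ, 0 < τ ∧ 0 < ν0 ∧
      ∀ (ν lam ε h ρ : ℝ) (O : E3 ≃ₗᵢ[ℝ] E3) (a P : E3) (b : ℝ) (v : E3 → ℝ) (F : Filter ℝ),
        F ≤ 𝓝[>] 0 → F.NeBot → ν ≤ ν0 → h * lam ≤ ν0 → Top ν lam ε v →
        Config ν lam ε h ρ O a P b v →
        (∀ᶠ m in 𝓝[>] (0 : ℝ), ∀ x ∈ mbox lam,
          lat (grad (moll m v) x) * lat a ≤ ν * Real.sqrt lam) →
        (∀ᶠ m in F, Small τ (16 * h * lam) (ε / ‖a‖ ^ 2) (cu O a P b (ρ / 8) (moll m v))) →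
        Improved C (16 * h * lam) d (cu O a P b (ρ / 8) v) := by
  obtain ⟨C, ν1, hC, hν1, hsd⟩ := sub_data hB hE
  obtain ⟨CI, dI, hCI, hdI, himp⟩ := improve3 (C / 2)
  refine ⟨max (CI + 1) (1 + C + 256), min dI 1, lt_max_of_lt_left (by positivity),
    lt_min hdI one_pos, fun d hd hd0 => ?_⟩
  obtain ⟨hdI', hd1⟩ := le_min_iff.1 hd0
  set M := max 1 (C / d) with hMdef
  set R := 32 * (6 + Real.sqrt (5 * C + 10 * M)) with hR
  refine ⟨d / (2 * R), min (min ν1 (1/100)) (d / 100), by positivity, by positivity,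
    fun ν lam ε h ρ O a P b v F hF hne hν hhlam htop hcfg hcross hsmall => ?_⟩
  obtain ⟨hν1', hν2, hν3⟩ : ν ≤ ν1 ∧ ν ≤ 1/100 ∧ ν ≤ d / 100 :=
    ⟨hν.trans ((min_le_left _ _).trans (min_le_left _ _)),
      hν.trans ((min_le_left _ _).trans (min_le_right _ _)), hν.trans (min_le_right _ _)⟩
  obtain ⟨hlam, hlam1, hεp, hεν⟩ := htop.pos, htop.le_one, htop.eps_pos, htop.eps_le
  obtain ⟨hL, _⟩ := hcfg.adm.norm_bounds hν2 hlam1
  set Λ := 16 * h * lam with hΛdef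
  have hh := hcfg.one_le
  have hΛl : 16 * lam ≤ Λ := by rw [hΛdef]; nlinarith
  have hΛ : 0 < Λ := by linarith
  set ε3 := ε / ‖a‖ ^ 2
  set ρ3 := ρ / 8
  have hρ3 : 0 < ρ3 := by have := hcfg.scale; positivity
  have hε3 : 0 < ε3 := by positivity
  have hε3d : ε3 ≤ d * Λ := by
    rw [div_le_iff₀ (by positivity)]
    have h1 : (1/2:ℝ) ≤ ‖a‖ ^ 2 := by nlinarith
    calc ε ≤ ν * lam := hεν
      _ ≤ d * Λ * (1/2) := by nlinarith
      _ ≤ d * Λ * ‖a‖ ^ 2 := mul_le_mul_of_nonneg_left h1 (by positivity)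
  obtain ⟨K, hK⟩ := htop.sol.lip
  have hres := tendsto_res_sub htop hcfg hν2
  have hmv : ∀ᶠ m in 𝓝[>] (0:ℝ), (K : ℝ) * m ≤ ‖a‖ * ρ3 * (Λ * d ^ (1/8:ℝ)) / 2 := by
    have ht : Tendsto (fun m : ℝ => (K : ℝ) * m) (𝓝[>] (0:ℝ)) (𝓝 0) :=
      ((continuous_const.mul continuous_id).tendsto' (0:ℝ) 0 (by simp)).mono_left nhdsWithin_le_nhds
    exact ht.eventually (Iic_mem_nhds (by positivity))
  have hall := ((hsd ν lam ε h ρ O a P b v hν1' (hhlam.trans
    ((min_le_left _ _).trans (min_le_left _ _))) htop hcfg hcross).and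
    ((hres.eventually (Iic_mem_nhds (show (0:ℝ) < d / (2 * R) * Λ ^ 2 by positivity))).and
      ((hres.eventually (Iic_mem_nhds (show (0:ℝ) <
        d * Λ ^ 2 / Real.exp ((C / 2 + 8) / (ε3 / Λ)) by positivity))).and
        (hmv.and self_mem_nhdsWithin)))).filter_mono hF
  obtain ⟨m, ⟨hsub, hr1, hr2, hKm, hm0⟩, hsm⟩ := (hall.and hsmall).exists
  replace hm0 : 0 < m := hm0
  set u := cu O a P b ρ3 (moll m v) with hu
  have huinf : ContDiff ℝ ∞ u := contDiff_nrm (contDiff_moll hm0 hK)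
  obtain ⟨hq, hin⟩ := improve_input hsub hlam hlam1 ((lat_nonneg a).trans hcfg.adm.lata) hν2 hν3 hΛl
  obtain ⟨f, hf, hL1⟩ := exc_near_const (huinf.of_le (by exact WithTop.coe_le_coe.2 le_top)) hC.le hΛ
    (le_max_left _ _) (show 0 ≤ d / (2 * R) by positivity) hε3.le hsub hq hsm hr1
  obtain ⟨hf8, c0, c1, hc0, hc1, hz⟩ := himp Λ ε3 f d u hΛ hε3 hε3d hdI' huinf hin
    (hL1.trans (mul_le_mul_of_nonneg_left (budget hC hd) (by positivity)))
    (by rw [le_div_iff₀ (Real.exp_pos _), mul_comm] at hr2; exact hr2)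
  have hs : |f - (c0 ^ 2 + c1 ^ 2) / 2| ≤ 1 + C + 256 := by
    have e0 := sq_le_sq' (abs_le.1 hc0).1 (abs_le.1 hc0).2
    have e1 := sq_le_sq' (abs_le.1 hc1).1 (abs_le.1 hc1).2
    have := abs_le.1 hf
    rw [abs_le]; constructor <;> nlinarith [sq_nonneg c0, sq_nonneg c1]
  refine improved_transfer (le_max_left _ _) hΛ hc0 hc1 (hs.trans (le_max_right _ _)) hd.le
    (fun y => ?_) hz
  simp only [u, cu, nrm]
  rw [← sub_div, sub_sub_sub_cancel_right, abs_div,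
    abs_of_pos (show 0 < ‖a‖ * ρ3 by positivity), div_le_iff₀ (by positivity), abs_sub_comm]
  exact ((abs_moll_sub_le hm0 hK _).trans hKm).trans (le_of_eq (by ring))

end Vale.Agent.P080.C1.GoodScale
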