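import Vale.Agent.P080.C1.GoodScale.Average
import Vale.Agent.P080.C1.GoodScale.Similar
import Vale.Agent.P080.C1.Iface

/-!
# Sub-configurations: frame algebra and pointwise Bernstein bounds
-/

namespace Vale.Agent.P080.C1.GoodScale

open scoped ContDiff Topology RealInnerProductSpace Gradient NNReal
open Set Filter MeasureTheory Metric Vale.Agent.P080.C1.Approx

/-- `g` in the chart of the affine function `⟪a,·⟫+b` at `P`, renormalised to slope `e3` -/
noncomputable def cu (O : E3 ≃ₗᵢ[ℝ] E3) (a P : E3) (b ρ : ℝ) (g : E3 → ℝ) : E3 → ℝ :=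
  nrm O P ρ (‖a‖ * ρ) (⟪a, P⟫ + b) g

/-- gradient in the rotated normalised frame -/
noncomputable def fgrad (O : E3 ≃ₗᵢ[ℝ] E3) (a p : E3) : E3 := ‖a‖⁻¹ • O.symm p

variable {O : E3 ≃ₗᵢ[ℝ] E3} {a P : E3} {b ρ : ℝ}

lemma grad_cu (hρ : ρ ≠ 0) (g : E3 → ℝ) (z : E3) :
    grad (cu O a P b ρ g) z = fgrad O a (grad g (chart O P ρ z)) := by
  rw [cu, grad_nrm hρ, fgrad]
  congr 1
  rw [mul_comm, div_mul_eq_div_div, div_self hρ, one_div]

lemma chart_mul (O : E3 ≃ₗᵢ[ℝ] E3) (P : E3) (ρ s : ℝ) (z : E3) :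
    chart O P (ρ * s) z = chart O P ρ (s • z) := by
  simp [chart, map_smul, smul_smul]

lemma apply_e3 (O : E3 ≃ₗᵢ[ℝ] E3) (p : E3) : O.symm p 2 = ⟪O e3, p⟫ := by
  conv_rhs => rw [← O.apply_symm_apply p, O.inner_map_map]
  simp [e3, EuclideanSpace.inner_single_left]

lemma inner_chart (hn : O e3 = ‖a‖⁻¹ • a) (ha : a ≠ 0) (z : E3) :
    ⟪a, ρ • O z⟫ = ‖a‖ * ρ * z 2 := by
  have : a = ‖a‖ • O e3 := by rw [hn, smul_smul, mul_inv_cancel₀ (norm_ne_zero_iff.2 ha), one_smul]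
  conv_lhs => rw [this, real_inner_smul_left, real_inner_smul_right, O.inner_map_map]
  simp [e3, EuclideanSpace.inner_single_left]; ring

lemma cu_sub (hn : O e3 = ‖a‖⁻¹ • a) (ha : a ≠ 0) (hρ : ρ ≠ 0) (g : E3 → ℝ) (z : E3) :
    cu O a P b ρ g z - z 2 =
      (g (chart O P ρ z) - (⟪a, chart O P ρ z⟫ + b)) / (‖a‖ * ρ) := by
  have h := inner_chart (ρ := ρ) hn ha z
  rw [cu, nrm, show ⟪a, chart O P ρ z⟫ = ⟪a, P⟫ + ‖a‖ * ρ * z 2 by
    rw [chart, inner_add_right, h]]
  field_simp [norm_ne_zero_iff.2 ha]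
  ring

lemma norm_sub_axis (z : E3) : ‖z - z 2 • e3‖ = lat z := by
  rw [lat, ← Real.sqrt_sq (norm_nonneg _), norm_sq_eq_lat]
  congr 1
  simp [latSq, e3]

lemma lat_le_norm (x : E3) : lat x ≤ ‖x‖ := by
  rw [lat, Real.sqrt_le_left (norm_nonneg _), norm_sq_eq_lat]; nlinarith

/-- rotated vectors in the original coordinates -/
lemma rot_bounds (hn : O e3 = ‖a‖⁻¹ • a) (ha : 1/2 ≤ ‖a‖) (z : E3) :
    |O z 2| ≤ |z 2| + lat z ∧ lat (O z) ≤ lat z + |z 2| * (2 * lat a) := by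
  have hz : O z = z 2 • O e3 + O (z - z 2 • e3) := by rw [map_sub, map_smul]; abel
  have hy : ‖O (z - z 2 • e3)‖ = lat z := by rw [O.norm_map, norm_sub_axis]
  have hni : ‖O e3‖ = 1 := by rw [O.norm_map, norm_e3]
  constructor
  · rw [hz, PiLp.add_apply, PiLp.smul_apply, smul_eq_mul]
    refine (abs_add_le _ _).trans (add_le_add ?_ ?_)
    · rw [abs_mul]
      refine mul_le_of_le_one_right (abs_nonneg _) ?_
      rw [← Real.norm_eq_abs, ← hni]; exact PiLp.norm_apply_le _ _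
    · rw [← hy, ← Real.norm_eq_abs]; exact PiLp.norm_apply_le _ _
  · rw [hz]
    refine (lat_add_le _ _).trans ?_
    rw [lat_smul, hn, lat_smul, add_comm (lat z)]
    refine add_le_add (mul_le_mul_of_nonneg_left ?_ (abs_nonneg _)) ((lat_le_norm _).trans hy.le)
    rw [abs_inv, abs_norm, inv_mul_le_iff₀ (by linarith)]
    nlinarith [lat_nonneg a]

/-- chart image inside a box -/
lemma chart_mem_rbox (hn : O e3 = ‖a‖⁻¹ • a) (ha : 1/2 ≤ ‖a‖) (hρ : 0 ≤ ρ) {z : E3} {τ r : ℝ}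
    (h2 : |z 2| ≤ τ) (hl : lat z ≤ r) :
    chart O P ρ z ∈ rbox P (ρ * (r + τ * (2 * lat a))) (ρ * (τ + r)) := by
  obtain ⟨b2, bl⟩ := rot_bounds hn ha z
  have hl' : lat (O z) ≤ r + τ * (2 * lat a) := bl.trans
    (add_le_add hl (mul_le_mul_of_nonneg_right h2 (by have := lat_nonneg a; linarith)))
  simp only [rbox, mem_ofPred_eq, chart, add_sub_cancel_left, PiLp.smul_apply, smul_eq_mul, abs_mul,
    abs_of_nonneg hρ]
  exact ⟨mul_le_mul_of_nonneg_left (b2.trans (add_le_add h2 hl)) hρ,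
    mul_le_mul_of_nonneg_left ((abs_le_lat _).1.trans hl') hρ,
    mul_le_mul_of_nonneg_left ((abs_le_lat _).2.trans hl') hρ⟩

/-- slopes for which sub-configurations make sense -/
structure Adm (ν lam : ℝ) (O : E3 ≃ₗᵢ[ℝ] E3) (a : E3) : Prop where
  axis : O e3 = ‖a‖⁻¹ • a
  a2 : |a 2 - 1| ≤ ν * Real.sqrt lam
  lata : lat a ≤ ν
  lata2 : lat a ^ 2 ≤ ν * Real.sqrt lam

lemma Adm.norm_bounds {ν lam : ℝ} (h : Adm ν lam O a) (hν : ν ≤ 1/100) (hlam1 : lam ≤ 1) :
    99/100 ≤ ‖a‖ ∧ ‖a‖ ≤ 51/50 := by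
  have hs : Real.sqrt lam ≤ 1 := Real.sqrt_le_one.2 hlam1
  have hν0 : 0 ≤ ν := (lat_nonneg a).trans h.lata
  have h1 := abs_le.1 (h.a2.trans ((mul_le_of_le_one_right hν0 hs).trans hν))
  have h2 : a 2 ≤ ‖a‖ := (le_abs_self _).trans (by
    rw [← Real.norm_eq_abs]; exact PiLp.norm_apply_le _ _)
  have h3 : ‖a‖ ≤ |a 2| + lat a := by
    refine le_of_pow_le_pow_left₀ two_ne_zero (add_nonneg (abs_nonneg _) (lat_nonneg a)) ?_
    rw [norm_sq_eq_lat, add_sq, lat, Real.sq_sqrt (latSq_nonneg a), sq_abs]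
    nlinarith [mul_nonneg (abs_nonneg (a 2)) (Real.sqrt_nonneg (latSq a))]
  rw [abs_of_nonneg (show 0 ≤ a 2 by linarith)] at h3
  exact ⟨by linarith, by linarith [h.lata]⟩

/-- gradients near the vertical stay near the vertical in an admissible frame -/
lemma Adm.fgrad_bounds {ν lam : ℝ} (h : Adm ν lam O a) (hν : ν ≤ 1/100) (hlam1 : lam ≤ 1)
    {p : E3} (hp2 : |p 2 - 1| ≤ ν * Real.sqrt lam) (hpl : lat p ≤ ν)
    (hx : lat p * lat a ≤ ν * Real.sqrt lam) :
    |fgrad O a p 2 - 1| ≤ 6 * ν * Real.sqrt lam ∧ latSq (fgrad O a p) ≤ 36 * ν ^ 2 := by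
  obtain ⟨hL, hL'⟩ := h.norm_bounds hν hlam1
  have hs : Real.sqrt lam ≤ 1 := Real.sqrt_le_one.2 hlam1
  have hν0 : 0 ≤ ν := (lat_nonneg a).trans h.lata
  have hsν : ν * Real.sqrt lam ≤ ν := mul_le_of_le_one_right hν0 hs
  have e2 : fgrad O a p 2 - 1 = (⟪a, p⟫ - ‖a‖ ^ 2) / ‖a‖ ^ 2 := by
    rw [fgrad, PiLp.smul_apply, apply_e3, h.axis, real_inner_smul_left, smul_eq_mul]
    field_simp
  have hd2 : |p 2 - a 2| ≤ 2 * (ν * Real.sqrt lam) := by
    have := abs_le.1 hp2; have := abs_le.1 h.a2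
    rw [abs_le]; constructor <;> linarith
  have ha2 : |a 2| ≤ 101/100 := by
    have := abs_le.1 h.a2; rw [abs_le]; constructor <;> linarith
  have hlat : |(p 0 - a 0) * a 0 + (p 1 - a 1) * a 1| ≤ 2 * (ν * Real.sqrt lam) := by
    have hc : |p 0 * a 0 + p 1 * a 1| ≤ lat p * lat a := by
      rw [lat, lat, ← Real.sqrt_mul (latSq_nonneg p)]
      refine Real.le_sqrt_of_sq_le ?_
      rw [sq_abs]; unfold latSq
      nlinarith [sq_nonneg (p 0 * a 1 - p 1 * a 0)]
    have hh : a 0 * a 0 + a 1 * a 1 = lat a ^ 2 := by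
      rw [lat, Real.sq_sqrt (latSq_nonneg a), latSq]; ring
    have := abs_le.1 hc
    rw [abs_le]; constructor <;> nlinarith [h.lata2, sq_nonneg (lat a)]
  have hnum : |⟪a, p⟫ - ‖a‖ ^ 2| ≤ 5 * (ν * Real.sqrt lam) := by
    rw [← real_inner_self_eq_norm_sq, ← inner_sub_right, ← sum_mul_eq_inner, Fin.sum_univ_three]
    simp only [PiLp.sub_apply]
    have h3 : |a 2 * (p 2 - a 2)| ≤ 101/100 * (2 * (ν * Real.sqrt lam)) := by
      rw [abs_mul]; exact mul_le_mul ha2 hd2 (abs_nonneg _) (by norm_num)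
    have := abs_le.1 hlat; have := abs_le.1 h3
    have := mul_nonneg hν0 (Real.sqrt_nonneg lam)
    rw [abs_le]; constructor <;> linarith
  refine ⟨?_, ?_⟩
  · rw [e2, abs_div, abs_of_pos (show (0:ℝ) < ‖a‖ ^ 2 by positivity),
      div_le_iff₀ (by positivity)]
    have : (97/100:ℝ) ≤ ‖a‖ ^ 2 := by nlinarith
    nlinarith [mul_nonneg hν0 (Real.sqrt_nonneg lam)]
  · -- the lateral part is at most the distance from `a`
    have hax : O.symm a = ‖a‖ • e3 := by
      apply O.injective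
      rw [O.apply_symm_apply, map_smul, h.axis, smul_smul,
        mul_inv_cancel₀ (show ‖a‖ ≠ 0 by linarith), one_smul]
    have hl : latSq (fgrad O a p) = (‖a‖⁻¹) ^ 2 * latSq (O.symm (p - a)) := by
      rw [fgrad, map_sub, hax]
      simp [latSq, e3]
      ring
    have hn : latSq (O.symm (p - a)) ≤ (2 * ν + 2 * ν) ^ 2 := by
      calc latSq (O.symm (p - a)) ≤ ‖O.symm (p - a)‖ ^ 2 := by
            rw [norm_sq_eq_lat]; nlinarith [sq_nonneg (O.symm (p - a) 2)]
        _ = ‖p - a‖ ^ 2 := by rw [LinearIsometryEquiv.norm_map]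
        _ ≤ (2 * ν + 2 * ν) ^ 2 := by
            refine pow_le_pow_left₀ (norm_nonneg _) ?_ 2
            refine le_trans ?_ (add_le_add (hd2.trans (by linarith))
              (show lat (p - a) ≤ 2 * ν from ?_))
            · refine le_of_pow_le_pow_left₀ two_ne_zero (add_nonneg (abs_nonneg _) (lat_nonneg _)) ?_
              rw [norm_sq_eq_lat, add_sq, lat, Real.sq_sqrt (latSq_nonneg _), PiLp.sub_apply,
                sq_abs]
              nlinarith [mul_nonneg (abs_nonneg (p 2 - a 2)) (Real.sqrt_nonneg (latSq (p - a)))]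
            · have := lat_add_le p (-a)
              rw [← sub_eq_add_neg] at this
              have e : lat (-a) = lat a := by simp [lat, latSq]
              linarith [h.lata]
    rw [hl]
    have hinv : (‖a‖⁻¹) ^ 2 ≤ (100/99 : ℝ) ^ 2 :=
      pow_le_pow_left₀ (by positivity) (by rw [inv_le_comm₀ (by linarith) (by norm_num)]; linarith) 2
    calc _ ≤ (100/99 : ℝ) ^ 2 * (2 * ν + 2 * ν) ^ 2 := mul_le_mul hinv hn (latSq_nonneg _) (by norm_num)
      _ ≤ _ := by nlinarith [sq_nonneg ν]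

/-- the bounds on a gradient that Bernstein provides -/
def GradBd (C lam : ℝ) (p : E3) : Prop :=
  ‖p‖ ^ 2 - 1 ≤ C * lam ∧ ‖p‖ ^ 2 - p 2 / 2 - 1 / 2 ≤ C * lam

lemma gsq_tilt_iff (g : E3 → ℝ) (x : E3) (C lam : ℝ) :
    (gsq g x - 1 ≤ C * lam ∧ gTilt g x ≤ C * lam) ↔ GradBd C lam (grad g x) := by
  rw [gTilt, gsq_eq_norm, pd_eq_grad, GradBd]

lemma gradBd_iff_qtest (O : E3 ≃ₗᵢ[ℝ] E3) (a p : E3) (C lam : ℝ) :
    GradBd C lam (fgrad O a p) ↔
      qtest (‖a‖⁻¹ ^ 2) 0 p ≤ C * lam + 1 ∧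
      qtest (‖a‖⁻¹ ^ 2) (-(‖a‖⁻¹ / 2) • O e3) p ≤ C * lam + 1 / 2 := by
  rw [GradBd, qtest, qtest, inner_zero_left, real_inner_smul_left, fgrad, norm_smul,
    LinearIsometryEquiv.norm_map, PiLp.smul_apply, apply_e3, norm_inv, norm_norm, smul_eq_mul,
    mul_pow]
  constructor <;> intro h <;> constructor <;> nlinarith [h.1, h.2]

/-- moving a bound to a mollification -/
lemma gradBd_moll {v : E3 → ℝ} {K : ℝ≥0} (hv : LipschitzWith K v) {C lam : ℝ} {U T : Set E3}
    (hU : IsOpen U) (hT : IsCompact T) (hTU : T ⊆ U)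
    (h : ∀ᵐ x, x ∈ U → GradBd C lam (fgrad O a (∇ v x))) :
    ∀ᶠ m in 𝓝[>] (0 : ℝ), ∀ x ∈ T, GradBd C lam (fgrad O a (grad (moll m v) x)) := by
  obtain ⟨r, hr, hrU⟩ := hT.exists_cthickening_subset_open hU hTU
  filter_upwards [Ioc_mem_nhdsGT hr] with m hm x hx
  rw [← gradient_eq_grad, gradBd_iff_qtest]
  have hb : ∀ᵐ y, y ∈ closedBall x m → GradBd C lam (fgrad O a (∇ v y)) := by
    filter_upwards [h] with y hy hyb
    exact hy (hrU (mem_cthickening_of_dist_le y x r T hx ((mem_closedBall.1 hyb).trans hm.2)))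
  constructor <;> refine qtest_moll_le hv hm.1 (by positivity) ?_ <;>
    filter_upwards [hb] with y hy hyb
  · exact ((gradBd_iff_qtest O a _ C lam).1 (hy hyb)).1
  · exact ((gradBd_iff_qtest O a _ C lam).1 (hy hyb)).2

/-- open set covered by the Bernstein bounds -/
def inner0 (lam : ℝ) : Set E3 := {z | |z 2| < 5 / 8 ∧ lat z < 32 * Real.sqrt lam}

/-- compact set on which bounds for mollifications are drawn -/
def inner1 (lam : ℝ) : Set E3 := {z | |z 2| ≤ 1 / 2 ∧ lat z ≤ 31 * Real.sqrt lam}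

lemma isCompact_latbox (τ r : ℝ) : IsCompact {z : E3 | |z 2| ≤ τ ∧ lat z ≤ r} := by
  refine (isCompact_rbox 0 r τ).of_isClosed_subset ?_ fun z hz => ?_
  · rw [ofPred_and]
    exact (isClosed_le (by fun_prop) continuous_const).inter
      (isClosed_le continuous_lat continuous_const)
  · simp only [rbox, sub_zero, mem_ofPred_eq]
    exact ⟨hz.1, (abs_le_lat z).1.trans hz.2, (abs_le_lat z).2.trans hz.2⟩

lemma isOpen_latbox (τ r : ℝ) : IsOpen {z : E3 | |z 2| < τ ∧ lat z < r} := by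
  rw [ofPred_and]
  exact (isOpen_lt (by fun_prop) continuous_const).inter (isOpen_lt continuous_lat continuous_const)

/-- Bernstein in a sub-configuration, transferred to the mollifications of `v` itself. -/
theorem sub_gradBd {C δB : ℝ} (hC : 0 ≤ C) (hδB : 0 < δB)
    (hB : ∀ (lam ε : ℝ) (v : E3 → ℝ), 0 < lam → lam ≤ δB → ε ≤ lam → Sol0 ε (wbox lam) v →
      (∀ x ∈ wbox lam, |v x - x 2| ≤ 2 * lam) →
      (∀ K, IsCompact K → K ⊆ wbox lam → ∀ᶠ η in 𝓝[>] (0 : ℝ), ∀ x ∈ K,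
        |pd 2 (moll η v) x - 1| ≤ δB ∧ pLatSq (moll η v) x ≤ δB) →
      ∀ᶠ η in 𝓝[>] (0 : ℝ), ∀ x ∈ mbox lam,
        gsq (moll η v) x - 1 ≤ C * lam ∧ gTilt (moll η v) x ≤ C * lam)
    {lam ε ν h : ℝ} (hlam : 0 < lam) (hlam1 : lam ≤ 1) (hν : ν ≤ 1/100)
    (hνB : 6 * ν ≤ δB) (hνB' : 72 * ν ^ 2 ≤ δB) (hadm : Adm ν lam O a) (hρ : 0 < ρ)
    (hh : 1 ≤ h) (hhlam : h * lam ≤ δB) (hε : ε / ‖a‖ ^ 2 ≤ h * lam) {v : E3 → ℝ} {K : ℝ≥0}
    (hv : LipschitzWith K v)
    (hsol : Sol0 (ε * ρ ^ 2 / (‖a‖ * ρ) ^ 2) (wbox (h * lam)) (cu O a P b ρ v))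
    (hmap : MapsTo (chart O P ρ) (wbox (h * lam)) (kbox lam))
    (hflat : ∀ z ∈ wbox (h * lam),
      |v (chart O P ρ z) - (⟪a, chart O P ρ z⟫ + b)| ≤ h * lam * ρ)
    (htop : ∀ᶠ m in 𝓝[>] (0 : ℝ), ∀ x ∈ mbox lam, |pd 2 (moll m v) x - 1| ≤ ν * Real.sqrt lam ∧
      lat (grad (moll m v) x) ≤ ν ∧ lat (grad (moll m v) x) * lat a ≤ ν * Real.sqrt lam) :
    ∀ᶠ m in 𝓝[>] (0 : ℝ), ∀ z ∈ inner1 (h * lam),
      GradBd C (h * lam) (grad (cu O a P b ρ (moll m v)) z) := by
  obtain ⟨hL, hL'⟩ := hadm.norm_bounds hν hlam1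
  set Good : Set E3 := {p | |p 2 - 1| ≤ ν * Real.sqrt lam ∧ lat p ≤ ν ∧
    lat p * lat a ≤ ν * Real.sqrt lam} with hGood
  have hGc : IsClosed Good := by
    rw [hGood, ofPred_and, ofPred_and]
    exact (isClosed_le (by fun_prop) continuous_const).inter
      ((isClosed_le continuous_lat continuous_const).inter
        (isClosed_le (continuous_lat.mul continuous_const) continuous_const))
  have hae : ∀ᵐ x, x ∈ mbox lam → ∇ v x ∈ Good := by
    filter_upwards [ae_tendsto_mol (g := fun y => ∇ v y)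
      (locallyIntegrable_of_bounded (measurable_gradient v).aestronglyMeasurable
        (norm_gradient_le hv))] with x hx hxS
    refine hGc.mem_of_tendsto hx ?_
    filter_upwards [htop, self_mem_nhdsWithin] with m hm hm0
    have hm0 : 0 < m := hm0
    rw [← gradient_mol m hv x, ← moll_eq_mol hm0, gradient_eq_grad]
    exact hm x hxS
  have hkm : kbox lam ⊆ mbox lam := fun x hx =>
    ⟨hx.1.trans (by norm_num), hx.2.trans
      (mul_le_mul_of_nonneg_right (by norm_num) (Real.sqrt_nonneg _))⟩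
  set v' := cu O a P b ρ v with hv'
  obtain ⟨K', hK'⟩ : ∃ K', LipschitzWith K' v' := lipschitz_nrm O P ρ _ _ hv
  have hgrad' : ∀ z, ∇ v' z = fgrad O a (∇ v (chart O P ρ z)) := fun z => by
    rw [gradient_eq_grad, gradient_eq_grad, hv', grad_cu hρ.ne']
  have hs0 : Real.sqrt lam ≤ 1 := Real.sqrt_le_one.2 hlam1
  have hν0 : 0 ≤ ν := (lat_nonneg a).trans hadm.lata
  have hpre : ∀ᵐ z, z ∈ wbox (h * lam) →
      |∇ v' z 2 - 1| ≤ δB ∧ latSq (∇ v' z) ≤ 36 * ν ^ 2 := by
    filter_upwards [ae_chart O P hρ.ne' hae] with z hz hzw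
    obtain ⟨g1, g2, g3⟩ := hz (hkm (hmap hzw))
    rw [hgrad']
    obtain ⟨h1, h2⟩ := hadm.fgrad_bounds hν hlam1 g1 g2 g3
    exact ⟨h1.trans ((mul_le_of_le_one_right (by positivity) hs0).trans hνB), h2⟩
  have hw : IsOpen (wbox (h * lam)) := isOpen_latbox _ _
  have hB' := hB (h * lam) (ε * ρ ^ 2 / (‖a‖ * ρ) ^ 2) v' (by positivity) hhlam
    (by
      have hL0 : ‖a‖ ≠ 0 := by linarith
      have e : ε * ρ ^ 2 / (‖a‖ * ρ) ^ 2 = ε / ‖a‖ ^ 2 := by field_simp
      rw [e]; exact hε)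
    hsol (fun z hz => by
      rw [hv', cu_sub hadm.axis (by rintro rfl; simp at hL; linarith) hρ.ne', abs_div,
        abs_of_pos (show 0 < ‖a‖ * ρ by positivity), div_le_iff₀ (by positivity)]
      refine (hflat z hz).trans ?_
      nlinarith [show 0 ≤ h * lam * ρ by positivity])
    fun S hS hSw => by
      obtain ⟨r, hr, hrU⟩ := hS.exists_cthickening_subset_open hw hSw
      filter_upwards [Ioc_mem_nhdsGT hr] with m hm x hx
      have hb : ∀ᵐ y, y ∈ closedBall x m →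
          |∇ v' y 2 - 1| ≤ δB ∧ latSq (∇ v' y) ≤ 36 * ν ^ 2 := by
        filter_upwards [hpre] with y hy hyb
        exact hy (hrU (mem_cthickening_of_dist_le y x r S hx ((mem_closedBall.1 hyb).trans hm.2)))
      have comp : ∀ (i : Fin 3) (s c : ℝ), (∀ᵐ y, y ∈ closedBall x m → s * ∇ v' y i ≤ c) →
          s * pd i (moll m v') x ≤ c := by
        intro i s c hc
        have := qtest_moll_le hK' hm.1 le_rfl (w := s • EuclideanSpace.single i 1) (C := c) (x := x)
          (by filter_upwards [hc] with y hy hyb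
              rw [qtest, real_inner_smul_left, EuclideanSpace.inner_single_left]
              simpa only [zero_mul, zero_add, map_one, one_mul] using hy hyb)
        rw [qtest, real_inner_smul_left, EuclideanSpace.inner_single_left, gradient_eq_grad,
          ← pd_eq_grad] at this
        simpa using this
      have l2 : ∀ i : Fin 3, i ≠ 2 → |pd i (moll m v') x| ≤ 6 * ν := by
        intro i hi
        have hcmp : ∀ᵐ y, y ∈ closedBall x m → |∇ v' y i| ≤ 6 * ν := by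
          filter_upwards [hb] with y hy hyb
          have := (hy hyb).2
          refine abs_le_of_sq_le_sq ?_ (by positivity)
          unfold latSq at this
          fin_cases i
          · simp only [Fin.zero_eta]; nlinarith [sq_nonneg (∇ v' y 1)]
          · simp only [Fin.mk_one]; nlinarith [sq_nonneg (∇ v' y 0)]
          · exact absurd rfl hi
        rw [abs_le']
        constructor
        · simpa using comp i 1 (6 * ν) (by
            filter_upwards [hcmp] with y hy hyb; linarith [abs_le.1 (hy hyb)])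
        · simpa using comp i (-1) (6 * ν) (by
            filter_upwards [hcmp] with y hy hyb; linarith [abs_le.1 (hy hyb)])
      refine ⟨?_, ?_⟩
      · rw [abs_le]
        constructor
        · linarith [comp 2 (-1) (δB - 1) (by
            filter_upwards [hb] with y hy hyb; linarith [abs_le.1 (hy hyb).1])]
        · linarith [comp 2 1 (δB + 1) (by
            filter_upwards [hb] with y hy hyb; linarith [abs_le.1 (hy hyb).1])]
      · have h0 := l2 0 (by decide)
        have h1 := l2 1 (by decide)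
        rw [pLatSq, ← sq_abs (pd 0 _ x), ← sq_abs (pd 1 _ x)]
        nlinarith [abs_nonneg (pd 0 (moll m v') x), abs_nonneg (pd 1 (moll m v') x)]
  have hv'ae : ∀ᵐ z, z ∈ inner0 (h * lam) → GradBd C (h * lam) (fgrad O a (∇ v (chart O P ρ z))) := by
    filter_upwards [ae_tendsto_mol (g := fun y => ∇ v' y)
      (locallyIntegrable_of_bounded (measurable_gradient v').aestronglyMeasurable
        (norm_gradient_le hK'))] with z hz hzi
    rw [← hgrad']
    have hcl : IsClosed {p : E3 | GradBd C (h * lam) p} := by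
      simp only [GradBd, ofPred_and]
      exact (isClosed_le (by fun_prop) continuous_const).inter
        (isClosed_le (by fun_prop) continuous_const)
    refine hcl.mem_of_tendsto hz ?_
    filter_upwards [hB', self_mem_nhdsWithin] with m hm hm0
    have hm0 : 0 < m := hm0
    show GradBd C (h * lam) (mol m (fun y => ∇ v' y) z)
    rw [← gradient_mol m hK' z, ← moll_eq_mol hm0, gradient_eq_grad, ← gsq_tilt_iff]
    exact hm z ⟨hzi.1.le, hzi.2.le⟩
  have hU : IsOpen (chartInv O P ρ ⁻¹' inner0 (h * lam)) :=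
    (isOpen_latbox _ _).preimage (continuous_chartInv O P ρ)
  have hs : 0 < Real.sqrt (h * lam) := Real.sqrt_pos.2 (by positivity)
  have hTU : chart O P ρ '' inner1 (h * lam) ⊆ chartInv O P ρ ⁻¹' inner0 (h * lam) := by
    rintro x ⟨z, hz, rfl⟩
    rw [mem_preimage, chartInv_chart hρ.ne']
    exact ⟨hz.1.trans_lt (by norm_num), hz.2.trans_lt (by linarith)⟩
  have hxae : ∀ᵐ x, x ∈ chartInv O P ρ ⁻¹' inner0 (h * lam) →
      GradBd C (h * lam) (fgrad O a (∇ v x)) := by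
    refine ae_chart' O P hρ.ne' ?_
    filter_upwards [hv'ae] with z hz hzi
    rw [mem_preimage, chartInv_chart hρ.ne'] at hzi
    exact hz hzi
  filter_upwards [gradBd_moll hv hU ((isCompact_latbox _ _).image (continuous_chart O P ρ)) hTU hxae]
    with m hm z hz
  rw [grad_cu hρ.ne']
  exact hm _ ⟨z, hz, rfl⟩

end Vale.Agent.P080.C1.GoodScale
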