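import Vale.Agent.P080.C1.GoodScale.Geometry
import Vale.Agent.P080.C1.Approx.Energy
import Mathlib.Analysis.InnerProductSpace.PiL2
import Mathlib.Analysis.Calculus.FDeriv.Symmetric

/-!
# Differential operators in a chart
-/

namespace Vale.Agent.P080.C1.GoodScale

open scoped ContDiff Topology RealInnerProductSpace Gradient
open Set Filter MeasureTheory Metric

/-- the linear part of a chart -/
noncomputable def chartLin (O : E3 ≃ₗᵢ[ℝ] E3) {ρ : ℝ} (hρ : ρ ≠ 0) : E3 ≃L[ℝ] E3 :=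
  O.toContinuousLinearEquiv.trans (ContinuousLinearEquiv.smulLeft (Units.mk0 ρ hρ))

lemma chartLin_apply (O : E3 ≃ₗᵢ[ℝ] E3) {ρ : ℝ} (hρ : ρ ≠ 0) (v : E3) :
    chartLin O hρ v = ρ • O v := rfl

lemma contDiff_chart {n : WithTop ℕ∞} (O : E3 ≃ₗᵢ[ℝ] E3) (P : E3) (ρ : ℝ) :
    ContDiff ℝ n (chart O P ρ) :=
  contDiff_const.add ((O : E3 →L[ℝ] E3).contDiff.const_smul ρ)

variable {O : E3 ≃ₗᵢ[ℝ] E3} {P : E3} {ρ L c : ℝ}

lemma contDiff_nrm {n : WithTop ℕ∞} {g : E3 → ℝ} (hg : ContDiff ℝ n g) :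
    ContDiff ℝ n (nrm O P ρ L c g) :=
  ((hg.comp (contDiff_chart O P ρ)).sub contDiff_const).div_const L

/-- no differentiability needed -/
lemma fderiv_nrm (hρ : ρ ≠ 0) (g : E3 → ℝ) (z v : E3) :
    fderiv ℝ (nrm O P ρ L c g) z v = ρ / L * fderiv ℝ g (chart O P ρ z) (O v) := by
  have e : nrm O P ρ L c g =
      fun z => L⁻¹ • (((fun y => g (P + y)) ∘ chartLin O hρ) z - c) := by
    funext z; simp [nrm, chart, chartLin_apply, div_eq_inv_mul]
  rw [e, show (fun z => L⁻¹ • (((fun y => g (P + y)) ∘ chartLin O hρ) z - c)) =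
      L⁻¹ • (fun z => ((fun y => g (P + y)) ∘ chartLin O hρ) z - c) from rfl,
    fderiv_const_smul_field, Pi.smul_apply, fderiv_sub_const, (chartLin O hρ).comp_right_fderiv,
    fderiv_comp_add_left]
  simp [chartLin_apply, chart, div_eq_inv_mul]
  ring

lemma grad_nrm (hρ : ρ ≠ 0) (g : E3 → ℝ) (z : E3) :
    grad (nrm O P ρ L c g) z = (ρ / L) • O.symm (grad g (chart O P ρ z)) := by
  refine ext_inner_right ℝ fun v => ?_
  rw [inner_grad, fderiv_nrm hρ, ← inner_grad, real_inner_smul_left, ← O.inner_map_map (O.symm _) v,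
    O.apply_symm_apply]

lemma gradient_eq_grad (g : E3 → ℝ) (x : E3) : ∇ g x = grad g x := by
  refine ext_inner_right ℝ fun v => ?_
  rw [inner_grad, Approx.inner_gradient]

lemma gsq_eq_norm (g : E3 → ℝ) (x : E3) : gsq g x = ‖grad g x‖ ^ 2 := by
  simp [gsq, grad, EuclideanSpace.norm_sq_eq]

lemma pLatSq_eq (g : E3 → ℝ) (x : E3) : pLatSq g x = latSq (grad g x) := rfl

lemma pd_eq_grad (g : E3 → ℝ) (x : E3) (i : Fin 3) : pd i g x = grad g x i := rfl

lemma gsq_nrm (hρ : ρ ≠ 0) (g : E3 → ℝ) (z : E3) :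
    gsq (nrm O P ρ L c g) z = (ρ / L) ^ 2 * gsq g (chart O P ρ z) := by
  rw [gsq_eq_norm, gsq_eq_norm, grad_nrm hρ, norm_smul, LinearIsometryEquiv.norm_map, mul_pow,
    Real.norm_eq_abs, sq_abs]

lemma fderiv2_nrm (hρ : ρ ≠ 0) {g : E3 → ℝ} (hg : ContDiff ℝ 2 g) (z v v' : E3) :
    fderiv ℝ (fderiv ℝ (nrm O P ρ L c g)) z v v' =
      ρ ^ 2 / L * fderiv ℝ (fderiv ℝ g) (chart O P ρ z) (O v) (O v') := by
  set Oc : E3 →L[ℝ] E3 := (O : E3 →L[ℝ] E3)
  have h1 : fderiv ℝ (nrm O P ρ L c g) =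
      fun y => (ρ / L) • (fderiv ℝ g (chart O P ρ y)).comp Oc := by
    funext y; ext w; simp [Oc, fderiv_nrm hρ]
  have hd : HasFDerivAt (fderiv ℝ g) (fderiv ℝ (fderiv ℝ g) (chart O P ρ z)) (chart O P ρ z) :=
    ((hg.fderiv_right (m := 1) (by norm_num)).differentiable (by norm_num) _).hasFDerivAt
  have hc : HasFDerivAt (chart O P ρ) (ρ • Oc) z :=
    ((Oc.hasFDerivAt).const_smul ρ).const_add P
  have := (((hd.comp z hc).clm_comp (hasFDerivAt_const Oc z)).const_smul (ρ / L)).fderiv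
  rw [h1, show (fun y => (ρ / L) • (fderiv ℝ g (chart O P ρ y)).comp Oc) =
    (ρ / L) • fun y => (fderiv ℝ g (chart O P ρ y)).comp Oc from rfl]
  rw [show (fun y => (fderiv ℝ g (chart O P ρ y)).comp Oc) =
    fun y => ((fderiv ℝ g ∘ chart O P ρ) y).comp Oc from rfl, this]
  simp [Oc]
  ring

lemma pd2_eq {g : E3 → ℝ} (hg : ContDiff ℝ 2 g) (i j : Fin 3) (x : E3) :
    pd2 i j g x =
      fderiv ℝ (fderiv ℝ g) x (EuclideanSpace.single i 1) (EuclideanSpace.single j 1) := by
  have hd : DifferentiableAt ℝ (fderiv ℝ g) x :=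
    (hg.fderiv_right (m := 1) (by norm_num)).differentiable (by norm_num) x
  show fderiv ℝ (fun y => fderiv ℝ g y (EuclideanSpace.single j 1)) x _ = _
  rw [fderiv_clm_apply hd (differentiableAt_const _)]
  simp

lemma qv_eq {g : E3 → ℝ} (hg : ContDiff ℝ 2 g) (i : Fin 3) (x : E3) :
    qv i g x = fderiv ℝ (fderiv ℝ g) x (EuclideanSpace.single i 1) (grad g x) := by
  have hgr : grad g x = ∑ j, pd j g x • EuclideanSpace.single j (1 : ℝ) := by
    ext k; simp [grad, Finset.sum_apply, Pi.single_apply]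
  rw [hgr, map_sum, qv]
  refine Finset.sum_congr rfl fun j _ => ?_
  rw [map_smul, pd2_eq hg, smul_eq_mul, mul_comm]

/-- the vector `q = D²g Dg` -/
noncomputable def qvec (g : E3 → ℝ) (x : E3) : E3 := WithLp.toLp 2 fun i => qv i g x

lemma inner_qvec {g : E3 → ℝ} (hg : ContDiff ℝ 2 g) (x v : E3) :
    ⟪qvec g x, v⟫ = fderiv ℝ (fderiv ℝ g) x v (grad g x) := by
  have hv : v = ∑ i, v i • EuclideanSpace.single i (1 : ℝ) := by
    ext k; simp [Finset.sum_apply, Pi.single_apply]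
  conv_rhs => rw [hv]
  rw [map_sum, FunLike.coe_sum, Finset.sum_apply, ← sum_mul_eq_inner]
  refine Finset.sum_congr rfl fun i _ => ?_
  simp [qvec, qv_eq hg, map_smul]
  ring

lemma qvec_nrm (hρ : ρ ≠ 0) {g : E3 → ℝ} (hg : ContDiff ℝ 2 g) (z : E3) :
    qvec (nrm O P ρ L c g) z = (ρ ^ 3 / L ^ 2) • O.symm (qvec g (chart O P ρ z)) := by
  refine ext_inner_right ℝ fun v => ?_
  rw [inner_qvec (contDiff_nrm hg), fderiv2_nrm hρ hg, grad_nrm hρ, real_inner_smul_left,
    map_smul O, O.apply_symm_apply, map_smul, ← O.inner_map_map (O.symm _) v, O.apply_symm_apply,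
    inner_qvec hg, smul_eq_mul]
  ring

lemma norm_qvec_nrm (hρ : 0 < ρ) {g : E3 → ℝ} (hg : ContDiff ℝ 2 g) (z : E3) :
    ‖qvec (nrm O P ρ L c g) z‖ = ρ ^ 3 / L ^ 2 * ‖qvec g (chart O P ρ z)‖ := by
  rw [qvec_nrm hρ.ne' hg, norm_smul, LinearIsometryEquiv.norm_map,
    Real.norm_of_nonneg (by positivity)]

lemma trH_eq {g : E3 → ℝ} (hg : ContDiff ℝ 2 g) (x : E3) :
    trH g x = ∑ i, fderiv ℝ (fderiv ℝ g) x (EuclideanSpace.single i 1)
      (EuclideanSpace.single i 1) := by
  simp [trH, pd2_eq hg]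

/-- the trace of a bilinear form is invariant under isometries -/
lemma sum_isometry (B : E3 →L[ℝ] E3 →L[ℝ] ℝ) (O : E3 ≃ₗᵢ[ℝ] E3) :
    ∑ i, B (O (EuclideanSpace.single i 1)) (O (EuclideanSpace.single i 1)) =
      ∑ i, B (EuclideanSpace.single i 1) (EuclideanSpace.single i 1) := by
  have hexp : ∀ v : E3, v = ∑ k, v k • EuclideanSpace.single k (1 : ℝ) := fun v => by
    ext m; simp [Finset.sum_apply, Pi.single_apply]
  have horth : ∀ k m : Fin 3, ∑ i, O (EuclideanSpace.single i (1 : ℝ)) k *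
      O (EuclideanSpace.single i (1 : ℝ)) m = if k = m then 1 else 0 := by
    intro k m
    have e : ∀ (i n : Fin 3), O (EuclideanSpace.single i (1 : ℝ)) n =
        O.symm (EuclideanSpace.single n (1 : ℝ)) i := fun i n => by
      have := O.inner_map_map (O.symm (EuclideanSpace.single n (1 : ℝ)))
        (EuclideanSpace.single i (1 : ℝ))
      rw [O.apply_symm_apply, EuclideanSpace.inner_single_left,
        EuclideanSpace.inner_single_right] at this
      simpa using this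
    simp only [e, sum_mul_eq_inner, LinearIsometryEquiv.inner_map_map]
    simp [EuclideanSpace.inner_single_left]
  calc ∑ i, B (O (EuclideanSpace.single i 1)) (O (EuclideanSpace.single i 1))
      = ∑ i, ∑ k, ∑ m, O (EuclideanSpace.single i (1:ℝ)) k * O (EuclideanSpace.single i (1:ℝ)) m *
          B (EuclideanSpace.single k 1) (EuclideanSpace.single m 1) := by
        refine Finset.sum_congr rfl fun i _ => ?_
        conv_lhs => rw [hexp (O (EuclideanSpace.single i 1))]
        simp only [map_sum, map_smul, FunLike.coe_sum, Finset.sum_apply, FunLike.coe_smul,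
          Pi.smul_apply, smul_eq_mul, Finset.mul_sum]
        rw [Finset.sum_comm]
        exact Finset.sum_congr rfl fun k _ => Finset.sum_congr rfl fun m _ => by ring
    _ = _ := by
        rw [Finset.sum_comm]
        refine Finset.sum_congr rfl fun k _ => ?_
        rw [Finset.sum_comm]
        simp [← Finset.sum_mul, horth]

lemma trH_nrm (hρ : ρ ≠ 0) {g : E3 → ℝ} (hg : ContDiff ℝ 2 g) (z : E3) :
    trH (nrm O P ρ L c g) z = ρ ^ 2 / L * trH g (chart O P ρ z) := by
  rw [trH_eq (contDiff_nrm hg), trH_eq hg]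
  simp only [fderiv2_nrm hρ hg, ← Finset.mul_sum]
  rw [sum_isometry (fderiv ℝ (fderiv ℝ g) (chart O P ρ z)) O]

lemma infLap_eq_inner {g : E3 → ℝ} (hg : ContDiff ℝ 2 g) (x : E3) :
    infLap g x = ⟪qvec g x, grad g x⟫ := by
  rw [inner_qvec hg, infLap_eq hg]

lemma res_nrm (hρ : ρ ≠ 0) (hL : L ≠ 0) {g : E3 → ℝ} (hg : ContDiff ℝ 2 g) (ε : ℝ) (z : E3) :
    res (ε * ρ ^ 2 / L ^ 2) (nrm O P ρ L c g) z = ρ ^ 4 / L ^ 3 * res ε g (chart O P ρ z) := by
  rw [res, res, trH_nrm hρ hg, infLap_eq_inner (contDiff_nrm hg), infLap_eq_inner hg,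
    qvec_nrm hρ hg, grad_nrm hρ, real_inner_smul_left, real_inner_smul_right,
    LinearIsometryEquiv.inner_map_map]
  field_simp

lemma continuous_grad {g : E3 → ℝ} (hg : ContDiff ℝ 1 g) : Continuous (grad g) :=
  (PiLp.continuous_toLp 2 _).comp
    (continuous_pi fun _ => (hg.continuous_fderiv one_ne_zero).clm_apply continuous_const)

lemma continuous_pd2 {g : E3 → ℝ} (hg : ContDiff ℝ 2 g) (i j : Fin 3) :
    Continuous (pd2 i j g) := by
  rw [funext (pd2_eq hg i j)]
  exact (((hg.fderiv_right (m := 1) (by norm_num)).continuous_fderiv one_ne_zero).clm_apply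
    continuous_const).clm_apply continuous_const

lemma continuous_qv {g : E3 → ℝ} (hg : ContDiff ℝ 2 g) (i : Fin 3) : Continuous (qv i g) :=
  continuous_finsetSum _ fun j _ => (continuous_pd2 hg i j).mul
    ((hg.continuous_fderiv (by norm_num)).clm_apply continuous_const)

lemma continuous_qvec {g : E3 → ℝ} (hg : ContDiff ℝ 2 g) : Continuous (qvec g) :=
  (PiLp.continuous_toLp 2 _).comp (continuous_pi fun i => continuous_qv hg i)

lemma continuous_trH {g : E3 → ℝ} (hg : ContDiff ℝ 2 g) : Continuous (trH g) :=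
  continuous_finsetSum _ fun i _ => continuous_pd2 hg i i

lemma continuous_res {g : E3 → ℝ} (hg : ContDiff ℝ 2 g) (ε : ℝ) : Continuous (res ε g) := by
  unfold res
  rw [show infLap g = fun x => ⟪qvec g x, grad g x⟫ from funext (infLap_eq_inner hg)]
  exact (continuous_const.mul (continuous_trH hg)).add
    ((continuous_qvec hg).inner (continuous_grad (hg.of_le (by norm_num))))

lemma continuous_gsq {g : E3 → ℝ} (hg : ContDiff ℝ 1 g) : Continuous (gsq g) := by
  rw [funext (gsq_eq_norm g)]; exact (continuous_grad hg).norm.pow 2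

/-- derivative of `|Dg|²/2` -/
lemma hasFDerivAt_gsq {g : E3 → ℝ} (hg : ContDiff ℝ 2 g) (x : E3) :
    HasFDerivAt (gsq g) (2 • innerSL ℝ (qvec g x)) x := by
  have hd : ∀ i, HasFDerivAt (pd i g)
      ((fderiv ℝ (fderiv ℝ g) x).flip (EuclideanSpace.single i 1)) x := fun i => by
    have h := ((hg.fderiv_right (m := 1) (by norm_num)).differentiable (by norm_num) x).hasFDerivAt
    exact h.clm_apply (hasFDerivAt_const (EuclideanSpace.single i (1:ℝ)) x) |>.congr_fderiv (by simp)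
  have h : HasFDerivAt (gsq g) (∑ i, (2 * pd i g x ^ (2 - 1)) •
      (fderiv ℝ (fderiv ℝ g) x).flip (EuclideanSpace.single i 1)) x := by
    have := HasFDerivAt.fun_sum (u := Finset.univ) fun i _ => (hd i).pow 2
    exact this.congr_fderiv (by simp)
  refine h.congr_fderiv ?_
  ext v
  simp only [FunLike.coe_sum, Finset.sum_apply, FunLike.coe_smul, Pi.smul_apply, innerSL_apply_apply,
    inner_qvec hg, ContinuousLinearMap.flip_apply, smul_eq_mul, nsmul_eq_mul]
  have hgr : grad g x = ∑ j, pd j g x • EuclideanSpace.single j (1 : ℝ) := by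
    ext k; simp [grad, Finset.sum_apply, Pi.single_apply]
  rw [hgr, map_sum, Finset.mul_sum]
  refine Finset.sum_congr rfl fun i _ => ?_
  simp [map_smul]
  ring

end Vale.Agent.P080.C1.GoodScale
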